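import Vale.Agent.P159.H963.NeuI

/-!
P159, module NEU (helper963), part 10: the neutral model with cell masses (letters of helper864).
-/

namespace Vale.Agent.P159.H963

open Finset Matrix MeasureTheory
open Vale.Agent.P159.TM.H104 (EM Ex Cv K3 Lg li nh Gr)
open Vale.Agent.P159.H37
open Vale.Agent.P159.TM.Spec (V)
open Vale.Agent.P159.TM.SpecC (Tor wT)
open Vale.Agent.P159.H864 (TI TInv tra sym Inv CT CInv MC cl up cobV Gc)
open Vale.Agent.P159.TM.H764 (cN sN dt)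

set_option linter.unusedSectionVars false

noncomputable section

variable {N l : ℕ} [NeZero N] [NeZero (N / l)] {b t τ : ℝ}

theorem mf_MC (hl : l ∣ N) (hτ : 0 < τ) (h : τ ≤ t) : MF (MC N l t τ) τ where
  symm := H864.MC_tr N l t τ
  row := H864.MC_row hl t τ
  coer := ⟨τ, hτ, H864.qf_MC_ge hl h⟩

/-! ### the means -/

lemma sum_cobV_tr (hl : l ∣ N) (φ : V (N / l) → ℝ) :
    ∑ x, ((cobV N l)ᵀ *ᵥ φ) x = (l : ℝ) * ∑ c, φ c := by
  have h1 : ∑ x, ((cobV N l)ᵀ *ᵥ φ) x = (fun _ => (1 : ℝ)) ⬝ᵥ ((cobV N l)ᵀ *ᵥ φ) := by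
    simp [dotProduct]
  have h2 : (fun _ : V N => (1 : ℝ)) ᵥ* (cobV N l)ᵀ = fun _ : V (N / l) => (l : ℝ) := by
    rw [vecMul_transpose]
    exact H864.cobV_one hl
  rw [h1, dotProduct_mulVec, h2, Finset.mul_sum]
  rfl

lemma neu_cobV_tr (hl : l ∣ N) {φ : V (N / l) → ℝ} (hφ : Neu φ) : Neu ((cobV N l)ᵀ *ᵥ φ) := by
  unfold Neu
  rw [sum_cobV_tr hl, hφ, mul_zero]

lemma cardV (n : ℕ) [NeZero n] : (Fintype.card (V n) : ℝ) = (n : ℝ) ^ 2 := TM.H764.card_V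

lemma N_eq (hl : l ∣ N) : (N : ℝ) = l * (N / l : ℕ) := by
  have : N = l * (N / l) := (Nat.mul_div_cancel' hl).symm
  exact_mod_cast this

/-- cell averages commute with the neutral projections -/
lemma Pn_cobV_tr (hl : l ∣ N) (φ : V (N / l) → ℝ) :
    (Pn : Matrix (V N) (V N) ℝ) *ᵥ ((cobV N l)ᵀ *ᵥ φ) =
      (cobV N l)ᵀ *ᵥ ((Pn : Matrix (V (N / l)) (V (N / l)) ℝ) *ᵥ φ) := by
  funext x
  have hlp : (0 : ℝ) < l := by exact_mod_cast H864.l_pos hl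
  have hn : (0 : ℝ) < (N / l : ℕ) := by exact_mod_cast NeZero.pos (N / l)
  rw [Pn_mulVec, Pn_mulVec, sum_cobV_tr hl, H864.cobV_tr_mulVec]
  show ((cobV N l)ᵀ *ᵥ φ) x - (l * ∑ c, φ c) / (Fintype.card (V N) : ℝ) = _
  rw [H864.cobV_tr_mulVec, cardV, cardV, N_eq hl]
  field_simp

lemma Pn_mul_cobV_tr (hl : l ∣ N) :
    (Pn : Matrix (V N) (V N) ℝ) * (cobV N l)ᵀ =
      (cobV N l)ᵀ * (Pn : Matrix (V (N / l)) (V (N / l)) ℝ) := by
  refine Matrix.ext_of_mulVec_single fun c => ?_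
  rw [← mulVec_mulVec, ← mulVec_mulVec, Pn_cobV_tr hl]

lemma cobV_mul_Pn (hl : l ∣ N) :
    cobV N l * (Pn : Matrix (V N) (V N) ℝ) =
      (Pn : Matrix (V (N / l)) (V (N / l)) ℝ) * cobV N l := by
  have h1 := congrArg Matrix.transpose (Pn_mul_cobV_tr (N := N) hl)
  rw [transpose_mul, transpose_mul, transpose_transpose, Pn_transpose, Pn_transpose] at h1
  exact h1

/-! ### the neutral channel -/

/-- the neutral mass form only sees `ntr` -/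
lemma nM_congr {V' : Type} [Fintype V'] [DecidableEq V'] (w : (V' → ℤ) → ℝ)
    {M M' : Matrix V' V' ℝ} {m m' : ℝ} (h : ntr M m = ntr M' m') (x₀ : V') :
    nM w M m x₀ = nM w M' m' x₀ := by
  unfold nM
  rw [h]

lemma cellP_ones (hl : l ∣ N) (x : V N) : ∑ y, cellP N l x y = 1 := by
  have h := congrFun (H864.cellP_one hl) x
  simpa [Matrix.mulVec, dotProduct] using h

lemma Pn_cellP_Pn (hl : l ∣ N) : (Pn : Matrix (V N) (V N) ℝ) * cellP N l *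
    (Pn : Matrix (V N) (V N) ℝ) = ntr (cellP N l) 1 := by
  have h1 : ∀ u : V N → ℝ, ((Pn : Matrix (V N) (V N) ℝ) * cellP N l *
      (Pn : Matrix (V N) (V N) ℝ)) *ᵥ u = (ntr (cellP N l) 1) *ᵥ u := by
    intro u
    rw [← mulVec_mulVec, ← mulVec_mulVec]
    funext x
    have h2 : ∑ y, (cellP N l *ᵥ ((Pn : Matrix (V N) (V N) ℝ) *ᵥ u)) y = 0 := by
      have h3 : Neu (cellP N l *ᵥ ((Pn : Matrix (V N) (V N) ℝ) *ᵥ u)) := by
        unfold Neu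
        have h4 : ∀ v : V N → ℝ, ∑ y, (cellP N l *ᵥ v) y = ∑ y, v y := by
          intro v
          simp only [Matrix.mulVec, dotProduct]
          rw [Finset.sum_comm]
          refine Finset.sum_congr rfl fun y _ => ?_
          rw [← Finset.sum_mul]
          have h5 : ∑ i, cellP N l i y = 1 := by
            rw [← cellP_ones hl y]
            refine Finset.sum_congr rfl fun i _ => ?_
            have := congrFun (congrFun (H864.cellP_tr N l) y) i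
            rw [← this]
            rfl
          rw [h5, one_mul]
        rw [h4]
        exact neu_Pn u
      exact h3
    rw [Pn_mulVec, h2, zero_div, ntr_mulVec]
    show (cellP N l *ᵥ ((Pn : Matrix (V N) (V N) ℝ) *ᵥ u)) x - 0 = _
    rw [sub_zero]
    have h6 : cellP N l *ᵥ ((Pn : Matrix (V N) (V N) ℝ) *ᵥ u) =
        cellP N l *ᵥ u - ((∑ y, u y) / Fintype.card (V N)) • (cellP N l *ᵥ fun _ => 1) := by
      rw [← mulVec_smul, ← mulVec_sub]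
      congr 1
      rw [Pn_mulVec]
      funext y
      simp
    rw [h6, H864.cellP_one hl]
    simp only [Pi.sub_apply, Pi.smul_apply, smul_eq_mul, mul_one]
    ring
  exact Matrix.ext_of_mulVec_single fun c => h1 _

/-- the observation of the neutral channel : cell averages minus their mean -/
def obsN (N l : ℕ) [NeZero N] [NeZero (N / l)] (s : ℝ) : Matrix (V (N / l)) (V N) ℝ :=
  Real.sqrt s • ((Pn : Matrix (V (N / l)) (V (N / l)) ℝ) * cobV N l)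

lemma obsN_row (hl : l ∣ N) (s : ℝ) (c : V (N / l)) : ∑ x, obsN N l s c x = 0 := by
  unfold obsN
  rw [← cobV_mul_Pn hl]
  have h : (Real.sqrt s • (cobV N l * (Pn : Matrix (V N) (V N) ℝ))) *ᵥ (fun _ => (1 : ℝ)) = 0 := by
    rw [smul_mulVec, ← mulVec_mulVec]
    have : (Pn : Matrix (V N) (V N) ℝ) *ᵥ (fun _ => (1 : ℝ)) = 0 := by
      funext y
      simp only [Matrix.mulVec, dotProduct, mul_one, Pi.zero_apply]
      exact Pn_row y
    rw [this, mulVec_zero, smul_zero]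
  have := congrFun h c
  simpa [Matrix.mulVec, dotProduct] using this

lemma obsN_gram (hl : l ∣ N) {s : ℝ} (hs : 0 ≤ s) :
    (obsN N l s)ᵀ * obsN N l s = s • ntr (cellP N l) 1 := by
  unfold obsN
  rw [transpose_smul, Matrix.smul_mul, Matrix.mul_smul, smul_smul, Real.mul_self_sqrt hs,
    ← cobV_mul_Pn hl, transpose_mul,
    Pn_transpose, Matrix.mul_assoc, ← Matrix.mul_assoc (cobV N l)ᵀ, ← H864.cellP_eq hl,
    ← Matrix.mul_assoc, Pn_cellP_Pn hl]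

lemma ntr_MC_add (N l : ℕ) [NeZero N] (t τ τ' : ℝ) :
    ntr (MC N l t τ') τ' + (τ - τ') • ntr (cellP N l) 1 = ntr (MC N l t τ) τ := by
  rw [← H864.MC_add N l t τ τ']
  unfold ntr
  ext x y
  simp only [Matrix.add_apply, Matrix.sub_apply, Matrix.of_apply, Matrix.smul_apply, smul_eq_mul]
  ring

/-- the neutral weight with the cell mass form -/
def nMC (N l : ℕ) [NeZero N] (b t τ : ℝ) (x₀ : V N) : (V N → ℤ) → ℝ :=
  nM (wT b N) (MC N l t τ) τ x₀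

theorem em_nMC (hb : 0 ≤ b) (hl : l ∣ N) (hτ : 0 < τ) (h : τ ≤ t) (x₀ : V N) :
    EM (nMC N l b t τ x₀) := (gw_wT hb).em_nM (mf_MC hl hτ h) x₀

theorem ev_nMC (hb : 0 ≤ b) (t τ : ℝ) (x₀ : V N) : Ev (nMC N l b t τ x₀) :=
  (gw_wT hb).ev_nM _ _ x₀

theorem pk_nMC (hb : 0 ≤ b) (hl : l ∣ N) (hτ : 0 < τ) (h : τ ≤ t) (x₀ : V N) :
    PK (nMC N l b t τ x₀) := (gw_wT hb).pk_nM (mf_MC hl hτ h) x₀

lemma nMC_self (N l : ℕ) [NeZero N] (b t : ℝ) (x₀ : V N) : nMC N l b t t x₀ = nwt N b t x₀ := by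
  unfold nMC nwt nM
  rw [H864.MC_self]

/-- **the neutral channel on the cells** -/
theorem post_nMC (hl : l ∣ N) (b : ℝ) {t τ τ' : ℝ} (h : τ' ≤ τ) (x₀ : V N) :
    post (nMC N l b t τ' x₀) (obsN N l (τ - τ')) = nMC N l b t τ x₀ := by
  unfold nMC nM
  rw [post_pin, post_wM, obsN_gram hl (sub_nonneg.2 h), ntr_MC_add]

/-! ### the neutral cell covariance -/

lemma cinv_ntr (hl : l ∣ N) (b t τ : ℝ) : CInv l (wM (wT b N) (ntr (MC N l t τ) τ)) :=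
  fun a => H864.inv_wM ((H864.tinv_wT b).cinv a) fun x y => by
    rw [ntr_apply, ntr_apply]
    exact congrArg (fun r => r - τ / (Fintype.card (V N) : ℝ)) ((H864.ct_MC hl t τ).tr a x y)

/-- the neutral covariance matrix with cell masses -/
def GnC (N l : ℕ) [NeZero N] (b t τ : ℝ) : Matrix (V N) (V N) ℝ :=
  Cn (wM (wT b N) (ntr (MC N l t τ) τ)) 0 0

theorem ct_GnC (hb : 0 ≤ b) (hl : l ∣ N) (hτ : 0 < τ) (h : τ ≤ t) : CT l (GnC N l b t τ) where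
  tr a x y := by
    have := Cn_perm ((gw_wT hb).grI_wM (mf_MC hl hτ h)) (cinv_ntr hl b t τ a)
      (em_nMC hb hl hτ h 0) (Neu.zero (V := V N)) x y
    exact this.symm
  sy x y := Cn_symm _ 0 0 x y

lemma qf_GnC_neu (N l : ℕ) [NeZero N] (b t τ : ℝ) {u : V N → ℝ} (hu : Neu u) :
    qf (GnC N l b t τ) u = qf (Gm (nMC N l b t τ 0)) u := qf_Cn_neu _ 0 0 hu

/-- the neutral cell covariance -/
def Gnc (N l : ℕ) [NeZero N] [NeZero (N / l)] (b t τ : ℝ) : Matrix (V (N / l)) (V (N / l)) ℝ :=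
  Gc l (GnC N l b t τ)

theorem ti_Gnc (hb : 0 ≤ b) (hl : l ∣ N) (hτ : 0 < τ) (h : τ ≤ t) : TI (Gnc N l b t τ) :=
  H864.ti_Gc hl (ct_GnC hb hl hτ h)

lemma qf_Gnc_neu (hl : l ∣ N) (b t τ : ℝ) {φ : V (N / l) → ℝ} (hφ : Neu φ) :
    qf (Gnc N l b t τ) φ = qf (Gm (nMC N l b t τ 0)) ((cobV N l)ᵀ *ᵥ φ) := by
  unfold Gnc
  rw [H864.qf_Gc, qf_GnC_neu N l b t τ (neu_cobV_tr hl hφ)]

lemma sym_Gnc_zero (hl : l ∣ N) (hb : 0 ≤ b) (hτ : 0 < τ) (h : τ ≤ t) :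
    sym (Gnc N l b t τ) 0 = 0 := by
  have h1 := H864.qf_wave (ti_Gnc hb hl hτ h) 0
  have h2 : ∀ φ : V (N / l) → ℝ, qf (Gnc N l b t τ) φ =
      qf (Cm (pin (wM (wT b N) (ntr (MC N l t τ) τ)) 0) 0)
        ((cobV N l)ᵀ *ᵥ ((Pn : Matrix (V (N / l)) (V (N / l)) ℝ) *ᵥ φ)) := by
    intro φ
    unfold Gnc GnC
    rw [H864.qf_Gc, qf_Cn, Pn_cobV_tr hl]
  have h3 : (Pn : Matrix (V (N / l)) (V (N / l)) ℝ) *ᵥ (fun x => cN (dt 0 x)) = 0 := by
    have e : (fun x : V (N / l) => cN (dt 0 x)) = fun _ => (1 : ℝ) := by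
      funext x
      rw [H864.dt_zero_left, TM.H764.cN_zero]
    rw [e]
    funext y
    simp only [Matrix.mulVec, dotProduct, mul_one, Pi.zero_apply]
    exact Pn_row y
  have h4 : (Pn : Matrix (V (N / l)) (V (N / l)) ℝ) *ᵥ (fun x => sN (dt 0 x)) = 0 := by
    have e : (fun x : V (N / l) => sN (dt 0 x)) = 0 := by
      funext x
      rw [H864.dt_zero_left, TM.H764.sN_zero]
      rfl
    rw [e, mulVec_zero]
  rw [h2, h2, h3, h4, mulVec_zero, qf_zero_vec, add_zero] at h1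
  have h5 : ((N / l : ℕ) : ℝ) ^ 2 ≠ 0 := (H864.N_pos (N := N / l)).ne'
  rcases mul_eq_zero.1 h1.symm with h | h
  · exact absurd h h5
  · exact h

lemma cobV_tr_ne (hl : l ∣ N) {φ : V (N / l) → ℝ} (hφ : φ ≠ 0) : (cobV N l)ᵀ *ᵥ φ ≠ 0 := by
  intro h
  apply hφ
  have h1 := congrArg (fun u => cobV N l *ᵥ u) h
  simp only [mulVec_mulVec, H864.cobV_mul_tr hl, one_mulVec, mulVec_zero] at h1
  exact h1

theorem sym_Gnc_pos (hb : 0 < b) (hl : l ∣ N) (hτ : 0 < τ) (h : τ ≤ t) {k : V (N / l)}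
    (hk : k ≠ 0) : 0 < sym (Gnc N l b t τ) k := by
  refine sym_pos_of_waves (ti_Gnc hb.le hl hτ h) ?_ ?_
  · rw [qf_Gnc_neu hl b t τ (neu_cN hk)]
    exact qf_pin_pos (em_nMC hb.le hl hτ h 0)
      (fun h => mul_pos (H864.wT_pos hb h) (Real.exp_pos _)) 0
      (neu_cobV_tr hl (neu_cN hk)) (cobV_tr_ne hl (waves_ne k))
  · rw [qf_Gnc_neu hl b t τ (neu_sN k)]
    exact H864.qf_Cm_nonneg (em_nMC hb.le hl hτ h 0) 0 _

lemma qf_nMC_cell_le (hb : 0 ≤ b) (hl : l ∣ N) (hτ : 0 < τ) (h : τ ≤ t) {φ : V (N / l) → ℝ}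
    (hφ : Neu φ) : qf (Gm (nMC N l b t τ 0)) ((cobV N l)ᵀ *ᵥ φ) ≤ τ⁻¹ * ∑ c, φ c ^ 2 := by
  have h1 := (gw_wT hb).qf_nM_le_inv (mf_MC hl hτ h) (0 : V N) (neu_cobV_tr hl hφ)
  have h2 : qf (MC N l t τ)⁻¹ ((cobV N l)ᵀ *ᵥ φ) = τ⁻¹ * ∑ c, φ c ^ 2 := by
    rw [H864.MC_inv hl (hτ.trans_le h).ne' hτ.ne', qf_eq, H864.MC_mulVec_tr hl, dotProduct_smul,
      smul_eq_mul, ← H864.sq_cobV_tr hl φ]
    congr 1
    simp only [dotProduct]
    exact Finset.sum_congr rfl fun x _ => by ring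
  rw [h2] at h1
  exact h1

theorem sym_Gnc_le (hb : 0 ≤ b) (hl : l ∣ N) (hτ : 0 < τ) (h : τ ≤ t) (k : V (N / l)) :
    sym (Gnc N l b t τ) k ≤ τ⁻¹ := by
  by_cases hk : k = 0
  · rw [hk, sym_Gnc_zero hl hb hτ h]
    positivity
  · refine sym_le_of_waves (ti_Gnc hb hl hτ h) ?_ ?_
    · rw [qf_Gnc_neu hl b t τ (neu_cN hk)]
      exact qf_nMC_cell_le hb hl hτ h (neu_cN hk)
    · rw [qf_Gnc_neu hl b t τ (neu_sN k)]
      exact qf_nMC_cell_le hb hl hτ h (neu_sN k)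

theorem sym_Gnc_nonneg (hb : 0 ≤ b) (hl : l ∣ N) (hτ : 0 < τ) (h : τ ≤ t) (k : V (N / l)) :
    0 ≤ sym (Gnc N l b t τ) k := by
  refine H864.sym_nonneg_of_psd (ti_Gnc hb hl hτ h) (fun φ => ?_) k
  unfold Gnc GnC
  rw [H864.qf_Gc, qf_Cn]
  exact H864.qf_Cm_nonneg (em_nMC hb hl hτ h 0) 0 _

/-- integer versus neutral cell covariance -/
theorem sym_Gc_le_Gnc (hb : 0 ≤ b) (hl : l ∣ N) (hτ : 0 < τ) (h : τ ≤ t) {k : V (N / l)}
    (hk : k ≠ 0) : sym (Gc l (Gm (wM (wT b N) (MC N l t τ)))) k ≤ sym (Gnc N l b t τ) k := by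
  refine sym_le_of_waves' (H864.ti_Gc_Gm hl (H864.cinv_MC hl b t τ)) (ti_Gnc hb hl hτ h) ?_ ?_
  · rw [qf_Gnc_neu hl b t τ (neu_cN hk), H864.qf_Gc]
    exact (gw_wT hb).Gm_int_le_neu (mf_MC hl hτ h) 0 (neu_cobV_tr hl (neu_cN hk))
  · rw [qf_Gnc_neu hl b t τ (neu_sN k), H864.qf_Gc]
    exact (gw_wT hb).Gm_int_le_neu (mf_MC hl hτ h) 0 (neu_cobV_tr hl (neu_sN k))

/-- the neutral cell self energy (`k ≠ 0`) -/
def PinC (N l : ℕ) [NeZero N] [NeZero (N / l)] (b t τ : ℝ) (k : V (N / l)) : ℝ :=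
  (sym (Gnc N l b t τ) k)⁻¹ - τ

theorem PinC_nonneg (hb : 0 < b) (hl : l ∣ N) (hτ : 0 < τ) (h : τ ≤ t) {k : V (N / l)}
    (hk : k ≠ 0) : 0 ≤ PinC N l b t τ k := by
  unfold PinC
  rw [sub_nonneg]
  exact (le_inv_comm₀ hτ (sym_Gnc_pos hb hl hτ h hk)).2 (sym_Gnc_le hb.le hl hτ h k)

/-- at scalar mass the cell covariance is the cell average of `Gn` -/
theorem Gnc_self (N l : ℕ) [NeZero N] [NeZero (N / l)] (b t : ℝ) :
    Gnc N l b t t = Gc l (Gn N b t) := by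
  unfold Gnc GnC Gn
  rw [H864.MC_self]

end

end Vale.Agent.P159.H963
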