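import Vale.Agent.P159.H963.NeuD
import Vale.Agent.P159.H864.Cel1

/-!
P159, module NEU (helper963), part 9: inverse forms, strict positivity, the neutral covariance and
self energy on the torus and on the cells (letters of helper864).
-/

namespace Vale.Agent.P159.H963

open Finset Matrix MeasureTheory
open Vale.Agent.P159.TM.H104 (EM Ex Cv K3 Lg li nh Gr)
open Vale.Agent.P159.H37

set_option linter.unusedSectionVars false

noncomputable section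

/-! ### inverse forms -/

section inv

variable {V : Type} [Fintype V] [DecidableEq V]

lemma ntr_mulVec (M : Matrix V V ℝ) (m : ℝ) (F : V → ℝ) (x : V) :
    (ntr M m *ᵥ F) x = (M *ᵥ F) x - m / Fintype.card V * ∑ y, F y := by
  unfold ntr
  rw [sub_mulVec, Pi.sub_apply]
  congr 1
  simp only [Matrix.mulVec, dotProduct, Matrix.of_apply]
  rw [Finset.mul_sum]

lemma ntr_of_neu (M : Matrix V V ℝ) (m : ℝ) {F : V → ℝ} (hF : Neu F) :
    ntr M m *ᵥ F = M *ᵥ F := by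
  funext x
  rw [ntr_mulVec, hF, mul_zero, sub_zero]

lemma qf_ntr_neu (M : Matrix V V ℝ) (m : ℝ) {F : V → ℝ} (hF : Neu F) :
    qf (ntr M m) F = qf M F := by
  rw [qf_eq, qf_eq, ntr_of_neu M m hF]

lemma MF.det {M : Matrix V V ℝ} {m : ℝ} (hM : MF M m) : IsUnit M.det := by
  obtain ⟨m0, hm0, hc⟩ := hM.coer
  rw [isUnit_iff_ne_zero]
  intro h0
  obtain ⟨v, hv, h1⟩ := Matrix.exists_mulVec_eq_zero_iff.2 h0
  have h2 := hc v
  rw [qf_eq, h1, dotProduct_zero] at h2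
  obtain ⟨x, hx⟩ := Function.ne_iff.1 hv
  have h3 : 0 < ∑ x, v x ^ 2 :=
    Finset.sum_pos' (fun _ _ => sq_nonneg _) ⟨x, Finset.mem_univ x, by
      have : v x ≠ 0 := hx
      positivity⟩
  nlinarith [mul_pos hm0 h3]

lemma MF.mulVec_inv {M : Matrix V V ℝ} {m : ℝ} (hM : MF M m) (u : V → ℝ) :
    M *ᵥ (M⁻¹ *ᵥ u) = u := by
  rw [mulVec_mulVec, Matrix.mul_nonsing_inv _ hM.det, one_mulVec]

lemma MF.sum_mulVec {M : Matrix V V ℝ} {m : ℝ} (hM : MF M m) (F : V → ℝ) :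
    ∑ x, (M *ᵥ F) x = m * ∑ x, F x := by
  simp only [Matrix.mulVec, dotProduct]
  rw [Finset.sum_comm, Finset.mul_sum]
  refine Finset.sum_congr rfl fun y _ => ?_
  rw [← Finset.sum_mul, ← hM.row y]
  congr 1
  refine Finset.sum_congr rfl fun x _ => ?_
  have := congrFun (congrFun hM.symm y) x
  rw [← this]
  rfl

lemma MF.neu_inv [Nonempty V] {M : Matrix V V ℝ} {m : ℝ} (hM : MF M m) {u : V → ℝ} (hu : Neu u) :
    Neu (M⁻¹ *ᵥ u) := by
  have h1 := hM.sum_mulVec (M⁻¹ *ᵥ u)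
  rw [hM.mulVec_inv, hu] at h1
  have h2 := hM.pos
  unfold Neu
  rcases mul_eq_zero.1 h1.symm with h | h
  · exact absurd h h2.ne'
  · exact h

lemma MF.qf_inv {M : Matrix V V ℝ} {m : ℝ} (hM : MF M m) (u : V → ℝ) :
    qf M (M⁻¹ *ᵥ u) = qf M⁻¹ u := by
  rw [qf_eq, hM.mulVec_inv, qf_eq, dotProduct_comm]

lemma MF.qf_inv_le {M : Matrix V V ℝ} {m m0 : ℝ} (hM : MF M m) (hm0 : 0 < m0)
    (hc : ∀ u : V → ℝ, m0 * ∑ x, u x ^ 2 ≤ qf M u) (u : V → ℝ) :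
    qf M⁻¹ u ≤ (∑ x, u x ^ 2) / m0 := by
  set F := M⁻¹ *ᵥ u with hF
  have h1 := hc F
  have h2 : qf M F = ∑ x, u x * F x := by
    rw [hF, hM.qf_inv, qf_eq]
    rfl
  have h3 : qf M⁻¹ u = ∑ x, u x * F x := by rw [← hM.qf_inv, ← hF, h2]
  rw [h3, le_div_iff₀ hm0]
  rw [h2] at h1
  have h4 : ∑ x, u x * F x ≤ (∑ x, u x ^ 2) / (2 * m0) + m0 / 2 * ∑ x, F x ^ 2 := by
    rw [Finset.sum_div, Finset.mul_sum, ← Finset.sum_add_distrib]
    refine Finset.sum_le_sum fun x _ => ?_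
    have h5 : u x ^ 2 / (2 * m0) + m0 / 2 * F x ^ 2 - u x * F x = (u x - m0 * F x) ^ 2 / (2 * m0) := by
      field_simp
      ring
    have h6 : 0 ≤ (u x - m0 * F x) ^ 2 / (2 * m0) := by positivity
    linarith
  have h7 : (∑ x, u x ^ 2) / (2 * m0) * (2 * m0) = ∑ x, u x ^ 2 := by field_simp
  nlinarith

/-- neutral variances are dominated by the inverse mass form -/
theorem GW.qf_nM_le_inv [Nonempty V] {w : (V → ℤ) → ℝ} (hw : GW w) {M : Matrix V V ℝ} {m : ℝ}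
    (hM : MF M m) (x₀ : V) {u : V → ℝ} (hu : Neu u) :
    qf (Gm (nM w M m x₀)) u ≤ qf M⁻¹ u := by
  have h1 := hw.qf_Gm_le_mass hM x₀ (M⁻¹ *ᵥ u)
  rwa [ntr_of_neu M m (hM.neu_inv hu), qf_ntr_neu M m (hM.neu_inv hu), hM.mulVec_inv,
    hM.qf_inv] at h1

theorem GW.qf_wM_le_inv {w : (V → ℤ) → ℝ} (hw : GW w) {M : Matrix V V ℝ} {m : ℝ}
    (hM : MF M m) (u : V → ℝ) : qf (Gm (wM w M)) u ≤ qf M⁻¹ u := by
  have h1 := hw.qf_Gm_int_le_mass hM (M⁻¹ *ᵥ u)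
  rwa [hM.mulVec_inv, hM.qf_inv] at h1

/-- neutral log partition function is dominated by the inverse mass form -/
theorem GW.Lg_nM_le_inv [Nonempty V] {w : (V → ℤ) → ℝ} (hw : GW w) {M : Matrix V V ℝ} {m : ℝ}
    (hM : MF M m) (x₀ : V) {u : V → ℝ} (hu : Neu u) :
    Lg (nM w M m x₀) u - Lg (nM w M m x₀) 0 ≤ qf M⁻¹ u / 2 := by
  have h1 := hw.qf_An_ge hM x₀ (M⁻¹ *ᵥ u)
  rw [qf_An hM.symm, ntr_of_neu M m (hM.neu_inv hu), qf_ntr_neu M m (hM.neu_inv hu),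
    hM.mulVec_inv, hM.qf_inv] at h1
  unfold Rs at h1
  have h2 : qf (Gm (nM w M m x₀)) u = qf (Gm (pin (wM w (ntr M m)) x₀)) u := rfl
  rw [h2] at h1
  linarith

/-! ### strict positivity -/

theorem qf_pin_pos {μ : (V → ℤ) → ℝ} {x₀ : V} (hE : EM (pin μ x₀)) (hpos : ∀ h, 0 < μ h)
    (J : V → ℝ) {u : V → ℝ} (hu : Neu u) (h0 : u ≠ 0) : 0 < qf (Cm (pin μ x₀) J) u := by
  rw [H864.qf_Cm hE]
  have hx : ∃ x, x ≠ x₀ ∧ u x ≠ 0 := by
    by_contra hcon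
    push Not at hcon
    apply h0
    funext x
    by_cases hxx : x = x₀
    · subst hxx
      have h1 := hu
      unfold Neu at h1
      rw [Finset.sum_eq_single x (fun y _ hy => hcon y hy)
        (fun h => absurd (Finset.mem_univ x) h)] at h1
      exact h1
    · exact hcon x hxx
  obtain ⟨x, hne, hx⟩ := hx
  have p1 : 0 < pin μ x₀ 0 := by
    have e : pin μ x₀ 0 = μ 0 := pin_of_zero rfl
    rw [e]
    exact hpos _
  have p2 : 0 < pin μ x₀ (Pi.single x 1) := by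
    have e : pin μ x₀ (Pi.single x 1) = μ (Pi.single x 1) :=
      pin_of_zero (Pi.single_eq_of_ne hne.symm _)
    rw [e]
    exact hpos _
  refine H864.Cv_self_pos hE (Gr.li u) J p1 p2 ?_
  have h1 : li u (0 : V → ℤ) = 0 := by unfold li; simp
  have h2 : li u (Pi.single x (1 : ℤ)) = u x := by
    unfold li
    rw [Finset.sum_eq_single x]
    · simp
    · intro y _ hy
      rw [Pi.single_eq_of_ne hy]
      simp
    · intro h; exact absurd (Finset.mem_univ x) h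
  rw [h1, h2]
  exact fun h => hx h.symm

end inv

/-! ### the torus -/

section torus

open Vale.Agent.P159.TM.Spec (V)
open Vale.Agent.P159.TM.SpecC (Tor wT)
open Vale.Agent.P159.H864 (TI TInv tra sym Inv)
open Vale.Agent.P159.TM.H764 (cN sN dt)

variable {N : ℕ} [NeZero N] {b t : ℝ}

lemma tinv_ntr {w : (V N → ℤ) → ℝ} (hw : TInv w) {M : Matrix (V N) (V N) ℝ} (hM : TI M) (m : ℝ) :
    TInv (wM w (ntr M m)) := fun a => H864.inv_wM (hw a) fun x y => by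
  rw [ntr_apply, ntr_apply, hM.perm]

/-- the neutral covariance on the torus, mass `t` -/
def Gn (N : ℕ) [NeZero N] (b t : ℝ) : Matrix (V N) (V N) ℝ :=
  Cn (wM (wT b N) (ntr (t • (1 : Matrix (V N) (V N) ℝ)) t)) 0 0

/-- its symbol -/
def Gnh (N : ℕ) [NeZero N] (b t : ℝ) (k : V N) : ℝ := sym (Gn N b t) k

/-- the neutral self energy (`k ≠ 0`) -/
def Pin (N : ℕ) [NeZero N] (b t : ℝ) (k : V N) : ℝ := (Gnh N b t k)⁻¹ - t

theorem ti_Gn (hb : 0 ≤ b) (ht : 0 < t) : TI (Gn N b t) :=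
  ti_Cn ((gw_wT hb).grI_wM (mf_smul ht)) (tinv_ntr (H864.tinv_wT b) (TI.one.smul t) t)
    ((gw_wT hb).em_nM (mf_smul ht) 0)

lemma qf_Gn_neu (N : ℕ) [NeZero N] (b t : ℝ) {u : V N → ℝ} (hu : Neu u) :
    qf (Gn N b t) u = qf (Gm (nwt N b t 0)) u := qf_Cn_neu _ 0 0 hu

lemma Gnh_zero (N : ℕ) [NeZero N] (b t : ℝ) : Gnh N b t 0 = 0 := sym_Cn_zero 0 0

lemma qf_Gnh_wave (hb : 0 ≤ b) (ht : 0 < t) {k : V N} (hk : k ≠ 0) :
    (N : ℝ) ^ 2 * Gnh N b t k = qf (Gm (nwt N b t 0)) (fun x => cN (dt k x)) +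
      qf (Gm (nwt N b t 0)) fun x => sN (dt k x) :=
  sym_Cn_wave ((gw_wT hb).grI_wM (mf_smul ht)) (tinv_ntr (H864.tinv_wT b) (TI.one.smul t) t)
    ((gw_wT hb).em_nM (mf_smul ht) 0) hk

lemma sym_le_of_waves {A : Matrix (V N) (V N) ℝ} (hA : TI A) {c : ℝ} {k : V N}
    (h1 : qf A (fun x => cN (dt k x)) ≤ c * ∑ x : V N, cN (dt k x) ^ 2)
    (h2 : qf A (fun x => sN (dt k x)) ≤ c * ∑ x : V N, sN (dt k x) ^ 2) : sym A k ≤ c := by
  have h3 := H864.qf_wave hA k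
  have h4 := TM.H764.sq_wave k
  have h5 : (N : ℝ) ^ 2 * sym A k ≤ (N : ℝ) ^ 2 * c := by
    rw [← h3, ← h4]
    linarith
  exact le_of_mul_le_mul_left h5 H864.N_pos

lemma sym_le_of_waves' {A B : Matrix (V N) (V N) ℝ} (hA : TI A) (hB : TI B) {k : V N}
    (h1 : qf A (fun x => cN (dt k x)) ≤ qf B (fun x => cN (dt k x)))
    (h2 : qf A (fun x => sN (dt k x)) ≤ qf B (fun x => sN (dt k x))) : sym A k ≤ sym B k := by
  have h3 := H864.qf_wave hA k
  have h4 := H864.qf_wave hB k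
  have h5 : (N : ℝ) ^ 2 * sym A k ≤ (N : ℝ) ^ 2 * sym B k := by
    rw [← h3, ← h4]
    linarith
  exact le_of_mul_le_mul_left h5 H864.N_pos

lemma waves_ne (k : V N) : (fun x : V N => cN (dt k x)) ≠ 0 := by
  intro h
  have := congrFun h 0
  rw [H864.dt_zero, TM.H764.cN_zero] at this
  simp at this

lemma sym_pos_of_waves {A : Matrix (V N) (V N) ℝ} (hA : TI A) {k : V N}
    (h1 : 0 < qf A (fun x => cN (dt k x))) (h2 : 0 ≤ qf A (fun x => sN (dt k x))) :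
    0 < sym A k := by
  have h3 := H864.qf_wave hA k
  have h5 : 0 < (N : ℝ) ^ 2 * sym A k := by
    rw [← h3]
    linarith
  exact (pos_iff_pos_of_mul_pos h5).1 H864.N_pos

theorem Gnh_pos (hb : 0 < b) (ht : 0 < t) {k : V N} (hk : k ≠ 0) : 0 < Gnh N b t k := by
  refine sym_pos_of_waves (ti_Gn hb.le ht) ?_ ?_
  · rw [qf_Gn_neu N b t (neu_cN hk)]
    exact qf_pin_pos (em_nwt hb.le ht 0) (fun h => mul_pos (H864.wT_pos hb h) (Real.exp_pos _)) 0
      (neu_cN hk) (waves_ne k)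
  · rw [qf_Gn_neu N b t (neu_sN k)]
    exact H864.qf_Cm_nonneg (em_nwt hb.le ht 0) 0 _

lemma qf_nwt_le (hb : 0 ≤ b) (ht : 0 < t) {u : V N → ℝ} (hu : Neu u) :
    qf (Gm (nwt N b t 0)) u ≤ t⁻¹ * ∑ x, u x ^ 2 := by
  have h1 := (gw_wT hb).qf_nM_le_inv (mf_smul ht) (0 : V N) hu
  have h2 := (mf_smul (N := N) ht).qf_inv_le ht (fun u => by rw [qf_smul_one]) u
  refine h1.trans (h2.trans (le_of_eq ?_))
  rw [div_eq_inv_mul]

theorem Gnh_le (hb : 0 ≤ b) (ht : 0 < t) (k : V N) : Gnh N b t k ≤ t⁻¹ := by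
  by_cases hk : k = 0
  · rw [hk, Gnh_zero]
    positivity
  · refine sym_le_of_waves (ti_Gn hb ht) ?_ ?_
    · rw [qf_Gn_neu N b t (neu_cN hk)]
      exact qf_nwt_le hb ht (neu_cN hk)
    · rw [qf_Gn_neu N b t (neu_sN k)]
      exact qf_nwt_le hb ht (neu_sN k)

theorem Gnh_nonneg (hb : 0 ≤ b) (ht : 0 < t) (k : V N) : 0 ≤ Gnh N b t k :=
  sym_Cn_nonneg ((gw_wT hb).grI_wM (mf_smul ht)) (tinv_ntr (H864.tinv_wT b) (TI.one.smul t) t)
    ((gw_wT hb).em_nM (mf_smul ht) 0) k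

/-- the integer covariance is smaller than the neutral covariance at `k ≠ 0` -/
theorem Ght_le_Gnh (hb : 0 ≤ b) (ht : 0 < t) {k : V N} (hk : k ≠ 0) :
    Ght N b t k ≤ Gnh N b t k := by
  rw [← H864.sym_Gm_wt]
  refine sym_le_of_waves' (H864.ti_Gm (H864.tinv_wt t)) (ti_Gn hb ht) ?_ ?_
  · rw [qf_Gn_neu N b t (neu_cN hk)]
    exact (gw_wT hb).Gm_int_le_neu (mf_smul ht) 0 (neu_cN hk)
  · rw [qf_Gn_neu N b t (neu_sN k)]
    exact (gw_wT hb).Gm_int_le_neu (mf_smul ht) 0 (neu_sN k)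

theorem Pin_nonneg (hb : 0 < b) (ht : 0 < t) {k : V N} (hk : k ≠ 0) : 0 ≤ Pin N b t k := by
  unfold Pin
  rw [sub_nonneg]
  have h1 := Gnh_le (N := N) hb.le ht k
  exact (le_inv_comm₀ ht (Gnh_pos hb ht hk)).2 h1

theorem Pin_le_Pik (hb : 0 < b) (ht : 0 < t) {k : V N} (hk : k ≠ 0) :
    Pin N b t k ≤ Pik N b t k := by
  unfold Pin Pik
  have h1 := Ght_le_Gnh (N := N) hb.le ht hk
  have h2 := inv_anti₀ (H864.Ght_pos hb ht k) h1
  linarith

/-- the quadratic form of the neutral free energy at zero background -/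
def Ank (N : ℕ) [NeZero N] (b t : ℝ) (k : V N) : ℝ := if k = 0 then 0 else t - t ^ 2 * Gnh N b t k

theorem Ank_eq (hb : 0 < b) (ht : 0 < t) {k : V N} (hk : k ≠ 0) :
    Ank N b t k = t * Pin N b t k / (t + Pin N b t k) := by
  have h1 := Gnh_pos (N := N) hb ht hk
  unfold Ank Pin
  rw [if_neg hk]
  field_simp
  ring

theorem Ank_nonneg (hb : 0 ≤ b) (ht : 0 < t) (k : V N) : 0 ≤ Ank N b t k := by
  unfold Ank
  split_ifs with hk
  · exact le_refl _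
  · have h1 := Gnh_le (N := N) hb ht k
    have h2 : t ^ 2 * Gnh N b t k ≤ t ^ 2 * t⁻¹ := mul_le_mul_of_nonneg_left h1 (sq_nonneg t)
    have h3 : t ^ 2 * t⁻¹ = t := by field_simp
    linarith

/-- the matrix of the neutral free energy : symbol `Ank` -/
def Anm (N : ℕ) [NeZero N] (b t : ℝ) : Matrix (V N) (V N) ℝ :=
  t • Pn - t ^ 2 • Gn N b t

lemma ti_Pn : TI (Pn : Matrix (V N) (V N) ℝ) where
  tr a x y := by
    unfold Pn
    rw [ntr_apply, ntr_apply, TI.one.tr]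
  sy x y := by
    have := congrFun (congrFun (Pn_transpose (V := V N)) x) y
    rw [← this]
    rfl

lemma sym_Pn (k : V N) : sym (Pn : Matrix (V N) (V N) ℝ) k = if k = 0 then 0 else 1 := by
  have h1 : (Pn : Matrix (V N) (V N) ℝ) = 1 - Matrix.of fun _ _ => 1 / (Fintype.card (V N) : ℝ) := rfl
  rw [h1, H864.sym_sub, H864.sym_one, H864.sym_def]
  simp only [Matrix.of_apply]
  rw [← Finset.mul_sum, H864.sum_cN]
  have h2 : (Fintype.card (V N) : ℝ) = (N : ℝ) ^ 2 := TM.H764.card_V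
  have h3 : (N : ℝ) ^ 2 ≠ 0 := H864.N_pos.ne'
  rw [h2]
  split_ifs
  · rw [one_div_mul_cancel h3, sub_self]
  · simp

theorem ti_Anm (hb : 0 ≤ b) (ht : 0 < t) : TI (Anm N b t) :=
  (ti_Pn.smul t).sub ((ti_Gn hb ht).smul (t ^ 2))

theorem sym_Anm (N : ℕ) [NeZero N] (b t : ℝ) (k : V N) : sym (Anm N b t) k = Ank N b t k := by
  unfold Anm Ank
  rw [H864.sym_sub, H864.sym_smul, H864.sym_smul, sym_Pn]
  have h1 : sym (Gn N b t) k = Gnh N b t k := rfl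
  rw [h1]
  split_ifs with hk
  · rw [hk, Gnh_zero]
    ring
  · ring

/-- the quadratic part of `Un` on the torus -/
theorem qf_An_torus (b : ℝ) (ht : 0 < t) (F : V N → ℝ) :
    qf (An (wT b N) (t • (1 : Matrix (V N) (V N) ℝ)) t 0) F = qf (Anm N b t) F := by
  have h0 : ntr (t • (1 : Matrix (V N) (V N) ℝ)) t = t • Pn := by
    unfold Pn ntr
    rw [smul_sub]
    congr 1
    ext x y
    simp only [Matrix.of_apply, Matrix.smul_apply, smul_eq_mul]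
    ring
  rw [qf_An (mf_smul ht).symm]
  unfold Anm
  rw [H864.qf_sub_mat, H864.qf_smul_mat]
  have h1 : qf (Gn N b t) F = qf (Gm (pin (wM (wT b N) (ntr (t • 1) t)) 0))
      ((Pn : Matrix (V N) (V N) ℝ) *ᵥ F) := qf_Cn _ _ _ _
  rw [H864.qf_smul_mat, h1, h0, H864.qf_smul_mat, smul_mulVec, qf_smul]

end torus

end

end Vale.Agent.P159.H963
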