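import Vale.Agent.P159.H963.Chess1

/-!
P159, module CHESS (helper963), part 2: configuration sums on cycles and on rectangular tori.
-/

namespace Vale.Agent.P159.H963.Chess

open Finset
open scoped ENNReal

noncomputable section

variable {S : Type*} (k : S → S → ℝ≥0∞) (ρ : ℕ → S → ℝ≥0∞)

/-- open chain of `m + 1` columns with a function of the two ends -/
def Op (m : ℕ) (g : S → S → ℝ≥0∞) : ℝ≥0∞ :=
  ∑' σ : Fin (m + 1) → S, (∏ j : Fin (m + 1), ρ j (σ j)) *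
    (∏ j : Fin m, k (σ j.castSucc) (σ j.succ)) * g (σ 0) (σ (Fin.last m))

lemma Op_zero (g : S → S → ℝ≥0∞) : Op k ρ 0 g = ∑' s, ρ 0 s * g s s := by
  unfold Op
  rw [← (Equiv.funUnique (Fin 1) S).symm.tsum_eq]
  refine tsum_congr fun s => ?_
  simp

lemma Op_succ (m : ℕ) (g : S → S → ℝ≥0∞) : Op k ρ (m + 1) g =
    Op k ρ m fun s t => ∑' s', k t s' * ρ (m + 1) s' * g s s' := by
  unfold Op
  rw [← (Fin.snocEquiv fun _ : Fin (m + 2) => S).tsum_eq, ENNReal.tsum_prod', ENNReal.tsum_comm]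
  refine tsum_congr fun σ => ?_
  rw [← ENNReal.tsum_mul_left]
  refine tsum_congr fun s' => ?_
  have e : (Fin.snocEquiv fun _ : Fin (m + 2) => S) (s', σ) =
      (Fin.snoc (α := fun _ => S) σ s' : Fin (m + 2) → S) := rfl
  rw [e]
  have h0 : (Fin.snoc (α := fun _ => S) σ s' : Fin (m + 2) → S) 0 = σ 0 := by
    have := Fin.snoc_castSucc (α := fun _ => S) s' σ 0
    rwa [Fin.castSucc_zero] at this
  have h1 : ∀ j : Fin m, (Fin.snoc (α := fun _ => S) σ s' : Fin (m + 2) → S) j.castSucc.succ =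
      σ j.succ := by
    intro j
    have := Fin.snoc_castSucc (α := fun _ => S) s' σ j.succ
    rwa [← Fin.succ_castSucc] at this
  have h2 : (Fin.snoc (α := fun _ => S) σ s' : Fin (m + 2) → S) (Fin.last m).succ = s' := by
    rw [Fin.succ_last, Fin.snoc_last]
  have hA : ∏ j : Fin (m + 2), ρ j ((Fin.snoc (α := fun _ => S) σ s' : Fin (m + 2) → S) j) =
      (∏ j : Fin (m + 1), ρ j (σ j)) * ρ (m + 1) s' := by
    rw [Fin.prod_univ_castSucc]
    simp only [Fin.snoc_castSucc, Fin.snoc_last, Fin.val_castSucc, Fin.val_last]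
  have hB : ∏ j : Fin (m + 1), k ((Fin.snoc (α := fun _ => S) σ s' : Fin (m + 2) → S) j.castSucc)
      ((Fin.snoc (α := fun _ => S) σ s' : Fin (m + 2) → S) j.succ) =
      (∏ j : Fin m, k (σ j.castSucc) (σ j.succ)) * k (σ (Fin.last m)) s' := by
    rw [Fin.prod_univ_castSucc, h2]
    simp only [Fin.snoc_castSucc, h1]
  rw [hA, hB, h0, Fin.snoc_last]
  ring

lemma Op_eq (m : ℕ) (g : S → S → ℝ≥0∞) : Op k ρ (m + 1) g =
    ∑' s, ∑' t, ρ 0 s * F k ρ 0 m s t * ρ (m + 1) t * g s t := by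
  induction m generalizing g with
  | zero =>
    rw [Op_succ, Op_zero]
    refine tsum_congr fun s => ?_
    rw [← ENNReal.tsum_mul_left]
    refine tsum_congr fun t => ?_
    rw [F_zero]
    ring
  | succ m ih =>
    rw [Op_succ, ih]
    refine tsum_congr fun s => ?_
    simp only [F_succ, ← ENNReal.tsum_mul_left, ← ENNReal.tsum_mul_right]
    rw [ENNReal.tsum_comm]
    refine tsum_congr fun t => tsum_congr fun t' => ?_
    rw [Nat.zero_add]
    ring

/-- the cyclic sum over functions on `Fin (m + 1)` -/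
lemma cyc_fin (m : ℕ) : ∑' σ : Fin (m + 1) → S, ∏ i : Fin (m + 1), ρ i (σ i) * k (σ i) (σ (i + 1)) =
    Zc k ρ m := by
  have h1 : ∀ σ : Fin (m + 1) → S, ∏ i : Fin (m + 1), ρ i (σ i) * k (σ i) (σ (i + 1)) =
      (∏ j : Fin (m + 1), ρ j (σ j)) * (∏ j : Fin m, k (σ j.castSucc) (σ j.succ)) *
        k (σ (Fin.last m)) (σ 0) := by
    intro σ
    rw [Finset.prod_mul_distrib, mul_assoc]
    congr 1
    rw [Fin.prod_univ_castSucc]
    congr 1
    · refine Finset.prod_congr rfl fun j _ => ?_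
      rw [Fin.coeSucc_eq_succ]
    · rw [Fin.last_add_one]
  simp only [h1]
  have h2 : ∑' σ : Fin (m + 1) → S, (∏ j : Fin (m + 1), ρ j (σ j)) *
      (∏ j : Fin m, k (σ j.castSucc) (σ j.succ)) * k (σ (Fin.last m)) (σ 0) =
      Op k ρ m fun s t => k t s := rfl
  rw [h2]
  cases m with
  | zero =>
    rw [Op_zero]
    rfl
  | succ m =>
    rw [Op_eq]
    unfold Zc
    refine tsum_congr fun s => ?_
    rw [F_succ, ← ENNReal.tsum_mul_left]
    refine tsum_congr fun t => ?_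
    rw [Nat.zero_add]
    ring

/-- the cyclic sum over functions on `ZMod a` -/
lemma cyc_zmod (a : ℕ) [NeZero a] :
    ∑' σ : ZMod a → S, ∏ i : ZMod a, ρ i.val (σ i) * k (σ i) (σ (i + 1)) = Zc k ρ (a - 1) := by
  obtain ⟨m, rfl⟩ : ∃ m, a = m + 1 := ⟨a - 1, by have := NeZero.pos a; omega⟩
  exact cyc_fin k ρ m

/-! ### rectangular tori -/

/-- partition function of the torus `ZMod a × ZMod c`, edge weight `w`, site weights `f` -/
def Zt (a c : ℕ) [NeZero a] [NeZero c] (w : ℤ → ℝ≥0∞) (f : ZMod a × ZMod c → ℤ → ℝ≥0∞) : ℝ≥0∞ :=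
  ∑' h : ZMod a × ZMod c → ℤ,
    ∏ x, f x (h x) * (w (h (x + (1, 0)) - h x) * w (h (x + (0, 1)) - h x))

variable {a c : ℕ} [NeZero a] [NeZero c]

/-- weight of a column -/
def colw (w : ℤ → ℝ≥0∞) (f : ZMod a × ZMod c → ℤ → ℝ≥0∞) (i : ZMod a) (σ : ZMod c → ℤ) : ℝ≥0∞ :=
  ∏ y, f (i, y) (σ y) * w (σ (y + 1) - σ y)

/-- kernel between two columns -/
def colk (c : ℕ) [NeZero c] (w : ℤ → ℝ≥0∞) (σ σ' : ZMod c → ℤ) : ℝ≥0∞ := ∏ y, w (σ' y - σ y)

lemma colk_symm {w : ℤ → ℝ≥0∞} (hw : ∀ n, w (-n) = w n) (σ σ' : ZMod c → ℤ) :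
    colk c w σ σ' = colk c w σ' σ := by
  unfold colk
  refine Finset.prod_congr rfl fun y _ => ?_
  rw [← hw, neg_sub]

lemma Zt_eq (w : ℤ → ℝ≥0∞) (f : ZMod a × ZMod c → ℤ → ℝ≥0∞) :
    Zt a c w f = Zc (colk c w) (fun j => colw w f ((j : ℕ) : ZMod a)) (a - 1) := by
  rw [← cyc_zmod]
  unfold Zt
  rw [← (Equiv.curry (ZMod a) (ZMod c) ℤ).symm.tsum_eq]
  refine tsum_congr fun σ => ?_
  rw [Fintype.prod_prod_type]
  refine Finset.prod_congr rfl fun i _ => ?_
  rw [ZMod.natCast_zmod_val]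
  unfold colw colk
  rw [← Finset.prod_mul_distrib]
  refine Finset.prod_congr rfl fun y _ => ?_
  simp only [Equiv.curry_symm_apply, Function.uncurry, Prod.mk_add_mk, add_zero]
  ring

/-- **chessboard in the first direction** -/
theorem Zt_le {w : ℤ → ℝ≥0∞} (hw : ∀ n, w (-n) = w n) (m n : ℕ) [NeZero ((m + 1) * (n + 2))]
    [NeZero (2 * (m + 1))] (f : ZMod ((m + 1) * (n + 2)) × ZMod c → ℤ → ℝ≥0∞) :
    Zt ((m + 1) * (n + 2)) c w f ≤ ∏ i ∈ range (n + 2),
      Zt (2 * (m + 1)) c w (fun x => f ((((m + 1) * i + fold m x.1.val : ℕ) :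
        ZMod ((m + 1) * (n + 2))), x.2)) ^ (1 / 2 : ℝ) := by
  have h1 := Zc_le (colk c w) (fun j => colw w f ((j : ℕ) : ZMod ((m + 1) * (n + 2))))
    (colk_symm hw) m n (by simp)
  rw [Zt_eq]
  refine h1.trans (le_of_eq ?_)
  refine Finset.prod_congr rfl fun i _ => ?_
  rw [Zt_eq]
  congr 1
  have key : ∀ j ≤ 2 * (m + 1) - 1,
      fρ (fun j => colw w f ((j : ℕ) : ZMod ((m + 1) * (n + 2)))) m i j =
      (fun j : ℕ => colw w (fun x : ZMod (2 * (m + 1)) × ZMod c =>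
        f ((((m + 1) * i + fold m x.1.val : ℕ) : ZMod ((m + 1) * (n + 2))), x.2))
        ((j : ℕ) : ZMod (2 * (m + 1)))) j := by
    intro j hj
    funext σ
    have e : ((j : ℕ) : ZMod (2 * (m + 1))).val = j := ZMod.val_natCast_of_lt (by omega)
    simp only [fρ, colw, e]
  unfold Zc
  refine tsum_congr fun s => ?_
  rw [key 0 (Nat.zero_le _)]
  congr 1
  refine congrFun (congrFun (F_congr _ fun j hj => key _ (by omega)) s) s

lemma Zt_swap (w : ℤ → ℝ≥0∞) (f : ZMod a × ZMod c → ℤ → ℝ≥0∞) :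
    Zt a c w f = Zt c a w fun x => f (x.2, x.1) := by
  unfold Zt
  rw [← (Equiv.arrowCongr (Equiv.prodComm (ZMod c) (ZMod a)) (Equiv.refl ℤ)).tsum_eq]
  refine tsum_congr fun h => ?_
  rw [← (Equiv.prodComm (ZMod c) (ZMod a)).prod_comp]
  refine Finset.prod_congr rfl fun x _ => ?_
  simp only [Equiv.arrowCongr_apply, Function.comp_apply, Equiv.coe_refl, id_eq,
    Equiv.prodComm_symm, Equiv.prodComm_apply, Prod.swap_swap, Prod.swap_add]
  have e1 : ((1, 0) : ZMod a × ZMod c).swap = (0, 1) := rfl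
  have e2 : ((0, 1) : ZMod a × ZMod c).swap = (1, 0) := rfl
  rw [e1, e2]
  congr 1
  rw [mul_comm]

/-- **the chessboard inequality** on the square torus -/
theorem chess {w : ℤ → ℝ≥0∞} (hw : ∀ n, w (-n) = w n) (m n : ℕ) [NeZero ((m + 1) * (n + 2))]
    [NeZero (2 * (m + 1))]
    (f : ZMod ((m + 1) * (n + 2)) × ZMod ((m + 1) * (n + 2)) → ℤ → ℝ≥0∞) :
    Zt ((m + 1) * (n + 2)) ((m + 1) * (n + 2)) w f ≤ ∏ i ∈ range (n + 2), ∏ j ∈ range (n + 2),
      Zt (2 * (m + 1)) (2 * (m + 1)) w (fun x =>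
        f ((((m + 1) * i + fold m x.1.val : ℕ) : ZMod ((m + 1) * (n + 2))),
          (((m + 1) * j + fold m x.2.val : ℕ) : ZMod ((m + 1) * (n + 2))))) ^ (1 / 4 : ℝ) := by
  refine (Zt_le hw m n f).trans (Finset.prod_le_prod' fun i _ => ?_)
  rw [Zt_swap]
  refine (ENNReal.rpow_le_rpow (Zt_le hw m n _) (by norm_num)).trans (le_of_eq ?_)
  rw [← ENNReal.prod_rpow_of_nonneg (by norm_num)]
  refine Finset.prod_congr rfl fun j _ => ?_
  rw [← ENNReal.rpow_mul, Zt_swap]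
  norm_num

end

end Vale.Agent.P159.H963.Chess
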