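import Vale.Agent.P159.H963.Chess2
import Vale.Agent.P159.H864.Fou2

/-!
P159, module CHESS (helper963), part 3: the chessboard inequality for the torus weight `wt`.
-/

namespace Vale.Agent.P159.H963.Chess

open Finset Matrix
open scoped ENNReal
open Vale.Agent.P159.TM.H104 (EM Ex Cv K3 Lg li nh Gr)
open Vale.Agent.P159.H37
open Vale.Agent.P159.TM.Spec (V)
open Vale.Agent.P159.TM.SpecC (wT)

noncomputable section

variable {N : ℕ} [NeZero N] {b t : ℝ}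

lemma wt_prod (N : ℕ) [NeZero N] (b t : ℝ) (J : V N → ℝ) (h : V N → ℤ) :
    1 * wt N b t h * Real.exp (li J h) = ∏ x : V N, Real.exp (J x * h x - t * (h x : ℝ) ^ 2 / 2) *
      (Vale.Agent.P159.H353.wI b (h (x + (1, 0)) - h x) *
        Vale.Agent.P159.H353.wI b (h (x + (0, 1)) - h x)) := by
  rw [Finset.prod_mul_distrib, ← Real.exp_sum]
  unfold wt wM wT
  rw [qf_smul_one]
  have e : Real.exp (∑ x : V N, (J x * h x - t * (h x : ℝ) ^ 2 / 2)) =
      Real.exp (-(t * ∑ x, re h x ^ 2 / 2)) * Real.exp (li J h) := by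
    rw [← Real.exp_add]
    congr 1
    unfold li
    rw [Finset.sum_sub_distrib, Finset.mul_sum]
    simp only [re]
    rw [sub_eq_neg_add]
    congr 2
    exact Finset.sum_congr rfl fun x _ => by ring
  rw [e, one_mul]
  have e2 : t * ∑ x, re h x ^ 2 / 2 = t * ∑ x, re h x ^ 2 / 2 := rfl
  have e3 : -(t * ∑ x, re h x ^ 2 / 2) = -(t * ∑ x, re h x ^ 2) / 2 := by
    rw [← Finset.sum_div]
    ring
  rw [e3, neg_div]
  ring

/-- the partition function in the extended nonnegative reals -/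
theorem ofReal_Zs (hb : 0 ≤ b) (ht : 0 < t) (J : V N → ℝ) :
    ENNReal.ofReal (Zs (wt N b t) J) =
      Zt N N (fun n => ENNReal.ofReal (Vale.Agent.P159.H353.wI b n)) fun x n =>
        ENNReal.ofReal (Real.exp (J x * n - t * (n : ℝ) ^ 2 / 2)) := by
  have hE : EM (wt N b t) := H864.em_wt hb ht
  unfold Zs TM.H104.T
  rw [ENNReal.ofReal_tsum_of_nonneg
    (fun h => mul_nonneg (mul_nonneg zero_le_one (hE.nn h)) (Real.exp_pos _).le)
    (hE.summ (Gr.const 1) J)]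
  unfold Zt
  refine tsum_congr fun h => ?_
  rw [wt_prod, ENNReal.ofReal_prod_of_nonneg fun x _ => mul_nonneg (Real.exp_pos _).le
    (mul_nonneg (Vale.Agent.P159.H353.wI_nonneg hb _) (Vale.Agent.P159.H353.wI_nonneg hb _))]
  refine Finset.prod_congr rfl fun x _ => ?_
  rw [ENNReal.ofReal_mul (Real.exp_pos _).le,
    ENNReal.ofReal_mul (Vale.Agent.P159.H353.wI_nonneg hb _)]

/-- the folded source of the box `(i, j)` of side `m` : a source on the torus of side `2 m` -/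
def Jf (N m : ℕ) [NeZero N] (J : V N → ℝ) (i j : ℕ) : V (2 * m) → ℝ := fun x =>
  J (((m * i + min x.1.val (2 * m - x.1.val) : ℕ) : ZMod N),
    ((m * j + min x.2.val (2 * m - x.2.val) : ℕ) : ZMod N))

lemma wI_neg (b : ℝ) (n : ℤ) : Vale.Agent.P159.H353.wI b (-n) = Vale.Agent.P159.H353.wI b n := by
  unfold Vale.Agent.P159.H353.wI
  rw [Int.natAbs_neg]

/-- **the chessboard inequality for the torus weight** : `N = m n`, `n ≥ 2` -/
theorem Zs_chess (hb : 0 ≤ b) (ht : 0 < t) {m n : ℕ} (hm : 1 ≤ m) (hn : 2 ≤ n) (hN : N = m * n)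
    [NeZero (2 * m)] (J : V N → ℝ) :
    Zs (wt N b t) J ≤ ∏ i ∈ range n, ∏ j ∈ range n,
      Zs (wt (2 * m) b t) (Jf N m J i j) ^ (1 / 4 : ℝ) := by
  obtain ⟨m, rfl⟩ : ∃ m', m = m' + 1 := ⟨m - 1, by omega⟩
  obtain ⟨n, rfl⟩ : ∃ n', n = n' + 2 := ⟨n - 2, by omega⟩
  subst hN
  have hp : ∀ J' : V (2 * (m + 1)) → ℝ, 0 ≤ Zs (wt (2 * (m + 1)) b t) J' := fun J' =>
    (Zs_pos (H864.em_wt hb ht) J').le
  have h0 : ∀ i j, 0 ≤ Zs (wt (2 * (m + 1)) b t) (Jf ((m + 1) * (n + 2)) (m + 1) J i j) ^ (1 / 4 : ℝ) :=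
    fun i j => Real.rpow_nonneg (hp _) _
  rw [← ENNReal.ofReal_le_ofReal_iff (Finset.prod_nonneg fun i _ => Finset.prod_nonneg fun j _ =>
    h0 i j), ofReal_Zs hb ht, ENNReal.ofReal_prod_of_nonneg fun i _ =>
      Finset.prod_nonneg fun j _ => h0 i j]
  refine (chess (fun k => by rw [wI_neg]) m n _).trans (le_of_eq ?_)
  refine Finset.prod_congr rfl fun i _ => ?_
  rw [ENNReal.ofReal_prod_of_nonneg fun j _ => h0 i j]
  refine Finset.prod_congr rfl fun j _ => ?_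
  rw [← ENNReal.ofReal_rpow_of_nonneg (hp _) (by norm_num), ofReal_Zs hb ht]
  rfl

theorem Lg_chess (hb : 0 ≤ b) (ht : 0 < t) {m n : ℕ} (hm : 1 ≤ m) (hn : 2 ≤ n) (hN : N = m * n)
    [NeZero (2 * m)] (J : V N → ℝ) :
    Lg (wt N b t) J ≤ ∑ i ∈ range n, ∑ j ∈ range n,
      1 / 4 * Lg (wt (2 * m) b t) (Jf N m J i j) := by
  have hp : ∀ J' : V (2 * m) → ℝ, 0 < Zs (wt (2 * m) b t) J' := fun J' =>
    Zs_pos (H864.em_wt hb ht) J'
  have h1 := Real.log_le_log (Zs_pos (H864.em_wt hb ht) J) (Zs_chess hb ht hm hn hN J)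
  rw [Real.log_prod fun i _ => (Finset.prod_pos fun j _ => Real.rpow_pos_of_pos (hp _) _).ne'] at h1
  refine h1.trans (le_of_eq ?_)
  refine Finset.sum_congr rfl fun i _ => ?_
  rw [Real.log_prod fun j _ => (Real.rpow_pos_of_pos (hp _) _).ne']
  refine Finset.sum_congr rfl fun j _ => ?_
  rw [Real.log_rpow (hp _)]
  rfl

/-- the form for the non-quadratic part -/
theorem Rs_chess (hb : 0 ≤ b) (ht : 0 < t) {m n : ℕ} (hm : 1 ≤ m) (hn : 2 ≤ n) (hN : N = m * n)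
    [NeZero (2 * m)] (J : V N → ℝ) :
    Rs (wt N b t) J ≤ ∑ i ∈ range n, ∑ j ∈ range n, 1 / 4 * Rs (wt (2 * m) b t) (Jf N m J i j) +
      (∑ i ∈ range n, ∑ j ∈ range n, 1 / 4 * qf (Gm (wt (2 * m) b t)) (Jf N m J i j) -
        qf (Gm (wt N b t)) J) / 2 +
      ((n : ℝ) ^ 2 / 4 * Lg (wt (2 * m) b t) 0 - Lg (wt N b t) 0) := by
  have h1 := Lg_chess hb ht hm hn hN J
  have h2 : ∀ J' : V (2 * m) → ℝ, Lg (wt (2 * m) b t) J' =
      Rs (wt (2 * m) b t) J' + Lg (wt (2 * m) b t) 0 + qf (Gm (wt (2 * m) b t)) J' / 2 := by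
    intro J'
    unfold Rs
    ring
  have h3 : ∑ i ∈ range n, ∑ j ∈ range n, 1 / 4 * Lg (wt (2 * m) b t) (Jf N m J i j) =
      ∑ i ∈ range n, ∑ j ∈ range n, 1 / 4 * Rs (wt (2 * m) b t) (Jf N m J i j) +
      (n : ℝ) ^ 2 / 4 * Lg (wt (2 * m) b t) 0 +
      (∑ i ∈ range n, ∑ j ∈ range n, 1 / 4 * qf (Gm (wt (2 * m) b t)) (Jf N m J i j)) / 2 := by
    have e : ∀ i j, 1 / 4 * Lg (wt (2 * m) b t) (Jf N m J i j) =
        1 / 4 * Rs (wt (2 * m) b t) (Jf N m J i j) + 1 / 4 * Lg (wt (2 * m) b t) 0 +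
          (1 / 4 * qf (Gm (wt (2 * m) b t)) (Jf N m J i j)) / 2 := by
      intro i j
      rw [h2 (Jf N m J i j)]
      ring
    simp only [e, Finset.sum_add_distrib, Finset.sum_const, Finset.card_range, nsmul_eq_mul,
      ← Finset.sum_div]
    ring
  rw [h3] at h1
  unfold Rs at h1 ⊢
  linarith

end

end Vale.Agent.P159.H963.Chess
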