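import Vale.Agent.P159.H963.NeuG
import Vale.Agent.P159.H864.Fou2

/-!
P159, module NEU (helper963), part 5: permutations of the sites, the neutral covariance matrix,
its symbol on the torus, domination `A ≥ 0`.
-/

namespace Vale.Agent.P159.H963

open Finset Matrix MeasureTheory
open Vale.Agent.P159.TM.H104 (EM Ex Cv K3 Lg li nh Gr)
open Vale.Agent.P159.H37
open Vale.Agent.P159.H864 (Inv cmp cmp_apply li_comp)

set_option linter.unusedSectionVars false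

noncomputable section

section perm

variable {V : Type*} [Fintype V] [DecidableEq V] {μ : (V → ℤ) → ℝ} {e : Equiv.Perm V}

lemma Neu.perm {J : V → ℝ} (hJ : Neu J) (e : Equiv.Perm V) : Neu (J ∘ e) := by
  unfold Neu
  rw [← hJ]
  exact Equiv.sum_comp e J

lemma GrI.perm {α : Type*} {F : (V → ℤ) → α} (hF : GrI F) (e : Equiv.Perm V) :
    GrI fun h => F (h ∘ e) := by
  intro h n
  exact hF (h ∘ e) n

lemma pin_comp (hi : Inv μ e) (x₀ : V) (h : V → ℤ) : pin μ x₀ (h ∘ e) = pin μ (e x₀) h := by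
  unfold pin
  rw [hi h]
  rfl

theorem T_pin_perm (hμ : GrI μ) (hi : Inv μ e) {J : V → ℝ} (hJ : Neu J) {F : (V → ℤ) → ℝ}
    (hF : GrI F) (x₀ : V) : TM.H104.T (pin μ x₀) J F =
      TM.H104.T (pin μ x₀) (J ∘ e.symm) fun h => F (h ∘ e) := by
  rw [T_pin hμ (hJ.perm e.symm) (hF.perm e) x₀ (e x₀)]
  unfold TM.H104.T
  rw [← (cmp e).tsum_eq]
  refine tsum_congr fun h => ?_
  rw [cmp_apply, pin_comp hi, li_comp]

theorem Ex_pin_perm (hμ : GrI μ) (hi : Inv μ e) {J : V → ℝ} (hJ : Neu J) {F : (V → ℤ) → ℝ}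
    (hF : GrI F) (x₀ : V) : Ex (pin μ x₀) J F =
      Ex (pin μ x₀) (J ∘ e.symm) fun h => F (h ∘ e) := by
  unfold TM.H104.Ex
  rw [T_pin_perm hμ hi hJ hF x₀, T_pin_perm hμ hi hJ (GrI.const 1) x₀]

theorem Cv_pin_perm (hμ : GrI μ) (hi : Inv μ e) {J : V → ℝ} (hJ : Neu J) {F G : (V → ℤ) → ℝ}
    (hF : GrI F) (hG : GrI G) (x₀ : V) : Cv (pin μ x₀) J F G =
      Cv (pin μ x₀) (J ∘ e.symm) (fun h => F (h ∘ e)) fun h => G (h ∘ e) := by
  unfold TM.H104.Cv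
  rw [Ex_pin_perm hμ hi hJ (hF.mul hG) x₀, Ex_pin_perm hμ hi hJ hF x₀, Ex_pin_perm hμ hi hJ hG x₀]

lemma comp_symm (J : V → ℝ) (e : Equiv.Perm V) : (J ∘ e) ∘ e.symm = J := by
  funext x; simp

theorem Zs_pin_perm (hμ : GrI μ) (hi : Inv μ e) {J : V → ℝ} (hJ : Neu J) (x₀ : V) :
    Zs (pin μ x₀) (J ∘ e) = Zs (pin μ x₀) J := by
  have h1 := T_pin_perm hμ hi (hJ.perm e) (GrI.const (1 : ℝ)) x₀
  rw [comp_symm] at h1
  exact h1

theorem Lg_pin_perm (hμ : GrI μ) (hi : Inv μ e) {J : V → ℝ} (hJ : Neu J) (x₀ : V) :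
    Lg (pin μ x₀) (J ∘ e) = Lg (pin μ x₀) J := by
  have h1 := Zs_pin_perm hμ hi hJ x₀
  unfold Zs at h1
  unfold TM.H104.Lg
  rw [h1]

theorem Tq_pin_perm (hμ : GrI μ) (hi : Inv μ e) {J : V → ℝ} (hJ : Neu J) (x₀ : V) :
    Tq (pin μ x₀) (J ∘ e) = Tq (pin μ x₀) J := by
  unfold Tq
  have h1 : (2 : ℝ) • (J ∘ e) = ((2 : ℝ) • J) ∘ e := rfl
  rw [h1, Lg_pin_perm hμ hi (hJ.smul 2), Lg_pin_perm hμ hi hJ]

/-- covariance form of neutral vectors under permutations -/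
theorem bf_Cm_pin_perm (hμ : GrI μ) (hi : Inv μ e) {x₀ : V} (hE : EM (pin μ x₀))
    {J u v : V → ℝ} (hJ : Neu J) (hu : Neu u) (hv : Neu v) :
    bf (Cm (pin μ x₀) (J ∘ e)) (u ∘ e) (v ∘ e) = bf (Cm (pin μ x₀) J) u v := by
  rw [H114.bf_Cm hE, H114.bf_Cm hE, Cv_pin_perm hμ hi (hJ.perm e) (grI_li (hu.perm e))
    (grI_li (hv.perm e)) x₀, comp_symm]
  congr 1
  · funext h
    rw [li_comp, comp_symm]
  · funext h
    rw [li_comp, comp_symm]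

theorem Rs_pin_perm (hμ : GrI μ) (hi : Inv μ e) {x₀ : V} (hE : EM (pin μ x₀)) {J : V → ℝ}
    (hJ : Neu J) : Rs (pin μ x₀) (J ∘ e) = Rs (pin μ x₀) J := by
  unfold Rs Gm
  have h1 := bf_Cm_pin_perm hμ hi hE (Neu.zero (V := V)) hJ hJ
  rw [Lg_pin_perm hμ hi hJ, ← bf_self, ← bf_self]
  have h2 : ((0 : V → ℝ) ∘ e) = 0 := rfl
  rw [h2] at h1
  rw [h1]

end perm

/-! ### the neutral projection -/

section proj

variable {V : Type*} [Fintype V] [DecidableEq V] [Nonempty V]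

/-- projection on the neutral vectors -/
def Pn : Matrix V V ℝ := ntr 1 1

lemma Pn_mulVec (u : V → ℝ) : (Pn : Matrix V V ℝ) *ᵥ u = fun x => u x - (∑ y, u y) / Fintype.card V := by
  funext x
  unfold Pn ntr
  rw [sub_mulVec, one_mulVec, Pi.sub_apply]
  congr 1
  simp only [Matrix.mulVec, dotProduct, Matrix.of_apply]
  rw [← Finset.mul_sum]
  ring

lemma Pn_transpose : (Pn : Matrix V V ℝ)ᵀ = Pn := ntr_transpose transpose_one 1

lemma row_one (x : V) : ∑ y, (1 : Matrix V V ℝ) x y = 1 := by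
  simp [Matrix.one_apply]

lemma Pn_row (x : V) : ∑ y, (Pn : Matrix V V ℝ) x y = 0 := ntr_row row_one x

lemma Pn_col (y : V) : ∑ x, (Pn : Matrix V V ℝ) x y = 0 := by
  have h := Pn_row (V := V) y
  have e : ∀ x, (Pn : Matrix V V ℝ) x y = (Pn : Matrix V V ℝ) y x := by
    intro x
    have := congrFun (congrFun (Pn_transpose (V := V)) x) y
    rw [← this]
    rfl
  simp only [e]
  exact h

lemma neu_Pn (u : V → ℝ) : Neu ((Pn : Matrix V V ℝ) *ᵥ u) := Neu.mulVec Pn_col u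

lemma Pn_of_neu {u : V → ℝ} (hu : Neu u) : (Pn : Matrix V V ℝ) *ᵥ u = u := by
  rw [Pn_mulVec]
  funext x
  rw [hu, zero_div, sub_zero]

lemma Pn_perm (u : V → ℝ) (e : Equiv.Perm V) :
    (Pn : Matrix V V ℝ) *ᵥ (u ∘ e) = ((Pn : Matrix V V ℝ) *ᵥ u) ∘ e := by
  rw [Pn_mulVec, Pn_mulVec]
  funext x
  simp only [Function.comp_apply]
  rw [Equiv.sum_comp e u]

lemma Pn_mul_Pn : (Pn : Matrix V V ℝ) * Pn = Pn := by
  refine Matrix.ext_of_mulVec_single fun x => ?_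
  rw [← mulVec_mulVec, Pn_of_neu (neu_Pn _)]

/-- the neutral covariance matrix at the source `J` -/
def Cn (μ : (V → ℤ) → ℝ) (x₀ : V) (J : V → ℝ) : Matrix V V ℝ :=
  Pn * Cm (pin μ x₀) J * Pn

lemma bf_Cn (μ : (V → ℤ) → ℝ) (x₀ : V) (J u v : V → ℝ) :
    bf (Cn μ x₀ J) u v = bf (Cm (pin μ x₀) J) ((Pn : Matrix V V ℝ) *ᵥ u) ((Pn : Matrix V V ℝ) *ᵥ v) := by
  unfold Cn
  rw [bf_eq, ← mulVec_mulVec, ← mulVec_mulVec, bf_eq, dotProduct_mulVec, ← mulVec_transpose,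
    Pn_transpose]

lemma qf_Cn (μ : (V → ℤ) → ℝ) (x₀ : V) (J u : V → ℝ) :
    qf (Cn μ x₀ J) u = qf (Cm (pin μ x₀) J) ((Pn : Matrix V V ℝ) *ᵥ u) := bf_Cn μ x₀ J u u

lemma bf_Cn_neu (μ : (V → ℤ) → ℝ) (x₀ : V) (J : V → ℝ) {u v : V → ℝ} (hu : Neu u) (hv : Neu v) :
    bf (Cn μ x₀ J) u v = bf (Cm (pin μ x₀) J) u v := by
  rw [bf_Cn, Pn_of_neu hu, Pn_of_neu hv]

lemma qf_Cn_neu (μ : (V → ℤ) → ℝ) (x₀ : V) (J : V → ℝ) {u : V → ℝ} (hu : Neu u) :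
    qf (Cn μ x₀ J) u = qf (Cm (pin μ x₀) J) u := bf_Cn_neu μ x₀ J hu hu

lemma bf_single (A : Matrix V V ℝ) (x y : V) : bf A (Pi.single x 1) (Pi.single y 1) = A x y := by
  rw [bf_eq, Matrix.mulVec_single_one, single_one_dotProduct]
  rfl

lemma Cn_apply (μ : (V → ℤ) → ℝ) (x₀ : V) (J : V → ℝ) (x y : V) :
    Cn μ x₀ J x y = bf (Cm (pin μ x₀) J) ((Pn : Matrix V V ℝ) *ᵥ Pi.single x 1)
      ((Pn : Matrix V V ℝ) *ᵥ Pi.single y 1) := by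
  rw [← bf_Cn, bf_single]

theorem Cn_pin {μ : (V → ℤ) → ℝ} (hμ : GrI μ) (hE : ∀ x, EM (pin μ x)) {J : V → ℝ} (hJ : Neu J)
    (x₀ x₁ : V) : Cn μ x₀ J = Cn μ x₁ J := by
  ext x y
  rw [Cn_apply, Cn_apply, bf_Cm_pin hμ hE hJ (neu_Pn _) (neu_Pn _) x₀ x₁]

lemma Cn_symm (μ : (V → ℤ) → ℝ) (x₀ : V) (J : V → ℝ) (x y : V) :
    Cn μ x₀ J x y = Cn μ x₀ J y x := by
  have h1 : (Cm (pin μ x₀) J)ᵀ = Cm (pin μ x₀) J := by
    ext a b
    rw [transpose_apply]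
    exact H864.Cm_symm J b a
  rw [Cn_apply, Cn_apply, bf_comm h1]

theorem Cn_perm {μ : (V → ℤ) → ℝ} (hμ : GrI μ) {e : Equiv.Perm V} (hi : Inv μ e) {x₀ : V}
    (hE : EM (pin μ x₀)) {J : V → ℝ} (hJ : Neu J) (x y : V) :
    Cn μ x₀ (J ∘ e) x y = Cn μ x₀ J (e x) (e y) := by
  have h1 : ∀ z : V, (Pi.single z 1 : V → ℝ) = (Pi.single (e z) 1 : V → ℝ) ∘ e := by
    intro z
    funext w
    simp only [Function.comp_apply, Pi.single_apply]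
    simp
  rw [Cn_apply, Cn_apply, h1 x, h1 y, Pn_perm, Pn_perm,
    bf_Cm_pin_perm hμ hi hE hJ (neu_Pn _) (neu_Pn _)]

lemma Cn_row (μ : (V → ℤ) → ℝ) (x₀ : V) (J : V → ℝ) (x : V) : ∑ y, Cn μ x₀ J x y = 0 := by
  unfold Cn
  have h1 : (Pn * Cm (pin μ x₀) J * Pn) *ᵥ (fun _ => (1 : ℝ)) = 0 := by
    rw [← mulVec_mulVec]
    have : (Pn : Matrix V V ℝ) *ᵥ (fun _ => (1 : ℝ)) = 0 := by
      funext y
      simp only [Matrix.mulVec, dotProduct, mul_one, Pi.zero_apply]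
      exact Pn_row y
    rw [this, mulVec_zero]
  have := congrFun h1 x
  simpa [Matrix.mulVec, dotProduct] using this

end proj

/-! ### the torus -/

section torus

open Vale.Agent.P159.TM.Spec (V)
open Vale.Agent.P159.H864 (TI TInv tra sym ti_of_perm)
open Vale.Agent.P159.TM.H764 (cN sN dt)

variable {N : ℕ} [NeZero N]

theorem ti_Cn {μ : (V N → ℤ) → ℝ} (hμ : GrI μ) (hT : TInv μ) {x₀ : V N} (hE : EM (pin μ x₀)) :
    TI (Cn μ x₀ 0) := by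
  refine ti_of_perm (fun a x y => ?_) fun x y => Cn_symm μ x₀ 0 x y
  have := Cn_perm hμ (hT a) hE (Neu.zero (V := V N)) x y
  exact this.symm

theorem sym_Cn_zero {μ : (V N → ℤ) → ℝ} (x₀ : V N) (J : V N → ℝ) : sym (Cn μ x₀ J) 0 = 0 := by
  rw [H864.sym_def, ← Cn_row μ x₀ J 0]
  refine Finset.sum_congr rfl fun z _ => ?_
  rw [H864.dt_zero_left, TM.H764.cN_zero, mul_one]

lemma neu_cN {k : V N} (hk : k ≠ 0) : Neu fun x : V N => cN (dt k x) := by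
  unfold Neu
  rw [H864.sum_cN, if_neg hk]

lemma neu_sN (k : V N) : Neu fun x : V N => sN (dt k x) := by
  unfold Neu
  have h1 : ∑ x : V N, sN (dt k x) = ∑ x : V N, sN (dt k (-x)) :=
    (Equiv.sum_comp (Equiv.neg (V N)) fun x => sN (dt k x)).symm
  have h2 : ∑ x : V N, sN (dt k (-x)) = -∑ x : V N, sN (dt k x) := by
    rw [← Finset.sum_neg_distrib]
    refine Finset.sum_congr rfl fun x _ => ?_
    rw [H864.dt_neg, TM.H764.sN_neg]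
  linarith

/-- the symbol as a variance of neutral waves -/
theorem sym_Cn_wave {μ : (V N → ℤ) → ℝ} (hμ : GrI μ) (hT : TInv μ) {x₀ : V N}
    (hE : EM (pin μ x₀)) {k : V N} (hk : k ≠ 0) :
    (N : ℝ) ^ 2 * sym (Cn μ x₀ 0) k = qf (Gm (pin μ x₀)) (fun x => cN (dt k x)) +
      qf (Gm (pin μ x₀)) fun x => sN (dt k x) := by
  rw [← H864.qf_wave (ti_Cn hμ hT hE) k, qf_Cn_neu μ x₀ 0 (neu_cN hk),
    qf_Cn_neu μ x₀ 0 (neu_sN k)]
  rfl

theorem sym_Cn_nonneg {μ : (V N → ℤ) → ℝ} (hμ : GrI μ) (hT : TInv μ) {x₀ : V N}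
    (hE : EM (pin μ x₀)) (k : V N) : 0 ≤ sym (Cn μ x₀ 0) k := by
  refine H864.sym_nonneg_of_psd (ti_Cn hμ hT hE) (fun u => ?_) k
  rw [qf_Cn]
  exact H114.qf_Cm_nonneg hE 0 _

end torus

end

end Vale.Agent.P159.H963
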