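import Vale.Agent.P159.H963.NeuZ
import Vale.Agent.P159.H789.Tor
import Vale.Agent.P159.H159.Assoc

/-!
P159, module NEU (helper963), part 3: the neutral model is in the duplication class, keeps the
lattice condition; instances for gradient weights and for the torus.
-/

namespace Vale.Agent.P159.H963

open Finset Matrix MeasureTheory
open Vale.Agent.P159.TM.H104 (EM Ex Cv K3 Lg li nh Gr)
open Vale.Agent.P159.H37

set_option linter.unusedSectionVars false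

noncomputable section

/-! ### the duplication class and the lattice condition -/

/-- evaluation at a site -/
def evHom {V : Type} (x : V) : (V → ℤ) →+ ℤ where
  toFun h := h x
  map_zero' := rfl
  map_add' _ _ := rfl

theorem dup_pin {V : Type} [DecidableEq V] {μ : (V → ℤ) → ℝ}
    (hd : TM.H821.Dup fun h => ENNReal.ofReal (μ h)) (x₀ : V) :
    TM.H821.Dup fun h => ENNReal.ofReal (pin μ x₀ h) := by
  have h1 := (TM.H821.Dup.pin (A := ℤ) fun x hx => by omega).comp (evHom x₀)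
  have h2 := hd.mul h1
  have e : (fun h : V → ℤ => ENNReal.ofReal (pin μ x₀ h)) =
      fun h => ENNReal.ofReal (μ h) * (if evHom x₀ h = 0 then 1 else 0) := by
    funext h
    unfold pin
    by_cases h0 : h x₀ = 0
    · rw [if_pos h0, if_pos (show evHom x₀ h = 0 from h0), mul_one]
    · rw [if_neg h0, if_neg (show ¬ evHom x₀ h = 0 from h0), mul_zero, ENNReal.ofReal_zero]
  rw [e]
  exact h2

theorem pk_pin {V : Type} [Fintype V] [DecidableEq V] {μ : (V → ℤ) → ℝ} {x₀ : V}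
    (hE : EM (pin μ x₀)) (hd : TM.H821.Dup fun h => ENNReal.ofReal (μ h)) : PK (pin μ x₀) :=
  H789.pk_of_dup hE (dup_pin hd x₀)

theorem hol_pin {V : Type*} [DecidableEq V] {μ : (V → ℤ) → ℝ} (h0 : ∀ h, 0 ≤ μ h)
    (hL : Vale.Agent.P159.T1.H897.Hol μ μ) (x₀ : V) :
    Vale.Agent.P159.T1.H897.Hol (pin μ x₀) (pin μ x₀) := by
  intro h k
  by_cases h1 : h x₀ = 0
  · by_cases h2 : k x₀ = 0
    · have e1 : (h ⊓ k) x₀ = 0 := by simp [h1, h2]
      have e2 : (h ⊔ k) x₀ = 0 := by simp [h1, h2]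
      rw [pin_of_zero h1, pin_of_zero h2, pin_of_zero e1, pin_of_zero e2]
      exact hL h k
    · rw [pin_of_ne h2, mul_zero]
      exact mul_nonneg (pin_nonneg h0 x₀ _) (pin_nonneg h0 x₀ _)
  · rw [pin_of_ne h1, zero_mul]
    exact mul_nonneg (pin_nonneg h0 x₀ _) (pin_nonneg h0 x₀ _)

/-! ### coercive mass forms with constant row sums -/

section mass

variable {V : Type*} [Fintype V] [DecidableEq V]

lemma ntr_gap [Nonempty V] {M : Matrix V V ℝ} (hM : Mᵀ = M) {m m0 : ℝ}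
    (hrow : ∀ x, ∑ y, M x y = m) (hc : ∀ u : V → ℝ, m0 * ∑ x, u x ^ 2 ≤ qf M u) (u : V → ℝ) :
    m0 * ∑ x, (u x - (∑ y, u y) / Fintype.card V) ^ 2 ≤ qf (ntr M m) u := by
  have hN : (Fintype.card V : ℝ) ≠ 0 := Nat.cast_ne_zero.2 Fintype.card_ne_zero
  set a : ℝ := (∑ y, u y) / Fintype.card V with ha
  have h1 := hc fun x => u x - a
  have h2 : ∑ x, (u x - a) = 0 := by
    rw [Finset.sum_sub_distrib, Finset.sum_const, Finset.card_univ, nsmul_eq_mul, ha]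
    field_simp
    ring
  have h3 := qf_ntr M m fun x => u x - a
  rw [h2] at h3
  have h4 : qf (ntr M m) (fun x => u x - a) = qf (ntr M m) u := by
    have := qf_addc (ntr_transpose hM m) (ntr_row hrow) u (-a)
    rw [← this]
    congr 1
  rw [h3, h4] at h1
  simpa using h1

/-- exponential moments of the neutral model -/
theorem em_neu [Nonempty V] {w : (V → ℤ) → ℝ} {Wb : ℝ} (hw0 : ∀ h, 0 ≤ w h)
    (hwb : ∀ h, w h ≤ Wb) (hp : 0 < w 0) {M : Matrix V V ℝ} (hM : Mᵀ = M) {m m0 : ℝ}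
    (hm0 : 0 < m0) (hrow : ∀ x, ∑ y, M x y = m)
    (hc : ∀ u : V → ℝ, m0 * ∑ x, u x ^ 2 ≤ qf M u) (x₀ : V) :
    EM (pin (wM w (ntr M m)) x₀) :=
  em_pin_wM hw0 hwb ⟨0, rfl, hp⟩ (by positivity)
    (gap_pin hm0.le (ntr_gap hM hrow hc) x₀)

end mass

/-! ### gradient weights -/

/-- the properties of the gradient weights which are used -/
structure GW {V : Type} [Fintype V] (w : (V → ℤ) → ℝ) : Prop where
  nn : ∀ h, 0 ≤ w h
  bdd : ∃ Wb : ℝ, ∀ h, w h ≤ Wb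
  pos : 0 < w 0
  ev : Ev w
  grd : GrI w
  dup : TM.H821.Dup fun h => ENNReal.ofReal (w h)

/-- admissible mass forms: symmetric, coercive, constant row sums `m` -/
structure MF {V : Type*} [Fintype V] (M : Matrix V V ℝ) (m : ℝ) : Prop where
  symm : Mᵀ = M
  row : ∀ x, ∑ y, M x y = m
  coer : ∃ m0 : ℝ, 0 < m0 ∧ ∀ u : V → ℝ, m0 * ∑ x, u x ^ 2 ≤ qf M u

section gw

variable {V : Type} [Fintype V] [DecidableEq V]

lemma MF.pos [Nonempty V] {M : Matrix V V ℝ} {m : ℝ} (hM : MF M m) : 0 < m := by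
  obtain ⟨m0, hm0, hc⟩ := hM.coer
  have h1 := hc fun _ => 1
  have hN : (0 : ℝ) < Fintype.card V := Nat.cast_pos.2 Fintype.card_pos
  have h2 : qf M (fun _ => (1 : ℝ)) = Fintype.card V * m := by
    unfold qf
    simp only [one_mul, mul_one, hM.row, Finset.sum_const, Finset.card_univ, nsmul_eq_mul]
  rw [h2] at h1
  simp only [one_pow, Finset.sum_const, Finset.card_univ, nsmul_eq_mul, mul_one] at h1
  have : m0 ≤ m := by
    have := le_of_mul_le_mul_left (by linarith : (Fintype.card V : ℝ) * m0 ≤ Fintype.card V * m) hN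
    exact this
  linarith

/-- the neutral model of the weight `w` with mass form `M` -/
def nM (w : (V → ℤ) → ℝ) (M : Matrix V V ℝ) (m : ℝ) (x₀ : V) : (V → ℤ) → ℝ :=
  pin (wM w (ntr M m)) x₀

theorem GW.em_wM {w : (V → ℤ) → ℝ} (hw : GW w) {M : Matrix V V ℝ} {m : ℝ} (hM : MF M m) :
    EM (wM w M) := by
  obtain ⟨Wb, hb⟩ := hw.bdd
  obtain ⟨m0, hm0, hc⟩ := hM.coer
  exact H37.em_wM hw.nn hb ⟨0, hw.pos⟩ hm0 hc

theorem GW.em_nM [Nonempty V] {w : (V → ℤ) → ℝ} (hw : GW w) {M : Matrix V V ℝ} {m : ℝ}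
    (hM : MF M m) (x₀ : V) : EM (nM w M m x₀) := by
  obtain ⟨Wb, hb⟩ := hw.bdd
  obtain ⟨m0, hm0, hc⟩ := hM.coer
  exact em_neu hw.nn hb hw.pos hM.symm hm0 hM.row hc x₀

theorem GW.ev_nM {w : (V → ℤ) → ℝ} (hw : GW w) (M : Matrix V V ℝ) (m : ℝ) (x₀ : V) :
    Ev (nM w M m x₀) := ev_pin (ev_wM hw.ev _) x₀

theorem GW.pk_wM {w : (V → ℤ) → ℝ} (hw : GW w) {M : Matrix V V ℝ} {m : ℝ} (hM : MF M m) :
    PK (wM w M) := H789.pk_of_dup (hw.em_wM hM) (H789.dup_wM hw.nn hw.dup M)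

theorem GW.pk_nM [Nonempty V] {w : (V → ℤ) → ℝ} (hw : GW w) {M : Matrix V V ℝ} {m : ℝ}
    (hM : MF M m) (x₀ : V) : PK (nM w M m x₀) :=
  pk_pin (hw.em_nM hM x₀) (H789.dup_wM hw.nn hw.dup _)

theorem GW.grI_wM [Nonempty V] {w : (V → ℤ) → ℝ} (hw : GW w) {M : Matrix V V ℝ} {m : ℝ}
    (hM : MF M m) : GrI (wM w (ntr M m)) :=
  H963.grI_wM hw.grd (ntr_transpose hM.symm m) (ntr_row hM.row)

/-- observation of gradients in the neutral model -/
theorem post_nM {I : Type*} [Fintype I] (w : (V → ℤ) → ℝ) (M : Matrix V V ℝ) (m : ℝ) (x₀ : V)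
    (P : Matrix I V ℝ) : post (nM w M m x₀) P = nM w (M + Pᵀ * P) m x₀ := by
  unfold nM
  rw [post_pin, post_wM]
  congr 2
  unfold ntr
  abel

/-- `Zn` of `Spec0` -/
theorem GW.Zn_eq [Nonempty V] {w : (V → ℤ) → ℝ} (hw : GW w) {M : Matrix V V ℝ} {m : ℝ}
    (hM : MF M m) (x₀ : V) (F : V → ℝ) :
    Zn w M F = Real.sqrt (2 * Real.pi / (m * Fintype.card V)) *
      (Real.exp (-(qf (ntr M m) F / 2)) * Zs (nM w M m x₀) (ntr M m *ᵥ F)) :=
  H963.Zn_eq hw.grd hw.nn hM.symm hM.pos hM.row (hw.em_nM hM x₀) F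

theorem GW.Zn_pos [Nonempty V] {w : (V → ℤ) → ℝ} (hw : GW w) {M : Matrix V V ℝ} {m : ℝ}
    (hM : MF M m) (F : V → ℝ) : 0 < Zn w M F := by
  have x₀ : V := Classical.arbitrary V
  have hN : (0 : ℝ) < Fintype.card V := Nat.cast_pos.2 Fintype.card_pos
  have hm := hM.pos
  rw [hw.Zn_eq hM x₀ F]
  exact mul_pos (Real.sqrt_pos.2 (by positivity))
    (mul_pos (Real.exp_pos _) (TM.H104.T_one_pos (hw.em_nM hM x₀) _))

theorem GW.Un_eq [Nonempty V] {w : (V → ℤ) → ℝ} (hw : GW w) {M : Matrix V V ℝ} {m : ℝ}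
    (hM : MF M m) (x₀ : V) (F : V → ℝ) :
    Un w M F = qf (An w M m x₀) F / 2 - Rs (nM w M m x₀) (ntr M m *ᵥ F) :=
  H963.Un_eq hw.grd hw.nn hM.symm hM.pos hM.row (hw.em_nM hM x₀) F

end gw

/-! ### the torus -/

section torus

open Vale.Agent.P159.TM.SpecC (Tor wT)

variable {N : ℕ} [NeZero N] {b : ℝ}

theorem grI_wT : GrI (wT b N) := by
  intro h n
  unfold wT
  refine Finset.prod_congr rfl fun x _ => ?_
  have e1 : h (x + (1, 0)) + n - (h x + n) = h (x + (1, 0)) - h x := by ring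
  have e2 : h (x + (0, 1)) + n - (h x + n) = h (x + (0, 1)) - h x := by ring
  rw [e1, e2]

theorem gw_wT (hb : 0 ≤ b) : GW (wT b N) where
  nn := H789.wT_nonneg hb N
  bdd := ⟨_, H789.wT_le hb⟩
  pos := H789.wT_zero_pos hb
  ev := H789.wT_even
  grd := grI_wT
  dup := H789.dup_wT hb N

theorem mf_smul {t : ℝ} (ht : 0 < t) : MF (t • (1 : Matrix (Tor N) (Tor N) ℝ)) t where
  symm := by rw [transpose_smul, transpose_one]
  row x := by
    simp only [Matrix.smul_apply, smul_eq_mul, ← Finset.mul_sum, Matrix.one_apply]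
    simp
  coer := ⟨t, ht, H789.coer_smul t⟩

/-- the neutral torus weight with scalar mass `t`, pinned at `x₀` -/
def nwt (N : ℕ) [NeZero N] (b t : ℝ) (x₀ : Tor N) : (Tor N → ℤ) → ℝ :=
  nM (wT b N) (t • (1 : Matrix (Tor N) (Tor N) ℝ)) t x₀

theorem em_nwt (hb : 0 ≤ b) {t : ℝ} (ht : 0 < t) (x₀ : Tor N) : EM (nwt N b t x₀) :=
  (gw_wT hb).em_nM (mf_smul ht) x₀

theorem ev_nwt (hb : 0 ≤ b) (t : ℝ) (x₀ : Tor N) : Ev (nwt N b t x₀) :=
  (gw_wT hb).ev_nM _ t x₀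

theorem pk_nwt (hb : 0 ≤ b) {t : ℝ} (ht : 0 < t) (x₀ : Tor N) : PK (nwt N b t x₀) :=
  (gw_wT hb).pk_nM (mf_smul ht) x₀

end torus

end

end Vale.Agent.P159.H963
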