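import Vale.Agent.P159.H963.NeuD

/-!
P159, module NEU (helper963), part 7: the charge sectors as characters of the neutral model.
-/

namespace Vale.Agent.P159.H963

open Finset Matrix MeasureTheory
open Vale.Agent.P159.TM.H104 (EM Ex Cv K3 Lg li nh Gr)
open Vale.Agent.P159.H37

set_option linter.unusedSectionVars false

noncomputable section

variable {V : Type*} [Fintype V] [DecidableEq V]

/-- the character `exp (- 2 π i q u)` -/
def chr (q : ℤ) (u : ℝ) : ℂ := Complex.exp (-(2 * Real.pi * q * u) * Complex.I)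

lemma norm_chr (q : ℤ) (u : ℝ) : ‖chr q u‖ = 1 := by
  unfold chr
  have h1 : (-(2 * Real.pi * q * u) * Complex.I : ℂ) = ((-(2 * Real.pi * q * u) : ℝ) : ℂ) * Complex.I := by
    push_cast; ring
  rw [h1, Complex.norm_exp_ofReal_mul_I]

lemma chr_add (q : ℤ) (u v : ℝ) : chr q (u + v) = chr q u * chr q v := by
  unfold chr
  rw [← Complex.exp_add]
  congr 1
  push_cast
  ring

lemma chr_zero (q : ℤ) : chr q 0 = 1 := by
  unfold chr
  simp

lemma chr_int (q n : ℤ) : chr q n = 1 := by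
  unfold chr
  rw [Complex.exp_eq_one_iff]
  refine ⟨-(q * n), ?_⟩
  push_cast
  ring

lemma chr_add_int (q : ℤ) (u : ℝ) (n : ℤ) : chr q (u + n) = chr q u := by
  rw [chr_add, chr_int, mul_one]

lemma chr_neg (q : ℤ) (u : ℝ) : chr q (-u) * chr q u = 1 := by
  rw [← chr_add, neg_add_cancel, chr_zero]

lemma continuous_chr (q : ℤ) : Continuous (chr q) := by
  unfold chr
  fun_prop

lemma chr_eq (q : ℤ) (u : ℝ) : chr q u =
    (Real.cos (2 * Real.pi * q * u) : ℂ) - (Real.sin (2 * Real.pi * q * u) : ℂ) * Complex.I := by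
  unfold chr
  have h1 : (-(2 * Real.pi * q * u) * Complex.I : ℂ) = ((-(2 * Real.pi * q * u) : ℝ) : ℂ) * Complex.I := by
    push_cast; ring
  rw [h1, Complex.exp_mul_I, ← Complex.ofReal_cos, ← Complex.ofReal_sin, Real.cos_neg,
    Real.sin_neg]
  push_cast
  ring

/-- Fourier transform of a Gaussian -/
lemma gauss_four {c : ℝ} (hc : 0 < c) (q : ℤ) :
    ∫ y : ℝ, (Real.exp (-c * y ^ 2) : ℂ) * chr q (-y) =
      ((Real.sqrt (Real.pi / c) * Real.exp (-(Real.pi ^ 2 * q ^ 2 / c)) : ℝ) : ℂ) := by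
  have h1 := fourierIntegral_gaussian (b := (c : ℂ)) (by simpa using hc)
    ((2 * Real.pi * q : ℝ) : ℂ)
  have h2 : (fun y : ℝ => (Real.exp (-c * y ^ 2) : ℂ) * chr q (-y)) = fun y : ℝ =>
      Complex.exp (Complex.I * ((2 * Real.pi * q : ℝ) : ℂ) * y) * Complex.exp (-(c : ℂ) * y ^ 2) := by
    funext y
    unfold chr
    rw [mul_comm, Complex.ofReal_exp]
    push_cast
    congr 2
    ring
  have h3 : ((Real.sqrt (Real.pi / c) * Real.exp (-(Real.pi ^ 2 * q ^ 2 / c)) : ℝ) : ℂ) =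
      ((Real.sqrt (Real.pi / c) : ℝ) : ℂ) *
        Complex.exp ((-(Real.pi ^ 2 * q ^ 2 / c) : ℝ) : ℂ) := by
    rw [Complex.ofReal_mul, Complex.ofReal_exp]
  rw [h2, h1, h3]
  congr 1
  · rw [Real.sqrt_eq_rpow, Complex.ofReal_cpow (by positivity)]
    push_cast
    rfl
  · congr 1
    push_cast
    have : (c : ℂ) ≠ 0 := by exact_mod_cast hc.ne'
    field_simp
    ring

/-- periodisation of a Gaussian with a character -/
lemma gauss_perC {c : ℝ} (a : ℝ) (hc : 0 < c) (q : ℤ) :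
    HasSum (fun n : ℤ => ∫ u in (0 : ℝ)..1, (Real.exp (-c * (a + n - u) ^ 2) : ℂ) * chr q u)
      (((Real.sqrt (Real.pi / c) * Real.exp (-(Real.pi ^ 2 * q ^ 2 / c)) : ℝ) : ℂ) * chr q a) := by
  have h0 : Integrable fun y : ℝ => (Real.exp (-c * y ^ 2) : ℂ) * chr q y := by
    refine Integrable.mul_bdd (c := 1) (gauss_int hc).ofReal
      (continuous_chr q).aestronglyMeasurable (Filter.Eventually.of_forall fun y => ?_)
    rw [norm_chr]
  have h1 : Integrable fun y : ℝ => (Real.exp (-c * (y - a) ^ 2) : ℂ) * chr q (y - a) :=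
    h0.comp_sub_right a
  have h2 := (h1.mul_const (chr q a)).hasSum_intervalIntegral_comp_add_int
  have h3 : ∫ y : ℝ, (Real.exp (-c * (y - a) ^ 2) : ℂ) * chr q (y - a) * chr q a =
      ((Real.sqrt (Real.pi / c) * Real.exp (-(Real.pi ^ 2 * q ^ 2 / c)) : ℝ) : ℂ) * chr q a := by
    rw [integral_mul_const, integral_sub_right_eq_self
      (fun y : ℝ => (Real.exp (-c * y ^ 2) : ℂ) * chr q y) a, ← gauss_four hc q]
    congr 1
    rw [← integral_neg_eq_self]
    refine integral_congr_ae (Filter.Eventually.of_forall fun y => ?_)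
    simp only [neg_sq]
  rw [h3] at h2
  have h4 := (Equiv.neg ℤ).hasSum_iff.2 h2
  have h5 : (fun n : ℤ => ∫ u in (0 : ℝ)..1, (Real.exp (-c * (a + n - u) ^ 2) : ℂ) * chr q u) =
      (fun n : ℤ => ∫ x in (0 : ℝ)..1, (Real.exp (-c * (x + n - a) ^ 2) : ℂ) *
        chr q (x + n - a) * chr q a) ∘ (Equiv.neg ℤ) := by
    funext n
    simp only [Function.comp_apply, Equiv.neg_apply]
    refine intervalIntegral.integral_congr fun u _ => ?_
    rw [mul_assoc, ← chr_add]
    congr 1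
    · congr 3
      push_cast
      ring
    · rw [show u + ((-n : ℤ) : ℝ) - a + a = u + ((-n : ℤ) : ℝ) by ring, chr_add_int]
  rw [h5]
  exact h4

/-- the integrals of the terms of a periodised sum are summable -/
lemma per_norm {x₀ : V} {B a : (V → ℤ) → ℝ} (hB0 : ∀ h, 0 ≤ B h) (hB : GrI B)
    (ha : ∀ (h : V → ℤ) (n : ℤ), a (fun x => h x + n) = a h + n)
    (hs : Summable fun h : V → ℤ => if h x₀ = 0 then B h else 0) {c : ℝ} (hc : 0 < c) :
    Summable fun h : V → ℤ => ∫ u in (0 : ℝ)..1, B h * Real.exp (-c * (a h - u) ^ 2) := by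
  have hnn : ∀ (h : V → ℤ) (u : ℝ), 0 ≤ B h * Real.exp (-c * (a h - u) ^ 2) :=
    fun h u => mul_nonneg (hB0 h) (Real.exp_pos _).le
  set f : {k : V → ℤ // k x₀ = 0} × ℤ → ℝ := fun p =>
    ∫ u in (0 : ℝ)..1, B (spl x₀ p) * Real.exp (-c * (a (spl x₀ p) - u) ^ 2) with hf
  have hrow : ∀ k : {k : V → ℤ // k x₀ = 0},
      HasSum (fun n : ℤ => f (k, n)) (B k.1 * Real.sqrt (Real.pi / c)) := by
    intro k
    have h1 := (gauss_per (a k.1) hc).mul_left (B k.1)
    have h2 : (fun n : ℤ => f (k, n)) = fun n : ℤ =>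
        B k.1 * ∫ u in (0 : ℝ)..1, Real.exp (-c * (a k.1 + n - u) ^ 2) := by
      funext n
      have e : spl x₀ (k, n) = fun x => k.1 x + n := rfl
      simp only [hf, e, hB k.1 n, ha k.1 n]
      rw [intervalIntegral.integral_const_mul]
    rw [h2]
    exact h1
  have hf0 : 0 ≤ f := fun p => intervalIntegral.integral_nonneg zero_le_one fun u _ => hnn _ u
  have hsub : Summable fun k : {k : V → ℤ // k x₀ = 0} => B k.1 := by
    refine (hs.comp_injective (i := fun k : {k : V → ℤ // k x₀ = 0} => k.1)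
      Subtype.val_injective).congr fun k => ?_
    simp only [Function.comp_apply, k.2, if_true]
  have hfs : Summable f := by
    rw [summable_prod_of_nonneg hf0]
    refine ⟨fun k => (hrow k).summable, ?_⟩
    refine (hsub.mul_right (Real.sqrt (Real.pi / c))).congr fun k => ?_
    exact (hrow k).tsum_eq.symm
  rw [← (spl x₀).summable_iff]
  exact hfs

lemma grI_tsumC {x₀ : V} (B : (V → ℤ) → ℂ) :
    ∑' k : {k : V → ℤ // k x₀ = 0}, B k.1 = ∑' h, (if h x₀ = 0 then B h else 0) := by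
  have h1 := tsum_subtype {k : V → ℤ | k x₀ = 0} B
  have h2 : ∑' k : {k : V → ℤ // k x₀ = 0}, B k.1 = ∑' k : {k : V → ℤ | k x₀ = 0}, B k.1 := rfl
  rw [h2, h1]
  refine tsum_congr fun h => ?_
  by_cases h0 : h x₀ = 0
  · rw [if_pos h0]
    exact Set.indicator_of_mem (show h ∈ {k : V → ℤ | k x₀ = 0} from h0) B
  · rw [if_neg h0]
    exact Set.indicator_of_notMem (show h ∉ {k : V → ℤ | k x₀ = 0} from h0) B

/-- **periodisation with a character** -/
theorem per_sumC {x₀ : V} {B a : (V → ℤ) → ℝ} (hB0 : ∀ h, 0 ≤ B h) (hB : GrI B)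
    (ha : ∀ (h : V → ℤ) (n : ℤ), a (fun x => h x + n) = a h + n)
    (hs : Summable fun h : V → ℤ => if h x₀ = 0 then B h else 0) {c : ℝ} (hc : 0 < c) (q : ℤ) :
    ∫ u in (0 : ℝ)..1, ((∑' h : V → ℤ, B h * Real.exp (-c * (a h - u) ^ 2) : ℝ) : ℂ) * chr q u =
      ((Real.sqrt (Real.pi / c) * Real.exp (-(Real.pi ^ 2 * q ^ 2 / c)) : ℝ) : ℂ) *
        ∑' h : V → ℤ, (if h x₀ = 0 then (B h : ℂ) * chr q (a h) else 0) := by
  have hnn : ∀ (h : V → ℤ) (u : ℝ), 0 ≤ B h * Real.exp (-c * (a h - u) ^ 2) :=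
    fun h u => mul_nonneg (hB0 h) (Real.exp_pos _).le
  set g : (V → ℤ) → ℝ → ℂ := fun h u =>
    ((B h * Real.exp (-c * (a h - u) ^ 2) : ℝ) : ℂ) * chr q u with hg
  have hcont : ∀ h : V → ℤ, Continuous (g h) := by
    intro h
    have h1 : Continuous fun u : ℝ => ((B h * Real.exp (-c * (a h - u) ^ 2) : ℝ) : ℂ) :=
      Complex.continuous_ofReal.comp (by fun_prop)
    exact h1.mul (continuous_chr q)
  have hng : ∀ (h : V → ℤ) (u : ℝ), ‖g h u‖ = B h * Real.exp (-c * (a h - u) ^ 2) := by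
    intro h u
    simp only [hg]
    rw [norm_mul, norm_chr, mul_one, Complex.norm_real, Real.norm_of_nonneg (hnn h u)]
  have hI : ∀ h : V → ℤ, IntegrableOn (g h) (Set.Ioc 0 1) := fun h =>
    ((hcont h).intervalIntegrable 0 1).1
  have hfs0 := per_norm hB0 hB ha hs hc
  have hfs2 : Summable fun h : V → ℤ => ∫ u in Set.Ioc (0 : ℝ) 1, ‖g h u‖ := by
    refine hfs0.congr fun h => ?_
    rw [intervalIntegral.integral_of_le zero_le_one]
    exact integral_congr_ae (Filter.Eventually.of_forall fun u => (hng h u).symm)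
  set f : {k : V → ℤ // k x₀ = 0} × ℤ → ℂ := fun p =>
    ∫ u in (0 : ℝ)..1, g (spl x₀ p) u with hf
  have hfs : Summable f := by
    have h3 : Summable fun h : V → ℤ => ∫ u in (0 : ℝ)..1, g h u := by
      refine Summable.of_norm_bounded hfs2 fun h => ?_
      rw [intervalIntegral.integral_of_le zero_le_one]
      exact norm_integral_le_integral_norm _
    exact (spl x₀).summable_iff.2 h3
  have hrow : ∀ k : {k : V → ℤ // k x₀ = 0},
      HasSum (fun n : ℤ => f (k, n)) ((B k.1 : ℂ) *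
        (((Real.sqrt (Real.pi / c) * Real.exp (-(Real.pi ^ 2 * q ^ 2 / c)) : ℝ) : ℂ) *
          chr q (a k.1))) := by
    intro k
    have h1 := (gauss_perC (a k.1) hc q).mul_left (B k.1 : ℂ)
    have h2 : (fun n : ℤ => f (k, n)) = fun n : ℤ => (B k.1 : ℂ) *
        ∫ u in (0 : ℝ)..1, (Real.exp (-c * (a k.1 + n - u) ^ 2) : ℂ) * chr q u := by
      funext n
      have e : spl x₀ (k, n) = fun x => k.1 x + n := rfl
      simp only [hf, hg, e, hB k.1 n, ha k.1 n]
      rw [← intervalIntegral.integral_const_mul]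
      refine intervalIntegral.integral_congr fun u _ => ?_
      push_cast
      ring
    rw [h2]
    exact h1
  have h1 := integral_tsum_of_summable_integral_norm hI hfs2
  have h0 : ∀ u : ℝ, ((∑' h : V → ℤ, B h * Real.exp (-c * (a h - u) ^ 2) : ℝ) : ℂ) * chr q u =
      ∑' h : V → ℤ, g h u := by
    intro u
    rw [Complex.ofReal_tsum, ← tsum_mul_right]
  simp only [h0]
  rw [intervalIntegral.integral_of_le zero_le_one, ← h1, ← (spl x₀).tsum_eq]
  have h2 : (fun p : {k : V → ℤ // k x₀ = 0} × ℤ => ∫ u in Set.Ioc (0 : ℝ) 1,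
      g (spl x₀ p) u) = f := by
    funext p
    simp only [hf]
    rw [intervalIntegral.integral_of_le zero_le_one]
  rw [h2, hfs.tsum_prod, ← grI_tsumC, ← tsum_mul_left]
  refine tsum_congr fun k => ?_
  rw [(hrow k).tsum_eq]
  ring

/-! ### the charge sectors -/

/-- the mean height -/
def mh (h : V → ℤ) : ℝ := (∑ x, (h x : ℝ)) / Fintype.card V

/-- the mean of a real background -/
def mF (F : V → ℝ) : ℝ := (∑ x, F x) / Fintype.card V

/-- cosine of the charge `q` relative to the background mean `a` -/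
def cq (q : ℤ) (a : ℝ) (h : V → ℤ) : ℝ := Real.cos (2 * Real.pi * q * (mh h - a))

/-- sine of the charge `q` relative to the background mean `a` -/
def sq (q : ℤ) (a : ℝ) (h : V → ℤ) : ℝ := Real.sin (2 * Real.pi * q * (mh h - a))

lemma gr_cq (q : ℤ) (a : ℝ) : Gr (cq (V := V) q a) := Gr.of_bdd (C := 1) fun _ => Real.abs_cos_le_one _

lemma gr_sq (q : ℤ) (a : ℝ) : Gr (sq (V := V) q a) := Gr.of_bdd (C := 1) fun _ => Real.abs_sin_le_one _

lemma mh_addc [Nonempty V] (h : V → ℤ) (n : ℤ) : mh (fun x => h x + n) = mh h + n := by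
  have hN : (Fintype.card V : ℝ) ≠ 0 := Nat.cast_ne_zero.2 Fintype.card_ne_zero
  unfold mh
  push_cast
  rw [Finset.sum_add_distrib, Finset.sum_const, Finset.card_univ, nsmul_eq_mul]
  field_simp

lemma grI_cq [Nonempty V] (q : ℤ) (a : ℝ) : GrI (cq (V := V) q a) := by
  intro h n
  unfold cq
  rw [mh_addc]
  have e : 2 * Real.pi * q * (mh h + n - a) = 2 * Real.pi * q * (mh h - a) + (q * n : ℤ) * (2 * Real.pi) := by
    push_cast; ring
  rw [e, Real.cos_add_int_mul_two_pi]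

lemma grI_sq [Nonempty V] (q : ℤ) (a : ℝ) : GrI (sq (V := V) q a) := by
  intro h n
  unfold sq
  rw [mh_addc]
  have e : 2 * Real.pi * q * (mh h + n - a) = 2 * Real.pi * q * (mh h - a) + (q * n : ℤ) * (2 * Real.pi) := by
    push_cast; ring
  rw [e, Real.sin_add_int_mul_two_pi]

/-- **(N7)** the charge sectors are characters of the neutral model -/
theorem Zq_eq [Nonempty V] {w : (V → ℤ) → ℝ} (hw : GrI w) (hw0 : ∀ h, 0 ≤ w h)
    {M : Matrix V V ℝ} (hM : Mᵀ = M) {m : ℝ} (hm : 0 < m) (hrow : ∀ x, ∑ y, M x y = m) {x₀ : V}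
    (hE : EM (pin (wM w (ntr M m)) x₀)) (q : ℤ) (F : V → ℝ) :
    Zq w M q F = ((Real.sqrt (2 * Real.pi / (m * Fintype.card V)) *
      Real.exp (-(2 * Real.pi ^ 2 * q ^ 2 / (m * Fintype.card V))) *
        Real.exp (-(qf (ntr M m) F / 2)) : ℝ) : ℂ) *
      (((TM.H104.T (pin (wM w (ntr M m)) x₀) (ntr M m *ᵥ F) (cq q (mF F)) : ℝ) : ℂ) -
        ((TM.H104.T (pin (wM w (ntr M m)) x₀) (ntr M m *ᵥ F) (sq q (mF F)) : ℝ) : ℂ) *
          Complex.I) := by
  have hN : (0 : ℝ) < Fintype.card V := Nat.cast_pos.2 Fintype.card_pos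
  set M0 := ntr M m with hM0
  have hM0t : M0ᵀ = M0 := ntr_transpose hM m
  have hM01 : ∀ x, ∑ y, M0 x y = 0 := ntr_row hrow
  have hterm : ∀ (c : ℝ) (h : V → ℤ), w h * Real.exp (-(qf M (re h - fun x => F x + c) / 2)) =
      (w h * Real.exp (-(qf M0 (re h - F) / 2))) *
        Real.exp (-(m * Fintype.card V / 2) * (mh h - mF F - c) ^ 2) := by
    intro c h
    rw [mul_assoc, ← Real.exp_add]
    congr 2
    rw [qf_ntr M m]
    have e1 : (re h - fun x => F x + c) = fun x => (re h - F) x + (-c) := by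
      funext x
      simp only [Pi.sub_apply]
      ring
    have e2 : ∑ x, (re h - fun x => F x + c) x = ∑ x, re h x - ∑ x, F x - Fintype.card V * c := by
      simp only [Pi.sub_apply]
      rw [Finset.sum_sub_distrib, Finset.sum_add_distrib,
        Finset.sum_const, Finset.card_univ, nsmul_eq_mul]
      ring
    rw [e2, e1, qf_addc hM0t hM01]
    unfold mh mF
    have e3 : ∀ x, re h x = (h x : ℝ) := fun _ => rfl
    simp only [e3]
    field_simp
    ring
  have hB : GrI fun h : V → ℤ => w h * Real.exp (-(qf M0 (re h - F) / 2)) := by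
    intro h n
    have e1 : re (fun x => h x + n) - F = fun x => (re h - F) x + (n : ℝ) := by
      rw [re_addc]
      funext x
      simp only [Pi.sub_apply]
      ring
    simp only [hw h n, e1, qf_addc hM0t hM01]
  have ha : ∀ (h : V → ℤ) (n : ℤ), mh (fun x => h x + n) - mF F = mh h - mF F + n := by
    intro h n
    rw [mh_addc]
    ring
  have hpt : ∀ h : V → ℤ, (if h x₀ = 0 then w h * Real.exp (-(qf M0 (re h - F) / 2)) else 0) =
      Real.exp (-(qf M0 F / 2)) *
        (pin (wM w M0) x₀ h * Real.exp (li (M0 *ᵥ F) h)) := by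
    intro h
    unfold pin
    by_cases h0 : h x₀ = 0
    · rw [if_pos h0, if_pos h0]
      unfold wM
      rw [li_mass hM0t, qf_sub_vec hM0t, mul_assoc, ← mul_assoc, mul_comm _ (w h),
        mul_assoc, ← Real.exp_add, ← Real.exp_add]
      congr 2
      ring
    · rw [if_neg h0, if_neg h0]
      ring
  have hsum : Summable fun h : V → ℤ =>
      if h x₀ = 0 then w h * Real.exp (-(qf M0 (re h - F) / 2)) else 0 := by
    refine ((hE.summ (TM.H104.Gr.const 1) (M0 *ᵥ F)).mul_left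
      (Real.exp (-(qf M0 F / 2)))).congr fun h => ?_
    rw [hpt h, one_mul]
  have hc : 0 < m * (Fintype.card V : ℝ) / 2 := by positivity
  have h1 := per_sumC (x₀ := x₀) (B := fun h : V → ℤ => w h * Real.exp (-(qf M0 (re h - F) / 2)))
    (a := fun h : V → ℤ => mh h - mF F)
    (fun h => mul_nonneg (hw0 h) (Real.exp_pos _).le) hB ha hsum hc q
  have h2 : Zq w M q F = ∫ u in (0 : ℝ)..1, ((∑' h : V → ℤ,
      (w h * Real.exp (-(qf M0 (re h - F) / 2))) *
        Real.exp (-(m * Fintype.card V / 2) * (mh h - mF F - u) ^ 2) : ℝ) : ℂ) * chr q u := by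
    unfold Zq ZM chr
    refine intervalIntegral.integral_congr fun c _ => ?_
    congr 2
    exact tsum_congr fun h => hterm c h
  rw [h2, h1]
  have h3 : Real.pi / (m * (Fintype.card V : ℝ) / 2) = 2 * Real.pi / (m * Fintype.card V) := by
    field_simp
  have h4 : Real.pi ^ 2 * (q : ℝ) ^ 2 / (m * (Fintype.card V : ℝ) / 2) =
      2 * Real.pi ^ 2 * q ^ 2 / (m * Fintype.card V) := by
    field_simp
  have hsc : Summable fun h : V → ℤ => cq q (mF F) h * pin (wM w M0) x₀ h *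
      Real.exp (li (M0 *ᵥ F) h) := hE.summ (gr_cq q _) _
  have hss : Summable fun h : V → ℤ => sq q (mF F) h * pin (wM w M0) x₀ h *
      Real.exp (li (M0 *ᵥ F) h) := hE.summ (gr_sq q _) _
  have h5 : ∑' h : V → ℤ, (if h x₀ = 0 then
      ((w h * Real.exp (-(qf M0 (re h - F) / 2)) : ℝ) : ℂ) * chr q (mh h - mF F) else 0) =
      ((Real.exp (-(qf M0 F / 2)) : ℝ) : ℂ) *
        (((∑' h : V → ℤ, cq q (mF F) h * pin (wM w M0) x₀ h * Real.exp (li (M0 *ᵥ F) h) : ℝ) : ℂ) -
          ((∑' h : V → ℤ, sq q (mF F) h * pin (wM w M0) x₀ h *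
            Real.exp (li (M0 *ᵥ F) h) : ℝ) : ℂ) * Complex.I) := by
    rw [Complex.ofReal_tsum, Complex.ofReal_tsum, ← tsum_mul_right,
      ← (Complex.summable_ofReal.2 hsc).tsum_sub
        ((Complex.summable_ofReal.2 hss).mul_right Complex.I), ← tsum_mul_left]
    refine tsum_congr fun h => ?_
    have h6 := hpt h
    by_cases h0 : h x₀ = 0
    · rw [if_pos h0] at h6 ⊢
      rw [h6, chr_eq]
      unfold cq sq
      push_cast
      ring
    · rw [if_neg h0] at h6 ⊢
      have h7 : pin (wM w M0) x₀ h = 0 := pin_of_ne h0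
      simp only [h7]
      simp
  rw [h3, h4, h5]
  unfold TM.H104.T
  push_cast
  ring

end

section gwq

variable {V : Type} [Fintype V] [DecidableEq V]

/-- the prefactor of the constant mode -/
noncomputable def eq2 (V : Type*) [Fintype V] (m : ℝ) (q : ℤ) : ℝ :=
  Real.exp (-(2 * Real.pi ^ 2 * q ^ 2 / (m * Fintype.card V)))

lemma eq2_pos (m : ℝ) (q : ℤ) : 0 < eq2 V m q := Real.exp_pos _

/-- **(N7)** charge sector over the neutral sector, in every real background -/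
theorem GW.Zq_eq [Nonempty V] {w : (V → ℤ) → ℝ} (hw : GW w) {M : Matrix V V ℝ} {m : ℝ}
    (hM : MF M m) (x₀ : V) (q : ℤ) (F : V → ℝ) :
    Zq w M q F = ((Zn w M F * eq2 V m q : ℝ) : ℂ) *
      (((Ex (nM w M m x₀) (ntr M m *ᵥ F) (cq q (mF F)) : ℝ) : ℂ) -
        ((Ex (nM w M m x₀) (ntr M m *ᵥ F) (sq q (mF F)) : ℝ) : ℂ) * Complex.I) := by
  have hE := hw.em_nM hM x₀
  rw [H963.Zq_eq hw.grd hw.nn hM.symm hM.pos hM.row hE q F, hw.Zn_eq hM x₀ F]
  unfold eq2 TM.H104.Ex Zs nM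
  have hT : (TM.H104.T (pin (wM w (ntr M m)) x₀) (ntr M m *ᵥ F) fun _ => 1) ≠ 0 :=
    (TM.H104.T_one_pos hE _).ne'
  have hT' : ((TM.H104.T (pin (wM w (ntr M m)) x₀) (ntr M m *ᵥ F) fun _ => 1 : ℝ) : ℂ) ≠ 0 :=
    Complex.ofReal_ne_zero.2 hT
  push_cast
  field_simp

theorem GW.Zq_re [Nonempty V] {w : (V → ℤ) → ℝ} (hw : GW w) {M : Matrix V V ℝ} {m : ℝ}
    (hM : MF M m) (x₀ : V) (q : ℤ) (F : V → ℝ) :
    (Zq w M q F).re = Zn w M F * eq2 V m q *
      Ex (nM w M m x₀) (ntr M m *ᵥ F) (cq q (mF F)) := by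
  rw [hw.Zq_eq hM x₀ q F]
  simp

theorem GW.Zq_im [Nonempty V] {w : (V → ℤ) → ℝ} (hw : GW w) {M : Matrix V V ℝ} {m : ℝ}
    (hM : MF M m) (x₀ : V) (q : ℤ) (F : V → ℝ) :
    (Zq w M q F).im = -(Zn w M F * eq2 V m q *
      Ex (nM w M m x₀) (ntr M m *ᵥ F) (sq q (mF F))) := by
  rw [hw.Zq_eq hM x₀ q F]
  simp

lemma sq_add_sq_le {μ : (V → ℤ) → ℝ} (hE : EM μ) (J : V → ℝ) (q : ℤ) (a : ℝ) :
    Ex μ J (cq q a) ^ 2 + Ex μ J (sq q a) ^ 2 ≤ 1 := by
  have h1 : 0 ≤ Cv μ J (cq q a) (cq q a) := by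
    rw [H864.Cv_self hE (gr_cq (V := V) q a)]
    exact TM.H104.Ex_nonneg hE (fun h => sq_nonneg _) J
  have h2 : 0 ≤ Cv μ J (sq q a) (sq q a) := by
    rw [H864.Cv_self hE (gr_sq (V := V) q a)]
    exact TM.H104.Ex_nonneg hE (fun h => sq_nonneg _) J
  unfold TM.H104.Cv at h1 h2
  have h3 : Ex μ J (fun h => cq q a h * cq q a h) + Ex μ J (fun h => sq q a h * sq q a h) = 1 := by
    rw [← TM.H104.Ex_add hE ((gr_cq q a).mul (gr_cq q a)) ((gr_sq q a).mul (gr_sq q a)) J,
      ← TM.H104.Ex_const hE 1 J]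
    congr 1
    funext h
    unfold cq sq
    have := Real.sin_sq_add_cos_sq (2 * Real.pi * q * (mh h - a))
    nlinarith
  nlinarith

/-- a priori bound of the charge sectors: the constant mode alone -/
theorem GW.norm_Zq_le [Nonempty V] {w : (V → ℤ) → ℝ} (hw : GW w) {M : Matrix V V ℝ} {m : ℝ}
    (hM : MF M m) (q : ℤ) (F : V → ℝ) : ‖Zq w M q F‖ ≤ eq2 V m q * Zn w M F := by
  have x₀ : V := Classical.arbitrary V
  have hp := hw.Zn_pos hM F
  rw [hw.Zq_eq hM x₀ q F, norm_mul, Complex.norm_real,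
    Real.norm_of_nonneg (mul_pos hp (eq2_pos (V := V) m q)).le, mul_comm (eq2 V m q)]
  refine (mul_le_mul_of_nonneg_left ?_ (mul_pos hp (eq2_pos (V := V) m q)).le).trans
    (mul_one _).le
  rw [← abs_of_nonneg (norm_nonneg _), ← sq_le_one_iff_abs_le_one, Complex.sq_norm,
    Complex.normSq_apply]
  have h1 := sq_add_sq_le (hw.em_nM hM x₀) (ntr M m *ᵥ F) q (mF F)
  simp only [Complex.sub_re, Complex.ofReal_re, Complex.mul_re, Complex.ofReal_im, Complex.I_re,
    mul_zero, Complex.I_im, sub_self, sub_zero, Complex.sub_im, Complex.mul_im, mul_one,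
    add_zero, zero_sub]
  nlinarith

end gwq

end Vale.Agent.P159.H963
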