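import Vale.Agent.P159.H963.NeuR
import Vale.Agent.P159.H963.NeuC
import Vale.Agent.P159.H896.Comb
import Vale.Agent.P159.H889.Vwin
import Vale.Agent.P159.H363.Brd
import Vale.Agent.P159.H708.Coarse
import Vale.Agent.P159.H159.FinLim

/-!
P159, module LINK (helper963): value of the charge one sector of the torus with vanishing mass on
the cell fields as an expectation of the charge functional in the typical law, and the upper bound
of the massless torus number by the carried activity of the V state.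

`A` = form of the typical law, `F = pin A g` neutral, `ν = t l²`, density `exp (-|F|²/(2s))`:
the averaged mass form is `t` off the cells, `a = t/(1 + s ν)` on the neutral cell fields, `t` on
the constants.
-/

namespace Vale.Agent.P159.LNK

open Finset Matrix MeasureTheory Filter Topology
open Vale.Agent.P159.TM.H104 (EM Ex Cv Lg li nh Gr)
open Vale.Agent.P159.H37 (qf bf qf_eq Un Zn ZM wM gau Gm Cm cellP Ev PK)
open Vale.Agent.P159.TM.Spec (V)
open Vale.Agent.P159.TM.SpecC (Tor wT)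
open Vale.Agent.P159.TM.H764 (EE cN sN dt)
open Vale.Agent.P159.H864 (TI sym fc MC cl cobV)
open Vale.Agent.P159.H363 (pin Nf lf lf_eq acl Rcl Ch ee mainf)
open Vale.Agent.P159.H462 (avgM ti_avgM sym_avgM)
open Vale.Agent.P159.H896 (WM Ph om Avg Hv cK av avg_Ph avg_Zn_int norm_Ph_le wm_t wm_wT)
open Vale.Agent.P159.H963 (Neu Pn Pn_mulVec Pn_transpose Pn_of_neu cardV N_eq ntr nM nMC eq2 eq2_pos MF GW
  gw_wT mf_MC mf_smul)
open Vale.Agent.P159.H159 (Ms qf_Ms Ms_transpose Ms_row nM_Ms)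

set_option linter.unusedSectionVars false

noncomputable section

variable {N l : ℕ} [NeZero N] [NeZero (N / l)] {b t s : ℝ} {A : Matrix (V (N / l)) (V (N / l)) ℝ}

/-! ### the averaging -/

/-- lift -/
lemma lf_mul (hl : l ∣ N) (F : V (N / l) → ℝ) :
    lf N l F = ((l : ℝ) • (cobV N l)ᵀ) *ᵥ F := by
  rw [lf_eq hl, smul_mulVec]

lemma E0M (hl : l ∣ N) (t : ℝ) :
    ((l : ℝ) • (cobV N l)ᵀ)ᵀ * (t • (1 : Matrix (V N) (V N) ℝ)) * ((l : ℝ) • (cobV N l)ᵀ)
      = (t * (l : ℝ) ^ 2) • 1 := by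
  have e : ((l : ℝ) • cobV N l) * (t • (1 : Matrix (V N) (V N) ℝ)) = ((l : ℝ) * t) • cobV N l := by
    rw [Matrix.smul_mul, Matrix.mul_smul, Matrix.mul_one, smul_smul]
  rw [transpose_smul, transpose_transpose, e, Matrix.smul_mul, Matrix.mul_smul, smul_smul,
    H864.cobV_mul_tr hl]
  congr 1
  ring

lemma lpos (hl : l ∣ N) : (0 : ℝ) < l := by exact_mod_cast H864.l_pos hl

/-- cell averages -/
lemma av_eq (hl : l ∣ N) (ht : 0 < t) (z : V N → ℝ) :
    av (t • (1 : Matrix (V N) (V N) ℝ)) ((l : ℝ) • (cobV N l)ᵀ) (t * (l : ℝ) ^ 2) z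
      = (l : ℝ)⁻¹ • (cobV N l *ᵥ z) := by
  have h := lpos hl
  unfold av
  have e : (t • (1 : Matrix (V N) (V N) ℝ)) *ᵥ z = t • z := by rw [smul_mulVec, one_mulVec]
  rw [e, transpose_smul, transpose_transpose, smul_mulVec, mulVec_smul, smul_smul, smul_smul]
  congr 1
  field_simp

/-- the mass on the neutral cell fields -/
def aS (l : ℕ) (t s : ℝ) : ℝ := t / (1 + s * (t * (l : ℝ) ^ 2))

lemma aS_pos (ht : 0 < t) (hs : 0 < s) : 0 < aS l t s := by
  unfold aS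
  positivity

lemma aS_le (ht : 0 < t) (hs : 0 < s) : aS l t s ≤ t := by
  unfold aS
  refine div_le_self ht.le ?_
  have : 0 ≤ s * (t * (l : ℝ) ^ 2) := by positivity
  linarith

/-- the mass form below -/
def ML (N l : ℕ) [NeZero N] (t s : ℝ) : Matrix (V N) (V N) ℝ := Ms (MC N l t (aS l t s)) (aS l t s) t

lemma sum_sq_Pn {n : ℕ} [NeZero n] (y : V n → ℝ) :
    ∑ c, y c ^ 2 = ∑ c, ((Pn : Matrix (V n) (V n) ℝ) *ᵥ y) c ^ 2 + (∑ c, y c) ^ 2 / (n : ℝ) ^ 2 := by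
  have hn : (0 : ℝ) < (n : ℝ) ^ 2 := by
    have : (0 : ℝ) < n := by exact_mod_cast Nat.pos_of_ne_zero (NeZero.ne n)
    positivity
  have e : ∀ c, ((Pn : Matrix (V n) (V n) ℝ) *ᵥ y) c ^ 2
      = y c ^ 2 - 2 * ((∑ y', y y') / (n : ℝ) ^ 2) * y c + ((∑ y', y y') / (n : ℝ) ^ 2) ^ 2 := by
    intro c
    rw [Pn_mulVec, cardV]
    ring
  simp only [e]
  rw [Finset.sum_add_distrib, Finset.sum_sub_distrib, ← Finset.mul_sum, Finset.sum_const,
    Finset.card_univ, nsmul_eq_mul, cardV]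
  field_simp
  ring

lemma qf_ML (hl : l ∣ N) (ht : 0 < t) (hs : 0 < s) (z : V N → ℝ) :
    qf (ML N l t s) z = qf (t • (1 : Matrix (V N) (V N) ℝ)) z
      - (t * (l : ℝ) ^ 2) ^ 2 / (t * (l : ℝ) ^ 2 + s⁻¹)
        * ∑ c, ((Pn : Matrix (V (N / l)) (V (N / l)) ℝ) *ᵥ ((l : ℝ)⁻¹ • (cobV N l *ᵥ z))) c ^ 2 := by
  have hlp := lpos hl
  have h1 := sum_sq_Pn ((l : ℝ)⁻¹ • (cobV N l *ᵥ z))
  have h2 : ∑ c, ((l : ℝ)⁻¹ • (cobV N l *ᵥ z)) c ^ 2 = (l : ℝ)⁻¹ ^ 2 * qf (cellP N l) z := by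
    rw [H864.qf_cellP hl, Finset.mul_sum]
    refine Finset.sum_congr rfl fun c _ => ?_
    rw [Pi.smul_apply, smul_eq_mul]
    ring
  have h3 : ∑ c, ((l : ℝ)⁻¹ • (cobV N l *ᵥ z)) c = (l : ℝ)⁻¹ ^ 2 * ∑ x, z x := by
    have e1 : ∑ c, (cobV N l *ᵥ z) c = (l : ℝ)⁻¹ * ∑ x, z x := by
      have e2 : ∑ c, (cobV N l *ᵥ z) c = (cobV N l *ᵥ z) ⬝ᵥ (fun _ => (1 : ℝ)) := by
        simp [dotProduct]
      rw [e2, dotProduct_comm, dotProduct_mulVec, ← mulVec_transpose]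
      have e3 : (cobV N l)ᵀ *ᵥ (fun _ => (1 : ℝ)) = fun _ => (l : ℝ)⁻¹ := by
        funext x
        rw [H864.cobV_tr_mulVec]
        simp
      rw [e3]
      simp [dotProduct, Finset.mul_sum]
    simp only [Pi.smul_apply, smul_eq_mul]
    rw [← Finset.mul_sum, e1]
    ring
  rw [h2, h3] at h1
  have h4 := H963.qf_ntr (MC N l t (aS l t s)) (aS l t s) z
  rw [H864.qf_MC, cardV] at h4
  unfold ML
  rw [qf_Ms, H37.qf_smul_one, cardV]
  have hN : (N : ℝ) = l * (N / l : ℕ) := N_eq hl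
  have hn : (0 : ℝ) < ((N / l : ℕ) : ℝ) := by
    exact_mod_cast Nat.pos_of_ne_zero (NeZero.ne (N / l))
  set Q := qf (cellP N l) z
  set Sn := ∑ c, ((Pn : Matrix (V (N / l)) (V (N / l)) ℝ) *ᵥ ((l : ℝ)⁻¹ • (cobV N l *ᵥ z))) c ^ 2
  set S2 := ∑ x, z x ^ 2
  set S1 := ∑ x, z x
  have h5 : Q = (l : ℝ) ^ 2 * Sn + S1 ^ 2 / (N : ℝ) ^ 2 := by
    rw [hN]
    field_simp at h1 ⊢
    linarith
  have h6 : qf (ntr (MC N l t (aS l t s)) (aS l t s)) z
      = t * S2 - (t - aS l t s) * Q - aS l t s / (N : ℝ) ^ 2 * S1 ^ 2 := by linarith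
  have h7 : (t * (l : ℝ) ^ 2) ^ 2 / (t * (l : ℝ) ^ 2 + s⁻¹) = (t - aS l t s) * (l : ℝ) ^ 2 := by
    unfold aS
    have h8 : 0 < 1 + s * (t * (l : ℝ) ^ 2) := by positivity
    have h9 : 0 < t * (l : ℝ) ^ 2 + s⁻¹ := by positivity
    field_simp
    ring
  rw [h6, h7, h5]
  ring

/-- the noise of the typical law inverts the form on neutral fields -/
lemma pin_inv {n : ℕ} [NeZero n] {A : Matrix (V n) (V n) ℝ} (hA : Nf A) {v : V n → ℝ}
    (hv : Neu v) : pin A *ᵥ ((pin A)ᵀ *ᵥ (A *ᵥ v)) = v := by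
  rw [mulVec_mulVec, mulVec_mulVec, H708.pI_eq_pin hA, H708.pI_mul hA]
  have e : (1 - avgM n : Matrix (V n) (V n) ℝ) = Pn := by
    refine H864.sym_inj (TI.one.sub ti_avgM) H963.ti_Pn fun k => ?_
    rw [H864.sym_sub, H864.sym_one, sym_avgM, H963.sym_Pn]
    split_ifs <;> simp
  rw [e, Pn_of_neu hv]

/-- a typical field is neutral -/
lemma neu_pin {n : ℕ} [NeZero n] {A : Matrix (V n) (V n) ℝ} (hA : Nf A) (g : V n → ℝ) :
    Neu (pin A *ᵥ g) := by
  refine Neu.mulVec (fun y => ?_) g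
  refine H708.col_of_zero (H363.ti_pin A) ?_ y
  rw [H363.sym_pin, hA.zero]
  simp

/-- the density -/
def DL {n : ℕ} [NeZero n] (A : Matrix (V n) (V n) ℝ) (s : ℝ) (F : V n → ℝ) : ℝ :=
  Real.exp (qf A F / 2) * Real.exp (-(s⁻¹ * (F ⬝ᵥ F) / 2))

lemma key_id (hl : l ∣ N) (ht : 0 < t) (hs : 0 < s) (hA : Nf A) (z : V N → ℝ)
    (g : V (N / l) → ℝ) :
    Real.exp (-(qf (t • (1 : Matrix (V N) (V N) ℝ)) (z - lf N l (pin A *ᵥ g)) / 2))
        * DL A s (pin A *ᵥ g)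
      = Real.exp (-(qf (ML N l t s) z / 2)) * Hv A (t * (l : ℝ) ^ 2 + s⁻¹) (pin A)
        ((t * (l : ℝ) ^ 2 / (t * (l : ℝ) ^ 2 + s⁻¹)) •
          ((Pn : Matrix (V (N / l)) (V (N / l)) ℝ) *ᵥ ((l : ℝ)⁻¹ • (cobV N l *ᵥ z)))) g := by
  have hlp := lpos hl
  set F := pin A *ᵥ g with hF
  set y := (l : ℝ)⁻¹ • (cobV N l *ᵥ z) with hy
  set ν := t * (l : ℝ) ^ 2 with hν
  have hνp : 0 < ν := by positivity
  have hκp : 0 < ν + s⁻¹ := by positivity
  have h1 := H896.qf_sub_lift (M := t • (1 : Matrix (V N) (V N) ℝ))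
    (E0 := (l : ℝ) • (cobV N l)ᵀ) (ν := ν) (by rw [transpose_smul, transpose_one]) hνp
    (E0M hl t) z F
  rw [av_eq hl ht z, ← hy, ← lf_mul hl] at h1
  rw [h1, qf_ML hl ht hs z, ← hy, ← hν]
  have hFn : Neu F := neu_pin hA g
  have h2 : ((Pn : Matrix (V (N / l)) (V (N / l)) ℝ) *ᵥ y) ⬝ᵥ F = y ⬝ᵥ F := by
    rw [dotProduct_comm, dotProduct_mulVec, ← mulVec_transpose, Pn_transpose, Pn_of_neu hFn,
      dotProduct_comm]
  set yn := (Pn : Matrix (V (N / l)) (V (N / l)) ℝ) *ᵥ y with hyn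
  have h3 : ∑ c, yn c ^ 2 = yn ⬝ᵥ yn := by
    rw [dotProduct]
    exact Finset.sum_congr rfl fun c _ => by ring
  rw [h3]
  unfold DL Hv
  rw [← hF, ← Real.exp_add, ← Real.exp_add, ← Real.exp_add, ← Real.exp_add]
  congr 1
  simp only [sub_dotProduct, dotProduct_sub, smul_dotProduct, dotProduct_smul, smul_eq_mul]
  rw [dotProduct_comm F yn, h2, dotProduct_comm F y]
  field_simp
  ring

lemma DL_pos {n : ℕ} [NeZero n] (A : Matrix (V n) (V n) ℝ) (s : ℝ) (F : V n → ℝ) :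
    0 < DL A s F := mul_pos (Real.exp_pos _) (Real.exp_pos _)

lemma continuous_DL {n : ℕ} [NeZero n] (A : Matrix (V n) (V n) ℝ) (s : ℝ) :
    Continuous (DL A s) := by
  unfold DL qf
  simp only [dotProduct]
  fun_prop

lemma qf_le_dot (hs : 0 < s) (hA : Nf A) (hle : ∀ k, sym A k ≤ t * (l : ℝ) ^ 2)
    (f : V (N / l) → ℝ) : qf A f ≤ (t * (l : ℝ) ^ 2 + s⁻¹) * (f ⬝ᵥ f) := by
  have h1 : ∀ k, sym A k ≤ sym ((t * (l : ℝ) ^ 2 + s⁻¹) • (1 : Matrix (V (N / l)) (V (N / l)) ℝ)) k := by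
    intro k
    rw [H864.sym_smul, H864.sym_one, mul_one]
    have : 0 ≤ s⁻¹ := (inv_pos.2 hs).le
    linarith [hle k]
  have h2 := (H864.qf_le_iff hA.ti (TI.one.smul _)).2 h1 f
  rw [H37.qf_smul_one] at h2
  rw [dotProduct]
  refine h2.trans (le_of_eq ?_)
  congr 1
  exact Finset.sum_congr rfl fun c _ => by ring

theorem avgL (hl : l ∣ N) (ht : 0 < t) (hs : 0 < s) (hA : Nf A)
    (hle : ∀ k, sym A k ≤ t * (l : ℝ) ^ 2) :
    Avg (t • (1 : Matrix (V N) (V N) ℝ)) (ML N l t s) (gau (V (N / l)))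
      (fun g => lf N l (pin A *ᵥ g)) (fun g => DL A s (pin A *ᵥ g)) 0
      (cK A (t * (l : ℝ) ^ 2 + s⁻¹) (pin A)) := by
  have hlp := lpos hl
  have hqle := qf_le_dot (s := s) hs hA hle
  have hAs : Aᵀ = A := hA.ti.transpose
  have hνp : 0 < t * (l : ℝ) ^ 2 := by positivity
  have hinv : ∀ y : V (N / l) → ℝ, pin A *ᵥ ((pin A)ᵀ *ᵥ (A *ᵥ
      ((t * (l : ℝ) ^ 2 / (t * (l : ℝ) ^ 2 + s⁻¹)) •
        ((Pn : Matrix (V (N / l)) (V (N / l)) ℝ) *ᵥ y)))) =
      (t * (l : ℝ) ^ 2 / (t * (l : ℝ) ^ 2 + s⁻¹)) •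
        ((Pn : Matrix (V (N / l)) (V (N / l)) ℝ) *ᵥ y) := fun y =>
    pin_inv hA (H963.Neu.smul _ (H963.neu_Pn y))
  have hcF : Continuous fun g : V (N / l) → ℝ => pin A *ᵥ g :=
    Continuous.matrix_mulVec continuous_const continuous_id
  refine ⟨?_, ?_, fun g => (DL_pos A s _).le, H896.cK_pos hqle, fun z => ?_, fun z => ?_⟩
  · exact H363.measurable_lf.comp hcF.measurable
  · exact (continuous_DL A s).measurable.comp hcF.measurable
  · simp only [key_id hl ht hs hA]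
    exact (H896.Hv_integrable hAs hqle (hinv _)).const_mul _
  · simp only [key_id hl ht hs hA]
    rw [integral_const_mul, H896.Hv_int_eq hAs (hinv _), sub_zero, mul_comm]

/-! ### the charge functional below -/

lemma mf_ML (hl : l ∣ N) (ht : 0 < t) (hs : 0 < s) : MF (ML N l t s) t := by
  have h := mf_MC hl (aS_pos (l := l) ht hs) (aS_le ht hs)
  refine ⟨Ms_transpose h.symm _ _, Ms_row h.row t, aS l t s, aS_pos ht hs, fun u => ?_⟩
  have h1 := H864.qf_MC_ge hl (aS_le (l := l) ht hs) u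
  have h2 := H963.qf_ntr (MC N l t (aS l t s)) (aS l t s) u
  unfold ML
  rw [qf_Ms]
  have h3 : aS l t s / Fintype.card (V N) * (∑ x, u x) ^ 2
      ≤ t / Fintype.card (V N) * (∑ x, u x) ^ 2 :=
    mul_le_mul_of_nonneg_right (div_le_div_of_nonneg_right (aS_le ht hs) (Nat.cast_nonneg _))
      (sq_nonneg _)
  linarith

lemma wm_ML (hb : 0 ≤ b) (hl : l ∣ N) (ht : 0 < t) (hs : 0 < s) : WM (wT b N) (ML N l t s) := by
  have h := mf_ML (N := N) (l := l) hl ht hs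
  obtain ⟨m0, hm0, hc⟩ := h.coer
  exact wm_wT hb hm0 h.symm hc

lemma nM_ML (b : ℝ) (t s : ℝ) (x₀ : V N) :
    nM (wT b N) (ML N l t s) t x₀ = nMC N l b t (aS l t s) x₀ := by
  unfold ML nMC
  exact nM_Ms _ _ _ _ _

/-- the activity without the constant mode -/
theorem om_ML (hb : 0 ≤ b) (hl : l ∣ N) (ht : 0 < t) (hs : 0 < s) (x₀ : V N) (q : ℤ) :
    om (wT b N) (ML N l t s) q
      = eq2 (V N) t q * Ex (nMC N l b t (aS l t s) x₀) 0 (H963.cq q 0) := by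
  rw [(gw_wT hb).om_eq (mf_ML hl ht hs) (wm_ML hb hl ht hs) x₀ q, nM_ML]

/-- damping -/
def dmp {n : ℕ} [NeZero n] (s : ℝ) (F : V n → ℝ) : ℝ := Real.exp (-(s⁻¹ * (F ⬝ᵥ F) / 2))

/-- tilt of the typical law -/
def WL (N l : ℕ) [NeZero N] [NeZero (N / l)] (b t : ℝ) (A : Matrix (V (N / l)) (V (N / l)) ℝ)
    (F : V (N / l) → ℝ) : ℝ :=
  Zn (wT b N) (t • (1 : Matrix (V N) (V N) ℝ)) (lf N l F) * Real.exp (qf A F / 2)
    / Zn (wT b N) (t • (1 : Matrix (V N) (V N) ℝ)) 0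

lemma WL_mul (hb : 0 ≤ b) (ht : 0 < t) (s : ℝ) (A : Matrix (V (N / l)) (V (N / l)) ℝ)
    (F : V (N / l) → ℝ) :
    Zn (wT b N) (t • (1 : Matrix (V N) (V N) ℝ)) (lf N l F) * DL A s F
      = Zn (wT b N) (t • (1 : Matrix (V N) (V N) ℝ)) 0 * (WL N l b t A F * dmp s F) := by
  have h := ((gw_wT hb).Zn_pos (mf_smul ht) (0 : V N → ℝ)).ne'
  unfold WL DL dmp
  field_simp

/-- **exact typical identity** -/
theorem om_typ (hb : 0 ≤ b) (hl : l ∣ N) (ht : 0 < t) (hs : 0 < s) (hA : Nf A)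
    (hle : ∀ k, sym A k ≤ t * (l : ℝ) ^ 2) (q : ℤ) :
    Integrable (fun g => WL N l b t A (pin A *ᵥ g) * dmp s (pin A *ᵥ g)) (gau (V (N / l))) ∧
    (om (wT b N) (ML N l t s) q : ℂ) =
      (∫ g, Ph (wT b N) (t • (1 : Matrix (V N) (V N) ℝ)) q (lf N l (pin A *ᵥ g)) *
        ((WL N l b t A (pin A *ᵥ g) * dmp s (pin A *ᵥ g) : ℝ) : ℂ) ∂(gau (V (N / l)))) /
      ((∫ g, WL N l b t A (pin A *ᵥ g) * dmp s (pin A *ᵥ g) ∂(gau (V (N / l))) : ℝ) : ℂ) := by
  have hav := avgL hl ht hs hA hle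
  have hw := wm_t (N := N) hb ht
  have hw' := wm_ML (N := N) (l := l) hb hl ht hs
  have hZ := (gw_wT hb).Zn_pos (mf_smul ht) (0 : V N → ℝ)
  have h1 := avg_Zn_int hav hw hw'
  simp only [WL_mul hb ht] at h1
  have h2 := avg_Ph hav hw hw' q
  simp only [WL_mul hb ht] at h2
  refine ⟨?_, ?_⟩
  · refine (h1.const_mul (Zn (wT b N) (t • (1 : Matrix (V N) (V N) ℝ)) 0)⁻¹).congr
      (Filter.Eventually.of_forall fun g => ?_)
    simp only
    rw [← mul_assoc, inv_mul_cancel₀ hZ.ne', one_mul]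
  · rw [H896.Ph_zero hw'] at h2
    rw [h2, integral_const_mul]
    have e : ∀ g : V (N / l) → ℝ, Ph (wT b N) (t • (1 : Matrix (V N) (V N) ℝ)) q
        (lf N l (pin A *ᵥ g)) * ((Zn (wT b N) (t • (1 : Matrix (V N) (V N) ℝ)) 0 *
          (WL N l b t A (pin A *ᵥ g) * dmp s (pin A *ᵥ g)) : ℝ) : ℂ)
        = ((Zn (wT b N) (t • (1 : Matrix (V N) (V N) ℝ)) 0 : ℝ) : ℂ) *
          (Ph (wT b N) (t • (1 : Matrix (V N) (V N) ℝ)) q (lf N l (pin A *ᵥ g)) *
          ((WL N l b t A (pin A *ᵥ g) * dmp s (pin A *ᵥ g) : ℝ) : ℂ)) := by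
      intro g
      push_cast
      ring
    simp only [e]
    rw [integral_const_mul, Complex.ofReal_mul, mul_div_mul_left]
    exact_mod_cast hZ.ne'

/-! ### bounds -/

lemma dmp_pos {n : ℕ} [NeZero n] (s : ℝ) (F : V n → ℝ) : 0 < dmp s F := Real.exp_pos _

lemma dmp_le {n : ℕ} [NeZero n] (hs : 0 < s) (F : V n → ℝ) : dmp s F ≤ 1 := by
  unfold dmp
  rw [Real.exp_le_one_iff]
  have : 0 ≤ F ⬝ᵥ F := by
    rw [dotProduct]
    exact Finset.sum_nonneg fun i _ => mul_self_nonneg _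
  have h2 : 0 ≤ s⁻¹ * (F ⬝ᵥ F) := mul_nonneg (inv_pos.2 hs).le this
  linarith

lemma continuous_dmp {n : ℕ} [NeZero n] (s : ℝ) : Continuous (dmp (n := n) s) := by
  unfold dmp
  simp only [dotProduct]
  fun_prop

lemma continuous_pinv {n : ℕ} [NeZero n] (A : Matrix (V n) (V n) ℝ) :
    Continuous fun g : V n → ℝ => pin A *ᵥ g :=
  Continuous.matrix_mulVec continuous_const continuous_id

/-- mass of the damping -/
def cD {n : ℕ} [NeZero n] (A : Matrix (V n) (V n) ℝ) (s : ℝ) : ℝ :=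
  ∫ g, dmp s (pin A *ᵥ g) ∂(gau (V n))

lemma int_dmp {n : ℕ} [NeZero n] (A : Matrix (V n) (V n) ℝ) (hs : 0 < s) :
    Integrable (fun g => dmp s (pin A *ᵥ g)) (gau (V n)) := by
  refine Integrable.of_bound (C := 1)
    ((continuous_dmp s).comp (continuous_pinv A)).aestronglyMeasurable
    (Filter.Eventually.of_forall fun g => ?_)
  rw [Real.norm_eq_abs, abs_of_pos (dmp_pos _ _)]
  exact dmp_le hs _

lemma cD_le {n : ℕ} [NeZero n] (A : Matrix (V n) (V n) ℝ) (hs : 0 < s) : cD A s ≤ 1 := by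
  have h := integral_mono (int_dmp A hs) (integrable_const (1 : ℝ)) fun g => dmp_le hs _
  simpa [cD] using h

lemma cD_pos {n : ℕ} [NeZero n] (A : Matrix (V n) (V n) ℝ) (hs : 0 < s) : 0 < cD A s := by
  unfold cD
  rw [integral_pos_iff_support_of_nonneg (fun g => (dmp_pos _ _).le) (int_dmp A hs)]
  have : Function.support (fun g : V n → ℝ => dmp s (pin A *ᵥ g)) = Set.univ := by
    ext g
    simp [(dmp_pos s (pin A *ᵥ g)).ne']
  rw [this]
  simp

lemma tendsto_cD {n : ℕ} [NeZero n] (A : Matrix (V n) (V n) ℝ) :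
    Tendsto (fun s : ℝ => cD A s) atTop (𝓝 1) := by
  have h1 : (1 : ℝ) = ∫ _g : V n → ℝ, (1 : ℝ) ∂(gau (V n)) := by simp
  rw [h1]
  unfold cD
  refine tendsto_integral_filter_of_dominated_convergence (fun _ => 1) ?_ ?_ (integrable_const _) ?_
  · filter_upwards with s
    exact ((continuous_dmp s).comp (continuous_pinv A)).aestronglyMeasurable
  · filter_upwards [eventually_gt_atTop (0 : ℝ)] with s hs
    refine Filter.Eventually.of_forall fun g => ?_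
    rw [Real.norm_eq_abs, abs_of_pos (dmp_pos _ _)]
    exact dmp_le hs _
  · refine Filter.Eventually.of_forall fun g => ?_
    have h2 : Tendsto (fun s : ℝ => s⁻¹ * ((pin A *ᵥ g) ⬝ᵥ (pin A *ᵥ g)) / 2) atTop (𝓝 0) := by
      have h3 := ((tendsto_inv_atTop_zero (𝕜 := ℝ)).mul_const
        ((pin A *ᵥ g) ⬝ᵥ (pin A *ᵥ g))).div_const 2
      simpa using h3
    have h4 := (Real.continuous_exp.tendsto (-0)).comp h2.neg
    simpa [dmp, Function.comp_def] using h4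

/-- the typical mean of the charge functional -/
def TM0 (N l : ℕ) [NeZero N] [NeZero (N / l)] (b t : ℝ) (A : Matrix (V (N / l)) (V (N / l)) ℝ)
    (q : ℤ) : ℂ :=
  ∫ g, Ph (wT b N) (t • (1 : Matrix (V N) (V N) ℝ)) q (lf N l (pin A *ᵥ g)) ∂(gau (V (N / l)))

lemma meas_Ph (hb : 0 ≤ b) (ht : 0 < t) (q : ℤ) :
    Measurable fun F : V N → ℝ => Ph (wT b N) (t • (1 : Matrix (V N) (V N) ℝ)) q F :=
  (H363.continuous_Ph (wm_t hb ht) q).measurable

theorem om_le_typ (hb : 0 ≤ b) (hl : l ∣ N) (ht : 0 < t) (hs : 0 < s) (hA : Nf A)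
    (hle : ∀ k, sym A k ≤ t * (l : ℝ) ^ 2) (q : ℤ) {η : ℝ}
    (h1 : ∀ F, 1 ≤ WL N l b t A F)
    (hW : Integrable (fun g => WL N l b t A (pin A *ᵥ g)) (gau (V (N / l))))
    (hη : ∫ g, WL N l b t A (pin A *ᵥ g) ∂(gau (V (N / l))) ≤ 1 + η) :
    om (wT b N) (ML N l t s) q * cD A s ≤ ‖TM0 N l b t A q‖
      + om (wT b N) (t • (1 : Matrix (V N) (V N) ℝ)) q * (η + (1 - cD A s)) := by
  obtain ⟨hi, he⟩ := om_typ hb hl ht hs hA hle q
  have hw := wm_t (N := N) hb ht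
  have hw' := wm_ML (N := N) (l := l) hb hl ht hs
  set P : (V (N / l) → ℝ) → ℂ := fun g =>
    Ph (wT b N) (t • (1 : Matrix (V N) (V N) ℝ)) q (lf N l (pin A *ᵥ g)) with hP
  set W : (V (N / l) → ℝ) → ℝ := fun g => WL N l b t A (pin A *ᵥ g) with hWd
  set D : (V (N / l) → ℝ) → ℝ := fun g => dmp s (pin A *ᵥ g) with hD
  set o := om (wT b N) (t • (1 : Matrix (V N) (V N) ℝ)) q with ho
  have hPo : ∀ g, ‖P g‖ ≤ o := fun g => norm_Ph_le hw q _
  have hPm : Measurable P := by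
    exact (meas_Ph hb ht q).comp (H363.measurable_lf.comp (continuous_pinv A).measurable)
  have hPi : Integrable P (gau (V (N / l))) :=
    Integrable.of_bound (C := o) hPm.aestronglyMeasurable (Filter.Eventually.of_forall hPo)
  have ho0 : 0 ≤ o := (norm_nonneg _).trans (hPo 0)
  have hDi : Integrable D (gau (V (N / l))) := int_dmp A hs
  have hWD : ∀ g, D g ≤ W g * D g := fun g => by
    have := h1 (pin A *ᵥ g)
    have h2 := (dmp_pos s (pin A *ᵥ g)).le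
    exact le_mul_of_one_le_left h2 this
  have hden : cD A s ≤ ∫ g, W g * D g ∂(gau (V (N / l))) := integral_mono hDi hi hWD
  have hdp : 0 < ∫ g, W g * D g ∂(gau (V (N / l))) := (cD_pos A hs).trans_le hden
  have hPWi : Integrable (fun g => P g * ((W g * D g : ℝ) : ℂ)) (gau (V (N / l))) := by
    refine (hi.ofReal (𝕜 := ℂ)).bdd_mul (c := o) hPm.aestronglyMeasurable
      (Filter.Eventually.of_forall hPo)
  have hnum : ‖∫ g, P g * ((W g * D g : ℝ) : ℂ) ∂(gau (V (N / l)))‖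
      ≤ ‖TM0 N l b t A q‖ + o * (η + (1 - cD A s)) := by
    have e1 : ∫ g, P g * ((W g * D g : ℝ) : ℂ) ∂(gau (V (N / l)))
        = TM0 N l b t A q + ∫ g, P g * ((W g * D g - 1 : ℝ) : ℂ) ∂(gau (V (N / l))) := by
      unfold TM0
      rw [← integral_add hPi]
      · refine integral_congr_ae (Filter.Eventually.of_forall fun g => ?_)
        simp only
        push_cast
        ring
      · refine (hPWi.sub hPi).congr (Filter.Eventually.of_forall fun g => ?_)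
        simp only [Pi.sub_apply]
        push_cast
        ring
    rw [e1]
    refine (norm_add_le _ _).trans (add_le_add le_rfl ?_)
    have h3 : ∀ g, ‖P g * ((W g * D g - 1 : ℝ) : ℂ)‖ ≤ o * ((W g - 1) + (1 - D g)) := by
      intro g
      rw [norm_mul, Complex.norm_real, Real.norm_eq_abs]
      refine mul_le_mul (hPo g) ?_ (abs_nonneg _) ho0
      have hd := dmp_pos s (pin A *ᵥ g)
      have hd1 := dmp_le hs (pin A *ᵥ g)
      have hw1 := h1 (pin A *ᵥ g)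
      rw [abs_le]
      constructor <;> simp only [hWd, hD] <;> nlinarith
    have i1 : Integrable (fun g => W g - 1) (gau (V (N / l))) := hW.sub (integrable_const 1)
    have i2 : Integrable (fun g => 1 - D g) (gau (V (N / l))) := (integrable_const 1).sub hDi
    have i3 : Integrable (fun g => o * ((W g - 1) + (1 - D g))) (gau (V (N / l))) :=
      (i1.add i2).const_mul o
    refine (norm_integral_le_of_norm_le i3 (Filter.Eventually.of_forall h3)).trans ?_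
    rw [integral_const_mul]
    refine mul_le_mul_of_nonneg_left ?_ ho0
    have e2 : ∫ g, ((W g - 1) + (1 - D g)) ∂(gau (V (N / l)))
        = (∫ g, W g ∂(gau (V (N / l))) - 1) + (1 - cD A s) := by
      rw [integral_add i1 i2, integral_sub hW (integrable_const 1),
        integral_sub (integrable_const 1) hDi]
      simp [cD, hD]
    rw [e2]
    linarith
  have h5 : om (wT b N) (ML N l t s) q * ∫ g, W g * D g ∂(gau (V (N / l)))
      = ‖∫ g, P g * ((W g * D g : ℝ) : ℂ) ∂(gau (V (N / l)))‖ := by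
    have h6 := congrArg norm he
    rw [norm_div, Complex.norm_real, Complex.norm_real, Real.norm_eq_abs, Real.norm_eq_abs,
      abs_of_pos hdp, abs_of_nonneg (H896.om_nonneg hw' q), eq_div_iff hdp.ne'] at h6
    exact h6
  calc om (wT b N) (ML N l t s) q * cD A s
      ≤ om (wT b N) (ML N l t s) q * ∫ g, W g * D g ∂(gau (V (N / l))) :=
        mul_le_mul_of_nonneg_left hden (H896.om_nonneg hw' q)
    _ = _ := h5
    _ ≤ _ := hnum

/-- **the torus number below the typical mean**: `Y` is any number below all the values of the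
models with cell mass `a`, `a → 0` -/
theorem Y_le_typ (hb : 0 ≤ b) (hl : l ∣ N) (ht : 0 < t) (hA : Nf A)
    (hle : ∀ k, sym A k ≤ t * (l : ℝ) ^ 2) (q : ℤ) {η Y : ℝ} (x₀ : V N)
    (hY : ∀ a, 0 < a → a ≤ t → Y ≤ Ex (nMC N l b t a x₀) 0 (H963.cq q 0))
    (h1 : ∀ F, 1 ≤ WL N l b t A F)
    (hW : Integrable (fun g => WL N l b t A (pin A *ᵥ g)) (gau (V (N / l))))
    (hη : ∫ g, WL N l b t A (pin A *ᵥ g) ∂(gau (V (N / l))) ≤ 1 + η) :
    Y ≤ (eq2 (V N) t q)⁻¹ * (‖TM0 N l b t A q‖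
      + om (wT b N) (t • (1 : Matrix (V N) (V N) ℝ)) q * η) := by
  set o := om (wT b N) (t • (1 : Matrix (V N) (V N) ℝ)) q with ho
  have he := eq2_pos (V := V N) t q
  have key : ∀ s : ℝ, 0 < s → eq2 (V N) t q * Y * cD A s
      ≤ ‖TM0 N l b t A q‖ + o * (η + (1 - cD A s)) := by
    intro s hs
    have h2 := om_le_typ hb hl ht hs hA hle q h1 hW hη
    rw [om_ML hb hl ht hs x₀ q] at h2
    refine le_trans ?_ h2
    refine mul_le_mul_of_nonneg_right ?_ (cD_pos A hs).le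
    exact mul_le_mul_of_nonneg_left (hY _ (aS_pos ht hs) (aS_le ht hs)) he.le
  have hL : Tendsto (fun s : ℝ => eq2 (V N) t q * Y * cD A s) atTop
      (𝓝 (eq2 (V N) t q * Y * 1)) := (tendsto_cD A).const_mul _
  have hR : Tendsto (fun s : ℝ => ‖TM0 N l b t A q‖ + o * (η + (1 - cD A s))) atTop
      (𝓝 (‖TM0 N l b t A q‖ + o * (η + (1 - 1)))) :=
    ((((tendsto_cD A).const_sub 1).const_add η).const_mul o).const_add _
  have h3 := le_of_tendsto_of_tendsto hL hR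
    ((eventually_gt_atTop (0 : ℝ)).mono fun s hs => key s hs)
  rw [mul_one, sub_self, add_zero] at h3
  rw [← div_eq_inv_mul, le_div_iff₀ he, mul_comm]
  exact h3

/-! ### the typical mean of a state -/

section state

variable {n : ℕ} [NeZero n] {A : Matrix (V n) (V n) ℝ} {ν : ℝ}

/-- typical variance of the phase of the main function -/
def vT (ν : ℝ) (A : Matrix (V n) (V n) ℝ) : ℝ :=
  ((1 - ν⁻¹ • A) * H708.pI A * (1 - ν⁻¹ • A)) 0 0

lemma ti_S (hA : Nf A) : TI (1 - ν⁻¹ • A) := TI.one.sub (hA.ti.smul _)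

lemma row_vT (hA : Nf A) (w : V n) :
    ∑ i, (((1 - ν⁻¹ • A) * pin A) w i) ^ 2 = vT ν A := by
  have tS := ti_S (ν := ν) hA
  have tp := H363.ti_pin A
  have h1 : ∑ i, (((1 - ν⁻¹ • A) * pin A) w i) ^ 2
      = (((1 - ν⁻¹ • A) * pin A) * ((1 - ν⁻¹ • A) * pin A)ᵀ : Matrix (V n) (V n) ℝ) w w := by
    rw [Matrix.mul_apply]
    refine Finset.sum_congr rfl fun i _ => ?_
    rw [Matrix.transpose_apply]
    ring
  have h2 : ((1 - ν⁻¹ • A) * pin A) * ((1 - ν⁻¹ • A) * pin A)ᵀ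
      = (1 - ν⁻¹ • A) * H708.pI A * (1 - ν⁻¹ • A) := by
    rw [Matrix.transpose_mul, tS.transpose, ← H708.pI_eq_pin hA]
    simp only [Matrix.mul_assoc]
  rw [h1, h2]
  have t3 : TI ((1 - ν⁻¹ • A) * H708.pI A * (1 - ν⁻¹ • A)) :=
    (tS.mul (H708.ti_pI A)).mul tS
  unfold vT
  have := t3.tr w 0 0
  rw [zero_add] at this
  exact this

/-- the variance as a sum over the momenta -/
lemma vT_eq (hA : Nf A) (ν : ℝ) :
    vT ν A = ((n : ℝ) ^ 2)⁻¹ * ∑ k, (1 - ν⁻¹ * sym A k) ^ 2 * (sym A k)⁻¹ := by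
  have tS := ti_S (ν := ν) hA
  unfold vT
  rw [((tS.mul (H708.ti_pI A)).mul tS).diag_eq]
  congr 1
  refine Finset.sum_congr rfl fun k _ => ?_
  rw [H864.sym_mul (tS.mul (H708.ti_pI A)) tS, H864.sym_mul tS (H708.ti_pI A), H708.sym_pI,
    H864.sym_sub, H864.sym_one, H864.sym_smul]
  ring

/-- the sum of the main functions -/
lemma sum_mainf (hA : Nf A) (F : V n → ℝ) :
    ∑ x, mainf (1 - ν⁻¹ • A) x F = ∑ w, ee (((1 - ν⁻¹ • A) *ᵥ F) w) := by
  unfold mainf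
  rw [Finset.sum_comm]
  refine Finset.sum_congr rfl fun w _ => ?_
  rw [← Finset.sum_mul]
  have h1 : ∑ x, (((1 - ν⁻¹ • A) x w : ℝ) : ℂ) = 1 := by
    have h2 : ∑ x, (1 - ν⁻¹ • A) x w = 1 := by
      simp only [Matrix.sub_apply, Matrix.smul_apply, smul_eq_mul, Finset.sum_sub_distrib,
        ← Finset.mul_sum]
      rw [H708.col_of_zero hA.ti hA.zero w]
      simp [Matrix.one_apply]
    rw [← Complex.ofReal_sum, h2, Complex.ofReal_one]
  rw [h1, one_mul]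

lemma int_ee (hA : Nf A) (w : V n) :
    ∫ g, ee (((1 - ν⁻¹ • A) *ᵥ (pin A *ᵥ g)) w) ∂(gau (V n))
      = ((Real.exp (-(2 * Real.pi ^ 2 * vT ν A)) : ℝ) : ℂ) := by
  have h1 : ∀ g : V n → ℝ, ((1 - ν⁻¹ • A) *ᵥ (pin A *ᵥ g)) w
      = (((1 - ν⁻¹ • A) * pin A) w) ⬝ᵥ g := by
    intro g
    rw [mulVec_mulVec]
    rfl
  simp only [h1]
  rw [H363.gau_ee, row_vT hA]

/-- Euler identity -/
lemma dif_euler {Ψ : (V n → ℝ) → ℂ} {ψ : V n → (V n → ℝ) → ℂ} (h : H889.Dif Ψ ψ) (hc : Ch Ψ)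
    (F : V n → ℝ) : Ψ F = ∑ x, ψ x F := by
  have h1 := h.d F fun _ => (1 : ℝ)
  have h2 : HasDerivAt (fun r : ℝ => Ψ (F + r • fun _ => (1 : ℝ)))
      (2 * Real.pi * Complex.I * Ψ F) 0 := by
    have e : (fun r : ℝ => Ψ (F + r • fun _ => (1 : ℝ)))
        = fun r : ℝ => Complex.exp (((2 * Real.pi * r : ℝ) : ℂ) * Complex.I) * Ψ F := by
      funext r
      rw [← hc F r]
      congr 1
      funext x
      simp
    rw [e]
    have h3 : HasDerivAt (fun r : ℝ => ((2 * Real.pi * r : ℝ) : ℂ) * Complex.I)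
        (2 * Real.pi * Complex.I) 0 := by
      have h4 : HasDerivAt (fun r : ℝ => 2 * Real.pi * r) (2 * Real.pi) 0 := by
        simpa using (hasDerivAt_id (0 : ℝ)).const_mul (2 * Real.pi)
      have h5 := h4.ofReal_comp.mul_const Complex.I
      simpa using h5
    have h6 := (h3.cexp).mul_const (Ψ F)
    simpa using h6
  have h7 := h1.unique h2
  have h0 : (2 * (Real.pi : ℂ) * Complex.I) ≠ 0 := by
    have hp : (Real.pi : ℂ) ≠ 0 := by exact_mod_cast Real.pi_ne_zero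
    simp [hp, Complex.I_ne_zero]
  have h8 := mul_left_cancel₀ h0 h7
  rw [← h8]
  exact Finset.sum_congr rfl fun x _ => by simp

lemma norm_int_le {u : (V n → ℝ) → ℂ} (hu : Measurable u) {K : ℝ} (hK : ∀ F, ‖u F‖ ≤ K)
    (A : Matrix (V n) (V n) ℝ) : ‖∫ g, u (pin A *ᵥ g) ∂(gau (V n))‖ ≤ H889.tn2 A u := by
  have h1 := H363.norm_integral_sq_le (H889.memLp_tn hu hK A)
  rw [← H889.tn2_sq hu hK A] at h1
  exact le_of_sq_le_sq h1 (H889.tn2_nonneg A u)

/-- **the typical mean of a state** -/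
theorem mean_state (hA : Nf A) {Ψ : (V n → ℝ) → ℂ} {ψ : V n → (V n → ℝ) → ℂ}
    (h : H889.Dif Ψ ψ) (hc : Ch Ψ) {z : ℂ} {d : ℝ} (hd : H889.Den A ν z d ψ) :
    ‖∫ g, Ψ (pin A *ᵥ g) ∂(gau (V n))‖
      ≤ (n : ℝ) ^ 2 * (‖z‖ * Real.exp (-(2 * Real.pi ^ 2 * vT ν A)) + d) := by
  obtain ⟨K, hK0, hK⟩ := h.bdx'
  set S : Matrix (V n) (V n) ℝ := 1 - ν⁻¹ • A with hS
  set M0 : ℝ := ∑ x, ∑ w, |S x w| with hM0
  have hmb : ∀ x F, ‖mainf S x F‖ ≤ M0 := fun x F =>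
    (H363.norm_mainf_le S x F).trans (Finset.single_le_sum (f := fun x => ∑ w, |S x w|)
      (fun i _ => Finset.sum_nonneg fun w _ => abs_nonneg _) (Finset.mem_univ x))
  have hmu : ∀ x, Measurable fun F => ψ x F - z * mainf S x F := fun x =>
    (hd.m x).sub ((H363.measurable_mainf S x).const_mul z)
  have hbu : ∀ x F, ‖ψ x F - z * mainf S x F‖ ≤ K + ‖z‖ * M0 := fun x F => by
    refine (norm_sub_le _ _).trans (add_le_add (hK x F) ?_)
    rw [norm_mul]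
    exact mul_le_mul_of_nonneg_left (hmb x F) (norm_nonneg _)
  have hiu : ∀ x, Integrable (fun g => ψ x (pin A *ᵥ g) - z * mainf S x (pin A *ᵥ g))
      (gau (V n)) := fun x =>
    Integrable.of_bound (C := K + ‖z‖ * M0)
      ((hmu x).comp (continuous_pinv A).measurable).aestronglyMeasurable
      (Filter.Eventually.of_forall fun g => hbu x _)
  have hie : ∀ w, Integrable (fun g => ee ((S *ᵥ (pin A *ᵥ g)) w)) (gau (V n)) := fun w => by
    refine Integrable.of_bound (C := 1) ?_ (Filter.Eventually.of_forall fun g => (H363.norm_ee _).le)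
    refine (H363.measurable_ee.comp ?_).aestronglyMeasurable
    exact (measurable_pi_apply w).comp ((H363.measurable_mulVec S).comp
      (continuous_pinv A).measurable)
  have e1 : ∀ g, Ψ (pin A *ᵥ g) = ∑ x, (ψ x (pin A *ᵥ g) - z * mainf S x (pin A *ᵥ g))
      + z * ∑ w, ee ((S *ᵥ (pin A *ᵥ g)) w) := by
    intro g
    rw [dif_euler h hc, Finset.sum_sub_distrib, ← Finset.mul_sum, sum_mainf hA]
    ring
  simp only [e1]
  rw [integral_add (integrable_finsetSum _ fun x _ => hiu x)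
    ((integrable_finsetSum _ fun w _ => hie w).const_mul z), integral_finsetSum _ fun x _ => hiu x,
    integral_const_mul, integral_finsetSum _ fun w _ => hie w]
  have hee : ∀ w, ∫ g, ee ((S *ᵥ (pin A *ᵥ g)) w) ∂(gau (V n))
      = ((Real.exp (-(2 * Real.pi ^ 2 * vT ν A)) : ℝ) : ℂ) := fun w => int_ee hA w
  rw [Finset.sum_congr rfl fun w _ => hee w, Finset.sum_const, Finset.card_univ, nsmul_eq_mul]
  have hcard : (Fintype.card (V n) : ℝ) = (n : ℝ) ^ 2 := cardV n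
  refine (norm_add_le _ _).trans ?_
  have h2 : ‖∑ x, ∫ g, (ψ x (pin A *ᵥ g) - z * mainf S x (pin A *ᵥ g)) ∂(gau (V n))‖
      ≤ (n : ℝ) ^ 2 * d := by
    refine (norm_sum_le _ _).trans ?_
    refine (Finset.sum_le_sum fun x _ => (norm_int_le (hmu x) (hbu x) A).trans (hd.dev x)).trans ?_
    rw [Finset.sum_const, Finset.card_univ, nsmul_eq_mul, hcard]
  have h3 : ‖z * ((Fintype.card (V n) : ℂ) * ((Real.exp (-(2 * Real.pi ^ 2 * vT ν A)) : ℝ) : ℂ))‖
      = (n : ℝ) ^ 2 * (‖z‖ * Real.exp (-(2 * Real.pi ^ 2 * vT ν A))) := by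
    rw [norm_mul, norm_mul, Complex.norm_real, Real.norm_eq_abs, abs_of_pos (Real.exp_pos _),
      Complex.norm_natCast, hcard]
    ring
  rw [h3]
  linarith

end state

/-- **LINK**: the massless torus number is below the carried activity -/
theorem link (hb : 0 ≤ b) (hl : l ∣ N) (ht : 0 < t) (hA : Nf A)
    (hle : ∀ k, sym A k ≤ t * (l : ℝ) ^ 2) {η Y : ℝ} (x₀ : V N)
    (hY : ∀ a, 0 < a → a ≤ t → Y ≤ Ex (nMC N l b t a x₀) 0 (H963.cq 1 0))
    (h1 : ∀ F, 1 ≤ WL N l b t A F)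
    (hW : Integrable (fun g => WL N l b t A (pin A *ᵥ g)) (gau (V (N / l))))
    (hη : ∫ g, WL N l b t A (pin A *ᵥ g) ∂(gau (V (N / l))) ≤ 1 + η)
    {ν : ℝ} {Ψ : (V (N / l) → ℝ) → ℂ} {ψ : V (N / l) → (V (N / l) → ℝ) → ℂ}
    (h : H889.Dif Ψ ψ) (hc : Ch Ψ) {z : ℂ} {d e : ℝ} (hd : H889.Den A ν z d ψ)
    (he : H889.tn2 A (fun F => Ph (wT b N) (t • (1 : Matrix (V N) (V N) ℝ)) 1 (lf N l F) - Ψ F)
      ≤ e) :
    Y ≤ Real.exp (2 * Real.pi ^ 2 / (t * (N : ℝ) ^ 2)) *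
      (((N / l : ℕ) : ℝ) ^ 2 * (‖z‖ * Real.exp (-(2 * Real.pi ^ 2 * vT ν A)) + d) + e
        + η * om (wT b N) (t • (1 : Matrix (V N) (V N) ℝ)) 1) := by
  have h2 := Y_le_typ hb hl ht hA hle 1 x₀ hY h1 hW hη
  have h3 : (eq2 (V N) t 1)⁻¹ = Real.exp (2 * Real.pi ^ 2 / (t * (N : ℝ) ^ 2)) := by
    unfold eq2
    rw [← Real.exp_neg, neg_neg, cardV]
    congr 1
    push_cast
    ring
  rw [h3] at h2
  refine h2.trans (mul_le_mul_of_nonneg_left ?_ (Real.exp_pos _).le)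
  obtain ⟨K, hK0, hK⟩ := h.bd'
  have hw := wm_t (N := N) hb ht
  have hmP : Measurable fun F => Ph (wT b N) (t • (1 : Matrix (V N) (V N) ℝ)) 1 (lf N l F) :=
    (meas_Ph hb ht 1).comp H363.measurable_lf
  have hbP : ∀ F, ‖Ph (wT b N) (t • (1 : Matrix (V N) (V N) ℝ)) 1 (lf N l F)‖
      ≤ om (wT b N) (t • (1 : Matrix (V N) (V N) ℝ)) 1 := fun F => norm_Ph_le hw 1 _
  have i1 : Integrable (fun g => Ph (wT b N) (t • (1 : Matrix (V N) (V N) ℝ)) 1
      (lf N l (pin A *ᵥ g))) (gau (V (N / l))) :=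
    Integrable.of_bound (C := om (wT b N) (t • (1 : Matrix (V N) (V N) ℝ)) 1)
      (hmP.comp (continuous_pinv A).measurable).aestronglyMeasurable
      (Filter.Eventually.of_forall fun g => hbP _)
  have i2 : Integrable (fun g => Ψ (pin A *ᵥ g)) (gau (V (N / l))) :=
    Integrable.of_bound (C := K) (h.m.comp (continuous_pinv A).measurable).aestronglyMeasurable
      (Filter.Eventually.of_forall fun g => hK _)
  have h4 : TM0 N l b t A 1 = (∫ g, (Ph (wT b N) (t • (1 : Matrix (V N) (V N) ℝ)) 1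
      (lf N l (pin A *ᵥ g)) - Ψ (pin A *ᵥ g)) ∂(gau (V (N / l))))
      + ∫ g, Ψ (pin A *ᵥ g) ∂(gau (V (N / l))) := by
    rw [integral_sub i1 i2]
    unfold TM0
    ring
  have h5 : ‖TM0 N l b t A 1‖ ≤ e + ((N / l : ℕ) : ℝ) ^ 2 *
      (‖z‖ * Real.exp (-(2 * Real.pi ^ 2 * vT ν A)) + d) := by
    rw [h4]
    refine (norm_add_le _ _).trans (add_le_add ?_ (mean_state hA h hc hd))
    refine (norm_int_le (hmP.sub h.m) (K := om (wT b N) (t • (1 : Matrix (V N) (V N) ℝ)) 1 + K)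
      (fun F => (norm_sub_le _ _).trans (add_le_add (hbP F) (hK F))) A).trans he
  linarith

/-! ### letters of the cell Hessian -/

lemma WL_acl (hb : 0 ≤ b) (hl : l ∣ N) (ht : 0 < t) (F : V (N / l) → ℝ) :
    WL N l b t (acl N l b t t) F = Real.exp (Rcl N l b t t F) := by
  have h := H363.Zn_lf hb hl ht le_rfl F
  rw [H864.MC_self] at h
  have h0 := ((gw_wT hb).Zn_pos (mf_smul ht) (0 : V N → ℝ)).ne'
  unfold WL
  rw [h]
  have h2 : Real.exp (-(qf (acl N l b t t) F / 2)) * Real.exp (qf (acl N l b t t) F / 2) = 1 := by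
    rw [← Real.exp_add]; simp
  rw [div_eq_iff h0]
  linear_combination (Zn (wT b N) (t • (1 : Matrix (V N) (V N) ℝ)) 0 *
    Real.exp (Rcl N l b t t F)) * h2

/-- **LINK in the letters of the V state** -/
theorem link_acl (hb : 0 ≤ b) (hl : l ∣ N) (ht : 0 < t) (hA : Nf (acl N l b t t)) {η Y : ℝ}
    (x₀ : V N)
    (hY : ∀ a, 0 < a → a ≤ t → Y ≤ Ex (nMC N l b t a x₀) 0 (H963.cq 1 0))
    (hW : Integrable (fun g => Real.exp (Rcl N l b t t (pin (acl N l b t t) *ᵥ g)))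
      (gau (V (N / l))))
    (hη : ∫ g, Real.exp (Rcl N l b t t (pin (acl N l b t t) *ᵥ g)) ∂(gau (V (N / l))) ≤ 1 + η)
    {ν : ℝ} {Ψ : (V (N / l) → ℝ) → ℂ} {ψ : V (N / l) → (V (N / l) → ℝ) → ℂ}
    (h : H889.Dif Ψ ψ) (hc : Ch Ψ) {z : ℂ} {d e : ℝ} (hd : H889.Den (acl N l b t t) ν z d ψ)
    (he : H889.tn2 (acl N l b t t)
      (fun F => Ph (wT b N) (t • (1 : Matrix (V N) (V N) ℝ)) 1 (lf N l F) - Ψ F) ≤ e) :
    Y ≤ Real.exp (2 * Real.pi ^ 2 / (t * (N : ℝ) ^ 2)) *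
      (((N / l : ℕ) : ℝ) ^ 2 * (‖z‖ * Real.exp (-(2 * Real.pi ^ 2 * vT ν (acl N l b t t))) + d) + e
        + η * om (wT b N) (t • (1 : Matrix (V N) (V N) ℝ)) 1) := by
  refine link hb hl ht hA (fun k => ?_) x₀ hY (fun F => ?_) ?_ ?_ h hc hd he
  · exact H363.sym_acl_le hb hl ht le_rfl k
  · rw [WL_acl hb hl ht, ← Real.exp_zero]
    exact Real.exp_le_exp.2 (H363.Rcl_nonneg hb hl ht le_rfl F)
  · simp only [WL_acl hb hl ht]
    exact hW
  · simp only [WL_acl hb hl ht]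
    exact hη

/-! ### the total mass of the tilt from priors with positive mass -/

lemma tendsto_dmp {n : ℕ} [NeZero n] (F : V n → ℝ) :
    Tendsto (fun k : ℕ => dmp ((k : ℝ) + 1) F) atTop (𝓝 1) := by
  have h0 : Tendsto (fun k : ℕ => ((k : ℝ) + 1)) atTop atTop :=
    tendsto_atTop_add_const_right _ _ tendsto_natCast_atTop_atTop
  have h2 : Tendsto (fun k : ℕ => ((k : ℝ) + 1)⁻¹ * (F ⬝ᵥ F) / 2) atTop (𝓝 0) := by
    have h3 := (((tendsto_inv_atTop_zero (𝕜 := ℝ)).comp h0).mul_const (F ⬝ᵥ F)).div_const 2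
    simpa using h3
  have h4 := (Real.continuous_exp.tendsto (-0)).comp h2.neg
  simpa [dmp, Function.comp_def] using h4

/-- Fatou: bounds at all positive masses give the bound in the typical law -/
theorem int_of_dmp {n : ℕ} [NeZero n] {A : Matrix (V n) (V n) ℝ} {W : (V n → ℝ) → ℝ}
    (hW0 : ∀ F, 0 ≤ W F) (hm : Measurable W) {C s0 : ℝ}
    (hi : ∀ s, s0 < s → 0 < s → Integrable (fun g => W (pin A *ᵥ g) * dmp s (pin A *ᵥ g))
      (gau (V n)))
    (hC : ∀ s, s0 < s → 0 < s → ∫ g, W (pin A *ᵥ g) * dmp s (pin A *ᵥ g) ∂(gau (V n)) ≤ C) :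
    Integrable (fun g => W (pin A *ᵥ g)) (gau (V n)) ∧
      ∫ g, W (pin A *ᵥ g) ∂(gau (V n)) ≤ C := by
  obtain ⟨k0, hk0⟩ := exists_nat_gt s0
  have hs : ∀ k : ℕ, k0 ≤ k → s0 < (k : ℝ) + 1 ∧ (0 : ℝ) < (k : ℝ) + 1 := by
    intro k hk
    have h1 : (k0 : ℝ) ≤ k := by exact_mod_cast hk
    exact ⟨by linarith, by positivity⟩
  have hC0 : 0 ≤ C := le_trans
    (integral_nonneg fun g => mul_nonneg (hW0 _) (dmp_pos _ _).le)
    (hC _ (hs k0 le_rfl).1 (hs k0 le_rfl).2)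
  have hmW : Measurable fun g : V n → ℝ => W (pin A *ᵥ g) := hm.comp (continuous_pinv A).measurable
  have hF : ∫⁻ g, ENNReal.ofReal (W (pin A *ᵥ g)) ∂(gau (V n)) ≤ ENNReal.ofReal C := by
    have h1 : ∀ g : V n → ℝ, ENNReal.ofReal (W (pin A *ᵥ g)) = Filter.liminf
        (fun k : ℕ => ENNReal.ofReal (W (pin A *ᵥ g) * dmp (((k + k0 : ℕ) : ℝ) + 1) (pin A *ᵥ g)))
        atTop := by
      intro g
      have h2 : Tendsto (fun k : ℕ => ENNReal.ofReal
          (W (pin A *ᵥ g) * dmp (((k + k0 : ℕ) : ℝ) + 1) (pin A *ᵥ g))) atTop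
          (𝓝 (ENNReal.ofReal (W (pin A *ᵥ g) * 1))) :=
        (ENNReal.continuous_ofReal.tendsto _).comp
          (((tendsto_dmp (pin A *ᵥ g)).comp (tendsto_add_atTop_nat k0)).const_mul _)
      rw [h2.liminf_eq, mul_one]
    calc ∫⁻ g, ENNReal.ofReal (W (pin A *ᵥ g)) ∂(gau (V n))
        = ∫⁻ g, Filter.liminf (fun k : ℕ => ENNReal.ofReal
            (W (pin A *ᵥ g) * dmp (((k + k0 : ℕ) : ℝ) + 1) (pin A *ᵥ g))) atTop ∂(gau (V n)) := by
          exact lintegral_congr h1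
      _ ≤ Filter.liminf (fun k : ℕ => ∫⁻ g, ENNReal.ofReal
            (W (pin A *ᵥ g) * dmp (((k + k0 : ℕ) : ℝ) + 1) (pin A *ᵥ g)) ∂(gau (V n))) atTop := by
          refine lintegral_liminf_le fun k => ?_
          exact (hmW.mul ((continuous_dmp _).comp (continuous_pinv A)).measurable).ennreal_ofReal
      _ ≤ ENNReal.ofReal C := by
          refine (Filter.liminf_le_liminf (v := fun _ => ENNReal.ofReal C)
            (Filter.Eventually.of_forall fun k => ?_)).trans ?_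
          · have h3 := hs (k + k0) (Nat.le_add_left _ _)
            rw [← ofReal_integral_eq_lintegral_ofReal (hi _ h3.1 h3.2)
              (Filter.Eventually.of_forall fun g => mul_nonneg (hW0 _) (dmp_pos _ _).le)]
            exact ENNReal.ofReal_le_ofReal (hC _ h3.1 h3.2)
          · simp
  have hI : Integrable (fun g => W (pin A *ᵥ g)) (gau (V n)) := by
    refine ⟨hmW.aestronglyMeasurable, ?_⟩
    rw [hasFiniteIntegral_iff_ofReal (Filter.Eventually.of_forall fun g => hW0 _)]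
    exact hF.trans_lt ENNReal.ofReal_lt_top
  refine ⟨hI, ?_⟩
  have h5 := ofReal_integral_eq_lintegral_ofReal hI (Filter.Eventually.of_forall fun g => hW0 _)
  rw [← h5] at hF
  exact (ENNReal.ofReal_le_ofReal_iff hC0).1 hF

end

end Vale.Agent.P159.LNK
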