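import Vale.Agent.P159.H963.Core1
import Vale.Agent.P159.H513.Amp
import Vale.Agent.P159.H276.Eta2

/-!
P159 / S list (S7), part 2 (helper963): the energy of the linear functional `l`; (CORE) from single
decorations and the number `E(bD) + log C`.
-/

set_option linter.unusedSectionVars false

namespace Vale.Agent.P159.H963.Core

open Finset Matrix
open Vale.Agent.P159.TM.Spec (V)
open Vale.Agent.P159.TM.H764 (EE EE_nonneg EE_zero)
open Vale.Agent.P159.TM.SpecC (wT)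
open Vale.Agent.P159.TM.H104 (EM T Ex Cv Lg li Gr)
open Vale.Agent.P159.H37 (qf bf re Zn ZM Zs Rs Gm wM)
open Vale.Agent.P159.H770 (wTD Ed GWF DisF RsD)
open Vale.Agent.P159.H864 (TI sym lapM ti_lapM sym_lapM mlt ti_mlt sym_mlt hsq hsq_nonneg)
open Vale.Agent.P159.H963 (Pin Ank Anm nwt MF nM ntr)
open Vale.Agent.P159.H552.Ln (PK EB EW pk_EB Par par_qf)
open Vale.Agent.P159.H817 (gr nrm eF EG EZ ZE ZE_eF zero_eF bD cfg dec Qf Bq GB KK Dec Far SuppD sz rh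
  Pt EZ_gr kap0 Db FM)
open Vale.Agent.P159.H883 (CT Zp Psi)
open Vale.Agent.P159.H513.Amp (ZF ell)

noncomputable section

/-! ### the linear functional -/

section ell

variable {B V : Type} [AddCommGroup B] [Fintype V] {W : B → (V → ℤ) → ℝ} {A : Matrix V V ℝ}

/-- the form of the undislocated model -/
def qA (W : B → (V → ℤ) → ℝ) (A : Matrix V V ℝ) (F : V → ℝ) : ℝ :=
  qf A F - qf (Gm (W 0)) (A *ᵥ F)

lemma qA_smul (s : ℝ) (F : V → ℝ) : qA W A (s • F) = s ^ 2 * qA W A F := by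
  unfold qA
  rw [Matrix.mulVec_smul, H37.qf_smul, H37.qf_smul]
  ring

/-- **the linear functional has energy at most `2 A0`**: if `Z(b; F₀ + F) ≤ e^{A0} Z(b; F₀)` for all
real `F` (e.g. `e^{A0} = C Z(0;0)/Z(b;F₀)`), then `l(F)² ≤ 2 A0 qA(F)` for all real `F` -/
theorem ell_sq_le (hW : DisF W) (hA : Aᵀ = A) {κ : ℝ} (hκ : 0 < κ) (b : B) (F₀ : V → ℝ) {A0 : ℝ}
    (h : ∀ F, ZF W A κ b (F₀ + F) ≤ Real.exp A0 * ZF W A κ b F₀) (F : V → ℝ) :
    ell W A b F₀ F ^ 2 ≤ 2 * A0 * qA W A F := by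
  have key : ∀ G : V → ℝ, -(ell W A b F₀ G) ≤ A0 + qA W A G / 2 := by
    intro G
    have h1 := H513.Amp.ZF_ratio hW hA κ b F₀ G
    have h2 := H770.RsD_nonneg hW b (A *ᵥ F₀) (A *ᵥ G)
    have p0 := H513.Amp.ZF_pos (A := A) hW hκ 0 (0 : V → ℝ)
    have pG := H513.Amp.ZF_pos (A := A) hW hκ 0 G
    have pb := H513.Amp.ZF_pos (A := A) hW hκ b F₀
    have h3 : ZF W A κ 0 G = ZF W A κ 0 0 * Real.exp (Rs (W 0) (A *ᵥ G) - qA W A G / 2) := by
      unfold H513.Amp.ZF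
      rw [← H770.exp_LgB hW, ← H770.exp_LgB hW, Matrix.mulVec_zero, mul_assoc, mul_assoc,
        ← Real.exp_add, ← Real.exp_add, ← Real.exp_add]
      congr 2
      unfold H37.Rs qA
      have z0 : qf A (0 : V → ℝ) = 0 := by unfold H37.qf; simp
      rw [z0]
      ring
    have h4 := h G
    rw [h3] at h1
    have h5 : ZF W A κ b (F₀ + G) = ZF W A κ b F₀ *
        Real.exp (RsD W b (A *ᵥ F₀) (A *ᵥ G) - ell W A b F₀ G - qA W A G / 2) := by
      have e : Real.exp (RsD W b (A *ᵥ F₀) (A *ᵥ G) - ell W A b F₀ G - qA W A G / 2) =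
          Real.exp (Rs (W 0) (A *ᵥ G) - qA W A G / 2) *
          Real.exp (RsD W b (A *ᵥ F₀) (A *ᵥ G) - Rs (W 0) (A *ᵥ G) - ell W A b F₀ G) := by
        rw [← Real.exp_add]
        congr 1
        ring
      rw [e]
      refine mul_right_cancel₀ p0.ne' ?_
      rw [h1]
      ring
    rw [h5, mul_comm (Real.exp A0)] at h4
    have h6 := Real.exp_le_exp.1 (le_of_mul_le_mul_left h4 pb)
    linarith
  have h7 : ∀ s : ℝ, 0 ≤ qA W A F / 2 * (s * s) + ell W A b F₀ F * s + A0 := by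
    intro s
    have h8 := key (s • F)
    rw [H513.Amp.ell_smul, qA_smul] at h8
    nlinarith
  have h9 := discrim_le_zero h7
  unfold discrim at h9
  nlinarith

end ell

section gwf

variable {B V : Type} [AddCommGroup B] [Fintype V] [DecidableEq V] [Nonempty V]
  {w : B → (V → ℤ) → ℝ}

/-- the same for the neutral partition functions: the maximum over the real fields is at most
`e^{A0} Z(b; F₀)` -/
theorem ell_sq_n (hw : GWF w) {M : Matrix V V ℝ} {m : ℝ} (hM : MF M m) (x₀ : V) (b : B)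
    (F₀ : V → ℝ) {A0 : ℝ} (h : ∀ F, Zn (w b) M (F₀ + F) ≤ Real.exp A0 * Zn (w b) M F₀)
    (F : V → ℝ) :
    ell (fun b => nM (w b) M m x₀) (ntr M m) b F₀ F ^ 2 ≤
      2 * A0 * qA (fun b => nM (w b) M m x₀) (ntr M m) F := by
  have hW := hw.disF_nM hM x₀
  have hA := H963.ntr_transpose hM.symm m
  have hN : (0 : ℝ) < Fintype.card V := Nat.cast_pos.2 Fintype.card_pos
  have hm := hM.pos
  have hκ : 0 < Real.sqrt (2 * Real.pi / (m * Fintype.card V)) :=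
    Real.sqrt_pos.2 (by positivity)
  refine ell_sq_le hW hA hκ b F₀ (fun G => ?_) F
  have := h G
  rw [H513.Amp.Zn_ZF hw hM x₀, H513.Amp.Zn_ZF hw hM x₀] at this
  exact this

end gwf

/-! ### torus letters -/

section tor

variable {N : ℕ} [NeZero N] {b t a η : ℝ} {n : ℕ}

/-- the energy is at least `-log C`, for every real field -/
theorem EZ_ge (hb : 0 < b) (ht : 0 < t) (η : V N × Bool → ℤ) (F : V N → ℝ) :
    -Real.log (CT N b η) ≤ EZ N b t (eF η F) := by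
  have h := H883.Es_ge (W := wTD N b) (M := t • (1 : Matrix (V N) (V N) ℝ)) (H770.gwf_wTD hb)
    (H883.em_pin_wTD hb) (H883.mf_scalar ht) 0 η F
  unfold H883.Es Psi at h
  rw [add_zero] at h
  unfold H817.EZ H883.CT
  rw [zero_eF, ZE_eF hb, ZE_eF hb]
  exact h

/-- **(A0)** from `E(bD) + log C ≤ A0` -/
theorem A0_of (hb : 0 < b) (ht : 0 < t) {β : V N × Bool → ℝ} {A0 : ℝ}
    (h : ∃ (η : V N × Bool → ℤ) (φ : V N → ℝ), β = eF η φ ∧
      EZ N b t β + Real.log (CT N b η) ≤ A0) (v : V N → ℝ) :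
    EZ N b t β - EZ N b t (fun e => β e + gr v e) ≤ A0 := by
  obtain ⟨η, φ, rfl, h⟩ := h
  have e1 : (fun e => eF η φ e + gr v e) = eF η (φ + v) := by
    have := eF_addX η 0 φ v
    rw [add_zero] at this
    rw [← this]
    funext e
    rw [H817.gr_eF]
  have h1 := EZ_ge (N := N) hb ht η (φ + v)
  rw [e1]
  linarith

/-- the remainder of the real model -/
def RF (N : ℕ) [NeZero N] (b t : ℝ) (F : V N → ℝ) : ℝ := Rs (nwt N b t 0) (Pt t F)

lemma RF_nonneg (hb : 0 < b) (ht : 0 < t) (F : V N → ℝ) : 0 ≤ RF N b t F :=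
  H817.Rs_nwt_nonneg hb ht _

lemma Pt_smul (t c : ℝ) (F : V N → ℝ) : Pt t (c • F) = c • Pt t F := by
  unfold H817.Pt
  rw [smul_comm, Matrix.mulVec_smul]

lemma Pt_add (t : ℝ) (F G : V N → ℝ) : Pt t (F + G) = Pt t F + Pt t G := by
  unfold H817.Pt
  rw [smul_add, Matrix.mulVec_add]

theorem RF_convex (hb : 0 < b) (ht : 0 < t) : ConvexOn ℝ Set.univ (RF N b t) := by
  have hD := H770.disF_nwtD (N := N) hb ht 0
  have h := H770.RsD_convex hD 0 0
  refine ⟨convex_univ, fun x _ y _ p q hp hq hpq => ?_⟩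
  have h1 := h.2 (Set.mem_univ (Pt t x)) (Set.mem_univ (Pt t y)) hp hq hpq
  rw [H770.RsD_zero hD, H770.RsD_zero hD, H770.RsD_zero hD, H770.nwtD_zero] at h1
  unfold RF
  rw [Pt_add, Pt_smul, Pt_smul]
  exact h1

/-- three pieces -/
theorem RF_add3 (hb : 0 < b) (ht : 0 < t) (F G H : V N → ℝ) :
    RF N b t ((F + G + H) + (F + G + H)) ≤
      (RF N b t ((6 : ℝ) • F) + RF N b t ((6 : ℝ) • G) + RF N b t ((6 : ℝ) • H)) / 3 := by
  have hc := RF_convex (N := N) hb ht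
  have h1 := hc.2 (Set.mem_univ ((6 : ℝ) • F)) (Set.mem_univ ((6 : ℝ) • G))
    (show (0 : ℝ) ≤ 1 / 2 by norm_num) (show (0 : ℝ) ≤ 1 / 2 by norm_num) (by norm_num)
  have h2 := hc.2 (Set.mem_univ ((1 / 2 : ℝ) • (6 : ℝ) • F + (1 / 2 : ℝ) • (6 : ℝ) • G))
    (Set.mem_univ ((6 : ℝ) • H)) (show (0 : ℝ) ≤ 2 / 3 by norm_num)
    (show (0 : ℝ) ≤ 1 / 3 by norm_num) (by norm_num)
  have e : (F + G + H) + (F + G + H) =
      (2 / 3 : ℝ) • ((1 / 2 : ℝ) • (6 : ℝ) • F + (1 / 2 : ℝ) • (6 : ℝ) • G) +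
        (1 / 3 : ℝ) • ((6 : ℝ) • H) := by
    funext x
    simp only [Pi.add_apply, Pi.smul_apply, smul_eq_mul]
    ring
  rw [e]
  simp only [smul_eq_mul] at h1 h2
  linarith

lemma qf_tr {A : Matrix (V N) (V N) ℝ} (hA : TI A) (c : V N) (F : V N → ℝ) :
    qf A (fun x => F (x + c)) = qf A F := by
  unfold H37.qf
  rw [← Equiv.sum_comp (Equiv.addRight c) fun x => ∑ y, F x * A x y * F y]
  refine Finset.sum_congr rfl fun x _ => ?_
  rw [← Equiv.sum_comp (Equiv.addRight c) fun y =>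
    F (Equiv.addRight c x) * A (Equiv.addRight c x) y * F y]
  refine Finset.sum_congr rfl fun y _ => ?_
  simp only [Equiv.coe_addRight]
  rw [hA.tr]

lemma gr_tr (c : V N) (F : V N → ℝ) : gr (fun x => F (x + c)) = fun e => gr F (e.1 + c, e.2) := by
  funext ⟨x, d⟩
  rw [H817.gr_eq, H817.gr_eq, add_right_comm]

lemma RF_tr (hb : 0 < b) (ht : 0 < t) (c : V N) (F : V N → ℝ) :
    RF N b t (fun x => F (x + c)) = RF N b t F := by
  have h1 := EZ_gr (N := N) hb ht F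
  have h2 := EZ_gr (N := N) hb ht (fun x => F (x + c))
  rw [gr_tr, H817.EZ_tr hb c (EG.gr F), qf_tr (H963.ti_Anm hb.le ht)] at h2
  unfold RF
  linarith

lemma dec_tr (F : ℤ → ℤ → ℝ) (p : V N) : dec F p = fun x => dec F 0 (x + -p) := by
  funext x
  unfold H817.dec
  rw [sub_zero, ← sub_eq_add_neg]

/-- energy of the smoothed field, three pieces -/
lemma nS_add3 (a t : ℝ) (F G H : V N → ℝ) :
    nS a t (F + G + H) ≤ 3 * (nS a t F + nS a t G + nS a t H) := by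
  unfold nS
  rw [Matrix.mulVec_add, Matrix.mulVec_add]
  set u := mlt (sS a t) *ᵥ F
  set v := mlt (sS a t) *ᵥ G
  set w := mlt (sS a t) *ᵥ H
  rw [H817.qf_lap, H817.qf_lap, H817.qf_lap, H817.qf_lap]
  unfold H817.nrm
  rw [← Finset.sum_add_distrib, ← Finset.sum_add_distrib, Finset.mul_sum]
  refine Finset.sum_le_sum fun e _ => ?_
  have e1 : gr (u + v + w) e = gr u e + gr v e + gr w e := by
    obtain ⟨x, d⟩ := e
    rw [H817.gr_eq, H817.gr_eq, H817.gr_eq, H817.gr_eq]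
    simp only [Pi.add_apply]
    ring
  rw [e1]
  nlinarith [sq_nonneg (gr u e - gr v e), sq_nonneg (gr v e - gr w e), sq_nonneg (gr w e - gr u e)]

lemma nS_eq_qf (a t : ℝ) (F : V N → ℝ) :
    nS a t F = qf (mlt (sS a t) * (lapM * mlt (sS a t))) F := by
  unfold nS
  rw [H37.qf_eq, H37.qf_eq, ← mulVec_mulVec, ← mulVec_mulVec, dotProduct_mulVec F (mlt (sS a t)),
    ← mulVec_transpose, (ti_mlt _).transpose]

lemma ti_nS (a t : ℝ) : TI (mlt (sS a t) * (lapM * mlt (sS a t)) : Matrix (V N) (V N) ℝ) :=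
  (ti_mlt _).mul (ti_lapM.mul (ti_mlt _))

lemma nS_tr (a t : ℝ) (c : V N) (F : V N → ℝ) : nS a t (fun x => F (x + c)) = nS a t F := by
  rw [nS_eq_qf, nS_eq_qf, qf_tr (ti_nS a t)]

/-- a smooth field -/
lemma nS_le (ha : 0 < a) (ht : 0 < t) (F : V N → ℝ) : nS a t F ≤ nrm (gr F) := by
  rw [nS_eq_qf, ← H817.qf_lap]
  refine (H864.qf_le_iff (ti_nS a t) ti_lapM).2 (fun k => ?_) F
  rw [H864.sym_mul (ti_mlt _) (ti_lapM.mul (ti_mlt _)), H864.sym_mul ti_lapM (ti_mlt _),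
    sym_mlt _ (sS_neg a t), sym_lapM]
  have hE := EE_nonneg k
  have h0 : 0 ≤ sS a t k := by unfold sS; positivity
  have h1 : sS a t k ≤ 1 := by
    unfold sS
    rw [div_le_one (by positivity)]
    have : 0 ≤ a * EE k := by positivity
    linarith
  have h2 : sS a t k * sS a t k ≤ 1 := by nlinarith
  calc sS a t k * (EE k * sS a t k) = sS a t k * sS a t k * EE k := by ring
    _ ≤ 1 * EE k := mul_le_mul_of_nonneg_right h2 hE
    _ = EE k := one_mul _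

lemma nrm_GB {s : ℝ} {g : V N → ℝ} (hg : GB s g) : nrm (gr g) ≤ 2 * (N : ℝ) ^ 2 * s ^ 2 := by
  unfold H817.nrm
  have h1 : ∀ e, gr g e ^ 2 ≤ s ^ 2 := fun e =>
    sq_le_sq' (abs_le.1 (hg e)).1 (abs_le.1 (hg e)).2
  refine (Finset.sum_le_sum fun e _ => h1 e).trans (le_of_eq ?_)
  rw [Finset.sum_const, Finset.card_univ, Fintype.card_prod, Fintype.card_bool, nsmul_eq_mul]
  push_cast
  rw [H817.card_VN]
  ring

/-- the numbers of (CORE) -/
def eC (N l : ℕ) (Λ a t η b T A0 r1 r2 B1 : ℝ) (n : ℕ) : ℝ :=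
  2 * A0 + (T + (2 * r1 + r2) / 3) / 2 +
    (a * (1 + 2 / Db n (t / a)) + kap0 a t η n) * (14112 * Λ ^ 2) / 4 +
      kap1 (1 / b) a t η n * √(3 * (B1 + B1 + 2 * (N : ℝ) ^ 2 * (Λ / l) ^ 2) * (14112 * Λ ^ 2)) +
        kap0 a t η n * (14112 * Λ ^ 2) / 2

/-- **(CORE) from single decorations**: `T` = charge 2 number, `A0` = `E(bD) + log C` for the pairs
of the class, `R(6 dec) ≤ r1`, `R(6 g) ≤ r2`, Dirichlet energy of the smoothed decorations `≤ B1`.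
The conclusion is the argument `core` of `sys_rh`. -/
theorem core_dec {l r : ℕ} {Λ T A0 r1 r2 B1 ε₁ : ℝ} {D0 D1 : Dec} (hb : 0 < b) (ht : 0 < t)
    (ha : 0 < a) (hη : 0 ≤ η) (hn : 1 ≤ n) (hl : 1 ≤ l)
    (hP : ∀ k : V N, k ≠ 0 → |Pin N b t k - a * EE k| ≤ η * EE k * (1 + EE k / t))
    (hT : ∀ p q : V N, Far r p q →
      4 * EZ N b t (bD p q) - EZ N b t (fun e => bD p q e + bD p q e) ≤ T)
    (hA : ∀ p q : V N, Far r p q → ∃ (η : V N × Bool → ℤ) (φ : V N → ℝ), bD p q = eF η φ ∧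
      EZ N b t (bD p q) + Real.log (CT N b η) ≤ A0)
    (hR0 : ∀ F ∈ D0, RF N b t ((6 : ℝ) • dec F 0) ≤ r1)
    (hR1 : ∀ F ∈ D1, RF N b t ((6 : ℝ) • dec F 0) ≤ r1)
    (hRg : ∀ g : V N → ℝ, GB (Λ / l) g → RF N b t ((6 : ℝ) • g) ≤ r2)
    (hS0 : ∀ F ∈ D0, nS a t (dec F (0 : V N)) ≤ B1) (hS1 : ∀ F ∈ D1, nS a t (dec F (0 : V N)) ≤ B1)
    (hε : eC N l Λ a t η b T A0 r1 r2 B1 n ≤ ε₁) :
    ∀ F0 ∈ D0, ∀ F1 ∈ D1, ∀ (p q : V N) (g h : V N → ℝ), Far r p q → GB (Λ / l) g →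
      GB (Λ / l) (fun x => g x + h x) → (∀ x, |h x| ≤ 1) →
      ((∀ x, 20 * l ≤ sz (x - p) → h x = 0) ∨ (∀ x, 20 * l ≤ sz (x - q) → h x = 0)) →
      |rh N b t a n (cfg F0 F1 p q fun x => g x + h x) - rh N b t a n (cfg F0 F1 p q g)| ≤ ε₁ := by
  have hcF : ∀ (F0 F1 : ℤ → ℤ → ℝ) (p q : V N) (g : V N → ℝ),
      cF F0 F1 p q g = dec F0 p + dec F1 q + g := fun F0 F1 p q g => rfl
  refine core_rh hb ht ha hη hn hl (c0 := 1 / b) (by positivity) hP
    (fun k hk => H276.Pin_ge hb ht hk) hT (fun p q hpq v => A0_of hb ht (hA p q hpq) v)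
    (r0 := (2 * r1 + r2) / 3) (B := 3 * (B1 + B1 + 2 * (N : ℝ) ^ 2 * (Λ / l) ^ 2)) ?_ ?_ hε
  · intro F0 h0 F1 h1 p q g _ hg
    have k := RF_add3 (N := N) hb ht (dec F0 p) (dec F1 q) g
    have k0 := hR0 F0 h0
    have k1 := hR1 F1 h1
    have k2 := hRg g hg
    have e0 : RF N b t ((6 : ℝ) • dec F0 p) = RF N b t ((6 : ℝ) • dec F0 0) := by
      rw [← RF_tr hb ht (-p) ((6 : ℝ) • dec F0 0), dec_tr F0 p]
      rfl
    have e1 : RF N b t ((6 : ℝ) • dec F1 q) = RF N b t ((6 : ℝ) • dec F1 0) := by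
      rw [← RF_tr hb ht (-q) ((6 : ℝ) • dec F1 0), dec_tr F1 q]
      rfl
    rw [e0, e1] at k
    rw [hcF]
    change RF N b t (dec F0 p + dec F1 q + g + (dec F0 p + dec F1 q + g)) ≤ _
    linarith
  · intro F0 h0 F1 h1 p q g _ hg
    rw [hcF]
    refine (nS_add3 a t _ _ _).trans ?_
    have e0 : nS a t (dec F0 p) = nS a t (dec F0 (0 : V N)) := by
      rw [dec_tr F0 p]
      exact nS_tr a t (-p) (dec F0 0)
    have e1 : nS a t (dec F1 q) = nS a t (dec F1 (0 : V N)) := by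
      rw [dec_tr F1 q]
      exact nS_tr a t (-q) (dec F1 0)
    rw [e0, e1]
    have k0 := hS0 F0 h0
    have k1 := hS1 F1 h1
    have k2 := (nS_le ha ht g).trans (nrm_GB hg)
    linarith

end tor

end

end Vale.Agent.P159.H963.Core
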