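import Vale.Agent.P159.H963.Neu

/-!
P159, module NEU (helper963), part 2: the shift averaged partition function `Zn` of `Spec0` is the
partition function of the pinned weight with the neutral part of the mass form.
-/

namespace Vale.Agent.P159.H963

open Finset Matrix MeasureTheory
open Vale.Agent.P159.TM.H104 (EM Ex Cv K3 Lg li nh Gr)
open Vale.Agent.P159.H37

set_option linter.unusedSectionVars false

noncomputable section

variable {V : Type*} [Fintype V] [DecidableEq V]

/-- the neutral part of a mass form with row sums `m` -/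
def ntr (M : Matrix V V ℝ) (m : ℝ) : Matrix V V ℝ :=
  M - Matrix.of fun _ _ => m / Fintype.card V

lemma ntr_apply (M : Matrix V V ℝ) (m : ℝ) (x y : V) : ntr M m x y = M x y - m / Fintype.card V :=
  rfl

lemma ntr_transpose {M : Matrix V V ℝ} (hM : Mᵀ = M) (m : ℝ) : (ntr M m)ᵀ = ntr M m := by
  ext x y
  rw [transpose_apply, ntr_apply, ntr_apply]
  have : M y x = M x y := by
    conv_rhs => rw [← hM]
    rfl
  rw [this]

lemma ntr_row [Nonempty V] {M : Matrix V V ℝ} {m : ℝ} (hM : ∀ x, ∑ y, M x y = m) (x : V) :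
    ∑ y, ntr M m x y = 0 := by
  have hN : (Fintype.card V : ℝ) ≠ 0 := Nat.cast_ne_zero.2 Fintype.card_ne_zero
  simp only [ntr_apply, Finset.sum_sub_distrib, hM, Finset.sum_const, Finset.card_univ,
    nsmul_eq_mul]
  field_simp
  ring

lemma qf_ntr (M : Matrix V V ℝ) (m : ℝ) (u : V → ℝ) :
    qf M u = qf (ntr M m) u + m / Fintype.card V * (∑ x, u x) ^ 2 := by
  unfold qf
  simp only [ntr_apply]
  have h1 : (∑ x, u x) ^ 2 = ∑ x, ∑ y, u x * u y := by
    rw [sq, Finset.sum_mul_sum]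
  rw [h1, Finset.mul_sum, ← Finset.sum_add_distrib]
  refine Finset.sum_congr rfl fun x _ => ?_
  rw [Finset.mul_sum, ← Finset.sum_add_distrib]
  refine Finset.sum_congr rfl fun y _ => ?_
  ring

/-- the integer fields as pinned fields plus constants -/
def spl (x₀ : V) : {k : V → ℤ // k x₀ = 0} × ℤ ≃ (V → ℤ) where
  toFun p := fun x => p.1.1 x + p.2
  invFun h := (⟨fun x => h x + -(h x₀), by simp⟩, h x₀)
  left_inv p := by
    obtain ⟨⟨k, hk⟩, n⟩ := p
    simp only [Prod.mk.injEq, Subtype.mk.injEq]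
    constructor
    · funext x
      rw [hk]; ring
    · rw [hk]; ring
  right_inv h := by
    funext x
    simp only
    ring

lemma grI_tsum {x₀ : V} (B : (V → ℤ) → ℝ) :
    ∑' k : {k : V → ℤ // k x₀ = 0}, B k.1 = ∑' h, (if h x₀ = 0 then B h else 0) := by
  have h1 := tsum_subtype {k : V → ℤ | k x₀ = 0} B
  have h2 : ∑' k : {k : V → ℤ // k x₀ = 0}, B k.1 = ∑' k : {k : V → ℤ | k x₀ = 0}, B k.1 := rfl
  rw [h2, h1]
  refine tsum_congr fun h => ?_
  by_cases h0 : h x₀ = 0
  · rw [if_pos h0]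
    exact Set.indicator_of_mem (show h ∈ {k : V → ℤ | k x₀ = 0} from h0) B
  · rw [if_neg h0]
    exact Set.indicator_of_notMem (show h ∉ {k : V → ℤ | k x₀ = 0} from h0) B

lemma gauss_int {c : ℝ} (hc : 0 < c) : Integrable fun y : ℝ => Real.exp (-c * y ^ 2) :=
  integrable_exp_neg_mul_sq hc

/-- periodisation of a Gaussian -/
lemma gauss_per {c : ℝ} (a : ℝ) (hc : 0 < c) :
    HasSum (fun n : ℤ => ∫ u in (0 : ℝ)..1, Real.exp (-c * (a + n - u) ^ 2))
      (Real.sqrt (Real.pi / c)) := by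
  have h1 : Integrable fun y : ℝ => Real.exp (-c * (y - a) ^ 2) := (gauss_int hc).comp_sub_right a
  have h2 := h1.hasSum_intervalIntegral_comp_add_int
  have h3 : ∫ y : ℝ, Real.exp (-c * (y - a) ^ 2) = Real.sqrt (Real.pi / c) := by
    rw [integral_sub_right_eq_self (fun y : ℝ => Real.exp (-c * y ^ 2)) a, integral_gaussian]
  rw [h3] at h2
  have h4 := (Equiv.neg ℤ).hasSum_iff.2 h2
  have h5 : (fun n : ℤ => ∫ u in (0 : ℝ)..1, Real.exp (-c * (a + n - u) ^ 2)) =
      (fun n : ℤ => ∫ x in (0 : ℝ)..1, Real.exp (-c * (x + n - a) ^ 2)) ∘ (Equiv.neg ℤ) := by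
    funext n
    simp only [Function.comp_apply, Equiv.neg_apply]
    refine intervalIntegral.integral_congr fun u _ => ?_
    congr 2
    push_cast
    ring
  rw [h5]
  exact h4

/-- the general periodisation identity: `f` invariant under constants, `a` shifted by constants -/
theorem per_sum {x₀ : V} {B a : (V → ℤ) → ℝ} (hB0 : ∀ h, 0 ≤ B h) (hB : GrI B)
    (ha : ∀ (h : V → ℤ) (n : ℤ), a (fun x => h x + n) = a h + n)
    (hs : Summable fun h : V → ℤ => if h x₀ = 0 then B h else 0) {c : ℝ} (hc : 0 < c) :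
    ∫ u in (0 : ℝ)..1, ∑' h : V → ℤ, B h * Real.exp (-c * (a h - u) ^ 2) =
      Real.sqrt (Real.pi / c) * ∑' h : V → ℤ, (if h x₀ = 0 then B h else 0) := by
  have hcont : ∀ h : V → ℤ, Continuous fun u : ℝ => B h * Real.exp (-c * (a h - u) ^ 2) :=
    fun h => by fun_prop
  have hnn : ∀ (h : V → ℤ) (u : ℝ), 0 ≤ B h * Real.exp (-c * (a h - u) ^ 2) :=
    fun h u => mul_nonneg (hB0 h) (Real.exp_pos _).le
  -- the integrals
  have hI : ∀ h : V → ℤ, IntegrableOn (fun u : ℝ => B h * Real.exp (-c * (a h - u) ^ 2))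
      (Set.Ioc 0 1) := fun h =>
    ((hcont h).intervalIntegrable 0 1).1
  set f : {k : V → ℤ // k x₀ = 0} × ℤ → ℝ := fun p =>
    ∫ u in (0 : ℝ)..1, B (spl x₀ p) * Real.exp (-c * (a (spl x₀ p) - u) ^ 2) with hf
  have hf' : ∀ (k : {k : V → ℤ // k x₀ = 0}) (n : ℤ), f (k, n) =
      B k.1 * ∫ u in (0 : ℝ)..1, Real.exp (-c * (a k.1 + n - u) ^ 2) := by
    intro k n
    have e : spl x₀ (k, n) = fun x => k.1 x + n := rfl
    simp only [hf, e, hB k.1 n, ha k.1 n]
    rw [intervalIntegral.integral_const_mul]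
  have hrow : ∀ k : {k : V → ℤ // k x₀ = 0},
      HasSum (fun n : ℤ => f (k, n)) (B k.1 * Real.sqrt (Real.pi / c)) := by
    intro k
    have h1 := (gauss_per (a k.1) hc).mul_left (B k.1)
    have h2 : (fun n : ℤ => f (k, n)) = fun n : ℤ =>
        B k.1 * ∫ u in (0 : ℝ)..1, Real.exp (-c * (a k.1 + n - u) ^ 2) := by
      funext n
      exact hf' k n
    rw [h2]
    exact h1
  have hf0 : 0 ≤ f := fun p => intervalIntegral.integral_nonneg zero_le_one fun u _ => hnn _ u
  have hsub : Summable fun k : {k : V → ℤ // k x₀ = 0} => B k.1 := by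
    refine (hs.comp_injective (i := fun k : {k : V → ℤ // k x₀ = 0} => k.1)
      Subtype.val_injective).congr fun k => ?_
    simp only [Function.comp_apply, k.2, if_true]
  have hfs : Summable f := by
    rw [summable_prod_of_nonneg hf0]
    refine ⟨fun k => (hrow k).summable, ?_⟩
    refine (hsub.mul_right (Real.sqrt (Real.pi / c))).congr fun k => ?_
    exact (hrow k).tsum_eq.symm
  have hfs2 : Summable fun h : V → ℤ => ∫ u in Set.Ioc (0 : ℝ) 1,
      ‖B h * Real.exp (-c * (a h - u) ^ 2)‖ := by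
    rw [← (spl x₀).summable_iff]
    refine hfs.congr fun p => ?_
    simp only [hf, Function.comp_apply]
    rw [intervalIntegral.integral_of_le zero_le_one]
    refine integral_congr_ae (Filter.Eventually.of_forall fun u => ?_)
    simp only
    rw [Real.norm_of_nonneg (hnn _ u)]
  have h1 := integral_tsum_of_summable_integral_norm hI hfs2
  rw [intervalIntegral.integral_of_le zero_le_one, ← h1, ← (spl x₀).tsum_eq]
  have h2 : (fun p : {k : V → ℤ // k x₀ = 0} × ℤ => ∫ u in Set.Ioc (0 : ℝ) 1,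
      B (spl x₀ p) * Real.exp (-c * (a (spl x₀ p) - u) ^ 2)) = f := by
    funext p
    simp only [hf]
    rw [intervalIntegral.integral_of_le zero_le_one]
  rw [h2, hfs.tsum_prod, ← grI_tsum, ← tsum_mul_left]
  refine tsum_congr fun k => ?_
  rw [(hrow k).tsum_eq, mul_comm]

/-- **(N3)** the shift averaged partition function is the partition function of the heights modulo
constants with the neutral mass form -/
theorem Zn_eq [Nonempty V] {w : (V → ℤ) → ℝ} (hw : GrI w) (hw0 : ∀ h, 0 ≤ w h)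
    {M : Matrix V V ℝ} (hM : Mᵀ = M) {m : ℝ} (hm : 0 < m) (hrow : ∀ x, ∑ y, M x y = m) {x₀ : V}
    (hE : EM (pin (wM w (ntr M m)) x₀)) (F : V → ℝ) :
    Zn w M F = Real.sqrt (2 * Real.pi / (m * Fintype.card V)) *
      (Real.exp (-(qf (ntr M m) F / 2)) * Zs (pin (wM w (ntr M m)) x₀) (ntr M m *ᵥ F)) := by
  have hN : (0 : ℝ) < Fintype.card V := Nat.cast_pos.2 Fintype.card_pos
  set M0 := ntr M m with hM0
  have hM0t : M0ᵀ = M0 := ntr_transpose hM m
  have hM01 : ∀ x, ∑ y, M0 x y = 0 := ntr_row hrow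
  -- the terms
  have hterm : ∀ (c : ℝ) (h : V → ℤ), w h * Real.exp (-(qf M (re h - fun x => F x + c) / 2)) =
      (w h * Real.exp (-(qf M0 (re h - F) / 2))) *
        Real.exp (-(m * Fintype.card V / 2) *
          ((∑ x, (re h x - F x)) / Fintype.card V - c) ^ 2) := by
    intro c h
    rw [mul_assoc, ← Real.exp_add]
    congr 2
    rw [qf_ntr M m]
    have e1 : (re h - fun x => F x + c) = fun x => (re h - F) x + (-c) := by
      funext x
      simp only [Pi.sub_apply]
      ring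
    have e2 : ∑ x, (re h - fun x => F x + c) x = ∑ x, (re h x - F x) - Fintype.card V * c := by
      simp only [Pi.sub_apply]
      rw [Finset.sum_sub_distrib, Finset.sum_sub_distrib, Finset.sum_add_distrib,
        Finset.sum_const, Finset.card_univ, nsmul_eq_mul]
      ring
    rw [e2, e1, qf_addc hM0t hM01]
    field_simp
    ring
  have hB : GrI fun h : V → ℤ => w h * Real.exp (-(qf M0 (re h - F) / 2)) := by
    intro h n
    have e1 : re (fun x => h x + n) - F = fun x => (re h - F) x + (n : ℝ) := by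
      rw [re_addc]
      funext x
      simp only [Pi.sub_apply]
      ring
    simp only [hw h n, e1, qf_addc hM0t hM01]
  have ha : ∀ (h : V → ℤ) (n : ℤ),
      (∑ x, (re (fun x => h x + n) x - F x)) / (Fintype.card V : ℝ) =
        (∑ x, (re h x - F x)) / (Fintype.card V : ℝ) + n := by
    intro h n
    rw [re_addc]
    have : ∑ x, (re h x + (n : ℝ) - F x) = ∑ x, (re h x - F x) + Fintype.card V * n := by
      rw [Finset.sum_sub_distrib, Finset.sum_sub_distrib, Finset.sum_add_distrib,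
        Finset.sum_const, Finset.card_univ, nsmul_eq_mul]
      ring
    rw [this]
    field_simp
  -- the pinned sum
  have hpt : ∀ h : V → ℤ, (if h x₀ = 0 then w h * Real.exp (-(qf M0 (re h - F) / 2)) else 0) =
      Real.exp (-(qf M0 F / 2)) *
        (1 * pin (wM w M0) x₀ h * Real.exp (li (M0 *ᵥ F) h)) := by
    intro h
    unfold pin
    by_cases h0 : h x₀ = 0
    · rw [if_pos h0, if_pos h0]
      unfold wM
      rw [one_mul, li_mass hM0t, qf_sub_vec hM0t, mul_assoc, ← mul_assoc, mul_comm _ (w h),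
        mul_assoc, ← Real.exp_add, ← Real.exp_add]
      congr 2
      ring
    · rw [if_neg h0, if_neg h0]
      ring
  have hsum : Summable fun h : V → ℤ =>
      if h x₀ = 0 then w h * Real.exp (-(qf M0 (re h - F) / 2)) else 0 := by
    refine ((hE.summ (TM.H104.Gr.const 1) (M0 *ᵥ F)).mul_left
      (Real.exp (-(qf M0 F / 2)))).congr fun h => ?_
    rw [hpt h]
  have hc : 0 < m * (Fintype.card V : ℝ) / 2 := by positivity
  have h1 := per_sum (x₀ := x₀) (B := fun h : V → ℤ => w h * Real.exp (-(qf M0 (re h - F) / 2)))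
    (a := fun h : V → ℤ => (∑ x, (re h x - F x)) / (Fintype.card V : ℝ))
    (fun h => mul_nonneg (hw0 h) (Real.exp_pos _).le) hB ha hsum hc
  have h2 : Zn w M F = ∫ u in (0 : ℝ)..1, ∑' h : V → ℤ,
      (w h * Real.exp (-(qf M0 (re h - F) / 2))) *
        Real.exp (-(m * Fintype.card V / 2) *
          ((∑ x, (re h x - F x)) / Fintype.card V - u) ^ 2) := by
    unfold Zn ZM
    refine intervalIntegral.integral_congr fun c _ => ?_
    exact tsum_congr fun h => hterm c h
  rw [h2, h1]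
  have h3 : Real.pi / (m * (Fintype.card V : ℝ) / 2) = 2 * Real.pi / (m * Fintype.card V) := by
    field_simp
  rw [h3]
  congr 1
  unfold Zs TM.H104.T
  rw [← tsum_mul_left]
  exact tsum_congr hpt

/-- quadratic form of the neutral free energy at zero background -/
def An (w : (V → ℤ) → ℝ) (M : Matrix V V ℝ) (m : ℝ) (x₀ : V) : Matrix V V ℝ :=
  ntr M m - ntr M m * Gm (pin (wM w (ntr M m)) x₀) * ntr M m

lemma qf_An {w : (V → ℤ) → ℝ} {M : Matrix V V ℝ} (hM : Mᵀ = M) {m : ℝ} {x₀ : V} (F : V → ℝ) :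
    qf (An w M m x₀) F = qf (ntr M m) F - qf (Gm (pin (wM w (ntr M m)) x₀)) (ntr M m *ᵥ F) := by
  unfold An
  rw [qf_eq, sub_mulVec, dotProduct_sub, ← qf_eq, ← mulVec_mulVec, ← mulVec_mulVec, qf_eq (Gm _)]
  congr 1
  rw [dotProduct_mulVec, ← mulVec_transpose, ntr_transpose hM]

/-- **(N3')** neutral free energy = quadratic form − `Rs` of the pinned weight -/
theorem Un_eq [Nonempty V] {w : (V → ℤ) → ℝ} (hw : GrI w) (hw0 : ∀ h, 0 ≤ w h)
    {M : Matrix V V ℝ} (hM : Mᵀ = M) {m : ℝ} (hm : 0 < m) (hrow : ∀ x, ∑ y, M x y = m) {x₀ : V}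
    (hE : EM (pin (wM w (ntr M m)) x₀)) (F : V → ℝ) :
    Un w M F = qf (An w M m x₀) F / 2 - Rs (pin (wM w (ntr M m)) x₀) (ntr M m *ᵥ F) := by
  have hN : (0 : ℝ) < Fintype.card V := Nat.cast_pos.2 Fintype.card_pos
  have hK : 0 < Real.sqrt (2 * Real.pi / (m * Fintype.card V)) :=
    Real.sqrt_pos.2 (by positivity)
  have hZ : ∀ J, 0 < Zs (pin (wM w (ntr M m)) x₀) J := fun J => TM.H104.T_one_pos hE J
  unfold Un
  rw [Zn_eq hw hw0 hM hm hrow hE F, Zn_eq hw hw0 hM hm hrow hE 0, mulVec_zero, qf_zero_vec,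
    zero_div, neg_zero, Real.exp_zero, one_mul, mul_div_mul_left _ _ hK.ne',
    Real.log_div (mul_pos (Real.exp_pos _) (hZ _)).ne' (hZ 0).ne',
    Real.log_mul (Real.exp_pos _).ne' (hZ _).ne', Real.log_exp, qf_An hM]
  have h1 : Real.log (Zs (pin (wM w (ntr M m)) x₀) (ntr M m *ᵥ F)) =
      Lg (pin (wM w (ntr M m)) x₀) (ntr M m *ᵥ F) := rfl
  have h2 : Real.log (Zs (pin (wM w (ntr M m)) x₀) 0) = Lg (pin (wM w (ntr M m)) x₀) 0 := rfl
  rw [h1, h2]
  unfold Rs
  ring

end

end Vale.Agent.P159.H963
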