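import Vale.Agent.P159.H963.Vb1d

/-!
P159 / module VB1 (helper963), part e: symmetries of the partition functions under relabelling of
the sites, continuity of `D_g Φ_q`, and the `L²` bound of one cell in a cell-translation invariant
law of the background.
-/

namespace Vale.Agent.P159.H963

open MeasureTheory ProbabilityTheory Finset Matrix
open Vale.Agent.P159.TM.H104 (EM Cv li Ex)
open Vale.Agent.P159.H37
open Vale.Agent.P159.H145 (LM L0 cs OscZ)
open Vale.Agent.P159.H896 (WM Chn cN Ph om Om WP ph continuous_ph)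
open Vale.Agent.P159.H864
open Vale.Agent.P159.TM.Spec (V)
open Vale.Agent.P159.TM.SpecC (wT)
open Vale.Agent.P159.H552 (idc)
open Vale.Agent.P159.H43 (dL dL0 el el1 dPh Phq)

noncomputable section

/-! ### relabelling of the sites -/

section relabel

variable {V : Type*} [Fintype V] {w : (V → ℤ) → ℝ} {M : Matrix V V ℝ} (e : V ≃ V)

lemma qf_comp (hM : ∀ x y, M (e x) (e y) = M x y) (u : V → ℝ) : qf M (u ∘ e) = qf M u := by
  unfold qf
  rw [← Equiv.sum_comp e (fun x => ∑ y, u x * M x y * u y)]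
  refine Finset.sum_congr rfl fun x _ => ?_
  rw [← Equiv.sum_comp e (fun y => u (e x) * M (e x) y * u y)]
  refine Finset.sum_congr rfl fun y _ => ?_
  rw [hM]
  rfl

theorem ZM_comp (hw : ∀ h : V → ℤ, w (h ∘ e) = w h) (hM : ∀ x y, M (e x) (e y) = M x y)
    (F : V → ℝ) : ZM w M (F ∘ e) = ZM w M F := by
  unfold ZM
  rw [← Equiv.tsum_eq (e.symm.arrowCongr (Equiv.refl ℤ))]
  refine tsum_congr fun h => ?_
  have e1 : (e.symm.arrowCongr (Equiv.refl ℤ)) h = h ∘ e := by
    funext x
    simp [Equiv.arrowCongr]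
  rw [e1, hw]
  have e2 : re (h ∘ e) - F ∘ e = (re h - F) ∘ e := by
    funext x
    simp [re]
  rw [e2, qf_comp e hM]

theorem Zn_comp (hw : ∀ h : V → ℤ, w (h ∘ e) = w h) (hM : ∀ x y, M (e x) (e y) = M x y)
    (F : V → ℝ) : Zn w M (F ∘ e) = Zn w M F := by
  unfold Zn
  refine intervalIntegral.integral_congr fun c _ => ?_
  exact ZM_comp e hw hM fun x => F x + c

theorem Zq_comp (hw : ∀ h : V → ℤ, w (h ∘ e) = w h) (hM : ∀ x y, M (e x) (e y) = M x y)
    (q : ℤ) (F : V → ℝ) : Zq w M q (F ∘ e) = Zq w M q F := by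
  unfold Zq
  refine intervalIntegral.integral_congr fun c _ => ?_
  have := ZM_comp e hw hM fun x => F x + c
  show (ZM w M ((fun x => F x + c) ∘ e) : ℂ) * _ = _
  rw [this]

theorem Phq_comp (hw : ∀ h : V → ℤ, w (h ∘ e) = w h) (hM : ∀ x y, M (e x) (e y) = M x y)
    (q : ℤ) (F : V → ℝ) : Phq w M q (F ∘ e) = Phq w M q F := by
  unfold Phq
  rw [Zq_comp e hw hM, Zn_comp e hw hM]

theorem dPh_comp (hS : Mᵀ = M) (hE : EM (wM w M)) (hw : ∀ h : V → ℤ, w (h ∘ e) = w h)
    (hM : ∀ x y, M (e x) (e y) = M x y) (q : ℤ) (F g : V → ℝ) :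
    dPh w M q (F ∘ e) (g ∘ e) = dPh w M q F g := by
  have h1 := H43.hasDerivAt_Phq hS hE q (F ∘ e) (g ∘ e) 0
  have h2 := H43.hasDerivAt_Phq hS hE q F g 0
  have e1 : (fun r : ℝ => Phq w M q (F ∘ e + r • (g ∘ e))) = fun r : ℝ => Phq w M q (F + r • g) := by
    funext r
    rw [← Phq_comp e hw hM q (F + r • g)]
    rfl
  rw [e1] at h1
  have h3 := h1.unique h2
  rw [zero_smul, zero_smul, add_zero, add_zero] at h3
  exact h3

end relabel

/-! ### continuity -/

section cont

variable {V : Type*} [Fintype V] {w : (V → ℤ) → ℝ} {M : Matrix V V ℝ}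

omit [Fintype V] in
lemma continuous_cs2 : Continuous fun p : (V → ℝ) × ℝ => cs p.1 p.2 := by
  refine continuous_pi fun x => ?_
  simp only [cs]
  fun_prop

lemma continuous_L0 (hS : Mᵀ = M) (hE : EM (wM w M)) : Continuous (L0 w M) := by
  unfold L0
  refine Continuous.log ?_ fun F => (H145.Zn_pos hS hE F).ne'
  unfold Zn
  have h1 : Continuous (Function.uncurry fun (F : V → ℝ) (c : ℝ) => ZM w M fun x => F x + c) :=
    (H145.continuous_ZM hS hE).comp continuous_cs2
  exact intervalIntegral.continuous_parametric_intervalIntegral_of_continuous' h1 0 1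

lemma continuous_el2 (hS : Mᵀ = M) (hE : EM (wM w M)) :
    Continuous fun p : (V → ℝ) × ℝ => el w M p.1 p.2 := by
  unfold el
  exact ((H43.continuous_LM hS hE).comp continuous_cs2).sub
    ((continuous_L0 hS hE).comp continuous_fst)

lemma continuous_dL0 (hS : Mᵀ = M) (hE : EM (wM w M)) (g : V → ℝ) :
    Continuous fun F : V → ℝ => dL0 w M F g := by
  unfold dL0
  refine intervalIntegral.continuous_parametric_intervalIntegral_of_continuous' ?_ 0 1
  exact (continuous_el2 hS hE).rexp.mul ((H43.continuous_dL hE g).comp continuous_cs2)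

lemma continuous_el12 (hS : Mᵀ = M) (hE : EM (wM w M)) (g : V → ℝ) :
    Continuous fun p : (V → ℝ) × ℝ => el1 w M p.1 g p.2 := by
  unfold el1
  exact ((H43.continuous_dL hE g).comp continuous_cs2).sub
    ((continuous_dL0 hS hE g).comp continuous_fst)

theorem continuous_dPh (hS : Mᵀ = M) (hE : EM (wM w M)) (q : ℤ) (g : V → ℝ) :
    Continuous fun F : V → ℝ => dPh w M q F g := by
  unfold dPh
  refine intervalIntegral.continuous_parametric_intervalIntegral_of_continuous' ?_ 0 1
  refine Continuous.mul ?_ ((continuous_ph q).comp continuous_snd)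
  exact Complex.continuous_ofReal.comp
    ((continuous_el2 hS hE).rexp.mul (continuous_el12 hS hE g))

end cont

/-! ### one cell in an invariant law -/

/-- averaging a bound of a sum over an invariant law -/
theorem law_avg {Ω I : Type*} [MeasurableSpace Ω] [Fintype I] [Nonempty I] {ν : Measure Ω}
    [IsProbabilityMeasure ν] {X : I → Ω → ℝ} {C : ℝ} (hm : ∀ i, AEStronglyMeasurable (X i) ν)
    (h0 : ∀ i ω, 0 ≤ X i ω) (hC : ∀ ω, ∑ i, X i ω ≤ C)
    (hinv : ∀ i j, ∫ ω, X i ω ∂ν = ∫ ω, X j ω ∂ν) (i : I) :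
    ∫ ω, X i ω ∂ν ≤ C / Fintype.card I := by
  have hn : (0 : ℝ) < Fintype.card I := Nat.cast_pos.2 Fintype.card_pos
  have hint : ∀ i, Integrable (X i) ν := fun i =>
    Integrable.of_bound (hm i) C (Filter.Eventually.of_forall fun ω => by
      rw [Real.norm_eq_abs, abs_of_nonneg (h0 i ω)]
      exact (Finset.single_le_sum (f := fun i => X i ω) (fun j _ => h0 j ω)
        (Finset.mem_univ i)).trans (hC ω))
  rw [le_div_iff₀ hn]
  have h1 : ∑ j, ∫ ω, X j ω ∂ν = (∫ ω, X i ω ∂ν) * Fintype.card I := by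
    rw [Finset.sum_congr rfl fun j _ => hinv j i, Finset.sum_const, Finset.card_univ,
      nsmul_eq_mul, mul_comm]
  rw [← h1, ← integral_finsetSum _ fun j _ => hint j]
  calc ∫ ω, ∑ j, X j ω ∂ν ≤ ∫ _ω, C ∂ν :=
        integral_mono (integrable_finsetSum _ fun j _ => hint j) (integrable_const C) hC
    _ = C := by simp

section torus

variable {N l : ℕ} [NeZero N] [NeZero (N / l)] {b t τ τ' : ℝ}

/-- translation of the fields by a cell vector -/
def Ta (l : ℕ) [NeZero (N / l)] (a : V (N / l)) (F : V N → ℝ) : V N → ℝ := fun v => F (v + up a)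

/-- the law of the background is invariant under the translations of the cells -/
def CL (l : ℕ) [NeZero (N / l)] (ν : Measure (V N → ℝ)) : Prop :=
  ∀ a : V (N / l), ν.map (Ta l a) = ν

omit [NeZero N] in
lemma continuous_Ta (a : V (N / l)) : Continuous (Ta l a : (V N → ℝ) → (V N → ℝ)) := by
  unfold Ta
  fun_prop

lemma idc_Ta (hl : l ∣ N) (x a : V (N / l)) :
    Ta l a (idc (cl : V N → V (N / l)) x) = idc cl (x - a) := by
  funext v
  unfold Ta idc
  rw [cl_add_up hl]
  by_cases h : (cl v : V (N / l)) = x - a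
  · rw [if_pos h, if_pos (by rw [h]; abel)]
  · rw [if_neg h, if_neg fun h2 => h (by rw [← h2]; abel)]

lemma wT_comp_add (a : V N) (h : V N → ℤ) : wT b N (h ∘ (Equiv.addRight a)) = wT b N h := by
  unfold TM.SpecC.wT
  conv_rhs => rw [← Equiv.prod_comp (Equiv.addRight a)]
  refine Finset.prod_congr rfl fun x _ => ?_
  simp only [Function.comp_apply, Equiv.coe_addRight]
  rw [add_right_comm x (1, 0) a, add_right_comm x (0, 1) a]

theorem dPh_Ta (hb : 0 ≤ b) (hl : l ∣ N) (h1 : 0 < τ) (h3 : τ ≤ t) (q : ℤ) (a : V (N / l))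
    (F g : V N → ℝ) :
    dPh (wT b N) (MC N l t τ) q (Ta l a F) (Ta l a g) = dPh (wT b N) (MC N l t τ) q F g := by
  have hW := wb_MC (b := b) hb hl h1 h3
  refine dPh_comp (Equiv.addRight (up a)) hW.sym hW.em (wT_comp_add (up a)) (fun x y => ?_) q F g
  rw [MC_eq]
  simp only [Equiv.coe_addRight, Matrix.sub_apply, Matrix.smul_apply, smul_eq_mul,
    cellP_apply hl, Matrix.one_apply, add_left_inj, cl_add_up hl]

/-- **one cell, `L²` of any cell-translation invariant law of the background** -/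
theorem vb1_law (hb : 0 ≤ b) (hl : l ∣ N) (h1 : 0 < τ) (h3 : 2 * τ ≤ t)
    (hO : Om (wT b N) (MC N l t (2 * τ)) ≤ 1 / 2) (q : ℤ) {ν : Measure (V N → ℝ)}
    [IsProbabilityMeasure ν] (hν : CL l ν) (x : V (N / l)) :
    ∫ F, ‖dPh (wT b N) (MC N l t τ) q F (idc cl x)‖ ^ 2 ∂ν ≤
      6 * (τ * (l : ℝ) ^ 2) * om (wT b N) (MC N l t (2 * τ)) q ^ 2 / ((N / l : ℕ) : ℝ) ^ 2 := by
  have hle : τ ≤ t := by linarith
  have hW := wb_MC (b := b) hb hl h1 hle
  have hcont : ∀ x : V (N / l), Continuous fun F : V N → ℝ =>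
      ‖dPh (wT b N) (MC N l t τ) q F (idc cl x)‖ ^ 2 := fun x =>
    ((continuous_dPh hW.sym hW.em q (idc cl x)).norm).pow 2
  have h := law_avg (ν := ν) (X := fun (x : V (N / l)) (F : V N → ℝ) =>
      ‖dPh (wT b N) (MC N l t τ) q F (idc cl x)‖ ^ 2)
    (fun x => (hcont x).aestronglyMeasurable) (fun _ _ => sq_nonneg _)
    (fun F => vb1_half hb hl h1 h3 hO q F) (fun x y => ?_) x
  · have hc : (Fintype.card (V (N / l)) : ℝ) = ((N / l : ℕ) : ℝ) ^ 2 := by
      have : Fintype.card (V (N / l)) = (N / l) * (N / l) := by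
        unfold TM.Spec.V
        rw [Fintype.card_prod, ZMod.card]
      rw [this]
      push_cast
      ring
    rw [hc] at h
    exact h
  · -- invariance
    have h2 : ∫ F, ‖dPh (wT b N) (MC N l t τ) q F (idc cl x)‖ ^ 2 ∂(ν.map (Ta l (y - x))) =
        ∫ F, ‖dPh (wT b N) (MC N l t τ) q (Ta l (y - x) F) (idc cl x)‖ ^ 2 ∂ν :=
      integral_map (continuous_Ta _).measurable.aemeasurable
        (hcont x).aestronglyMeasurable
    rw [hν] at h2
    rw [h2]
    refine integral_congr_ae (Filter.Eventually.of_forall fun F => ?_)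
    simp only
    have h4 : idc (cl : V N → V (N / l)) x = Ta l (y - x) (idc cl y) := by
      rw [idc_Ta hl]
      congr 1
      abel
    rw [h4, dPh_Ta hb hl h1 hle]

end torus

end

end Vale.Agent.P159.H963
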