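import Vale.Agent.P159.H963.NeuT
import Vale.Agent.P159.H789.Ray

/-!
P159, module NEU (helper963), part 4: Ginibre comparison of the integer model and of the neutral
model; constants as backgrounds.
-/

namespace Vale.Agent.P159.H963

open Finset Matrix MeasureTheory
open Vale.Agent.P159.TM.H104 (EM Ex Cv K3 Lg li nh Gr)
open Vale.Agent.P159.H37

set_option linter.unusedSectionVars false

noncomputable section

/-! ### two consequences of (PK) -/

section pk

variable {V : Type*} [Fintype V] {μ : (V → ℤ) → ℝ}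

/-- `2 Z(x) Z(y) ≤ Z(0) (Z(x+y) + Z(x-y))` -/
theorem two_mul_le (hP : PK μ) (hμ : Ev μ) (x y : V → ℝ) :
    2 * (Zs μ x * Zs μ y) ≤ Zs μ 0 * (Zs μ (x + y) + Zs μ (x - y)) := by
  have h1 := hP 2 ![(1 / 2 : ℝ) • (x + y), (1 / 2 : ℝ) • (x - y)] ![1, -1]
  simp only [Fin.sum_univ_two, Matrix.cons_val_zero, Matrix.cons_val_one] at h1
  unfold Ker at h1
  have e1 : (1 / 2 : ℝ) • (x + y) + (1 / 2 : ℝ) • (x + y) = x + y := by
    rw [← add_smul]; norm_num
  have e2 : (1 / 2 : ℝ) • (x - y) + (1 / 2 : ℝ) • (x - y) = x - y := by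
    rw [← add_smul]; norm_num
  have e3 : (1 / 2 : ℝ) • (x + y) + (1 / 2 : ℝ) • (x - y) = x := by
    rw [← smul_add]
    have : x + y + (x - y) = (2 : ℝ) • x := by rw [two_smul]; abel
    rw [this, smul_smul]; norm_num
  have e4 : (1 / 2 : ℝ) • (x + y) - (1 / 2 : ℝ) • (x - y) = y := by
    rw [← smul_sub]
    have : x + y - (x - y) = (2 : ℝ) • y := by rw [two_smul]; abel
    rw [this, smul_smul]; norm_num
  have e5 : (1 / 2 : ℝ) • (x - y) + (1 / 2 : ℝ) • (x + y) = x := by rw [add_comm, e3]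
  have e6 : (1 / 2 : ℝ) • (x - y) - (1 / 2 : ℝ) • (x + y) = -y := by
    rw [← neg_sub, e4]
  rw [e1, e2, e3, e4, e5, e6, sub_self, sub_self, Zs_neg hμ] at h1
  nlinarith

end pk

/-! ### the periodised partition function -/

section per

variable {V : Type*} [Fintype V] [DecidableEq V]

/-- a constant background is the source `m c` -/
lemma li_const (a : ℝ) (h : V → ℤ) : li (fun _ : V => a) h = a * ∑ x, (h x : ℝ) := by
  unfold li
  rw [Finset.mul_sum]

lemma qf_M_eq [Nonempty V] (M : Matrix V V ℝ) (m : ℝ) (h : V → ℤ) (c : ℝ) :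
    -(qf M (re h) / 2) + m * c * ∑ x, (h x : ℝ) - m * Fintype.card V / 2 * c ^ 2 =
      -(qf (ntr M m) (re h) / 2) +
        -(m * Fintype.card V / 2) * ((∑ x, (h x : ℝ)) / Fintype.card V - c) ^ 2 := by
  have hN : (Fintype.card V : ℝ) ≠ 0 := Nat.cast_ne_zero.2 Fintype.card_ne_zero
  rw [qf_ntr M m (re h)]
  simp only [re]
  field_simp
  ring

/-- the integer model with the constant background `c` and the source `J` -/
def Zc (w : (V → ℤ) → ℝ) (M : Matrix V V ℝ) (m : ℝ) (J : V → ℝ) (c : ℝ) : ℝ :=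
  Real.exp (-(m * Fintype.card V / 2 * c ^ 2)) * Zs (wM w M) (J + fun _ => m * c)

lemma Zc_eq [Nonempty V] (w : (V → ℤ) → ℝ) (M : Matrix V V ℝ) (m : ℝ) (J : V → ℝ) (c : ℝ) :
    Zc w M m J c = ∑' h : V → ℤ, (w h * Real.exp (-(qf (ntr M m) (re h) / 2)) *
      Real.exp (li J h)) * Real.exp (-(m * Fintype.card V / 2) *
        ((∑ x, (h x : ℝ)) / Fintype.card V - c) ^ 2) := by
  unfold Zc Zs TM.H104.T
  rw [← tsum_mul_left]
  refine tsum_congr fun h => ?_
  unfold wM
  rw [TM.H104.li_add, li_const, Real.exp_add]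
  have h1 : Real.exp (-(m * (Fintype.card V : ℝ) / 2 * c ^ 2)) *
      (1 * (w h * Real.exp (-(qf M (re h) / 2))) *
        (Real.exp (li J h) * Real.exp (m * c * ∑ x, (h x : ℝ)))) =
      w h * Real.exp (li J h) * (Real.exp (-(qf M (re h) / 2)) *
        Real.exp (m * c * ∑ x, (h x : ℝ)) *
        Real.exp (-(m * (Fintype.card V : ℝ) / 2 * c ^ 2))) := by ring
  have h2 : w h * Real.exp (-(qf (ntr M m) (re h) / 2)) * Real.exp (li J h) *
      Real.exp (-(m * Fintype.card V / 2) * ((∑ x, (h x : ℝ)) / Fintype.card V - c) ^ 2) =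
      w h * Real.exp (li J h) * (Real.exp (-(qf (ntr M m) (re h) / 2)) *
      Real.exp (-(m * Fintype.card V / 2) *
        ((∑ x, (h x : ℝ)) / Fintype.card V - c) ^ 2)) := by ring
  rw [h1, h2, ← Real.exp_add, ← Real.exp_add, ← Real.exp_add]
  congr 2
  have := qf_M_eq M m h c
  linarith

lemma grI_core {w : (V → ℤ) → ℝ} (hw : GrI w) {M0 : Matrix V V ℝ} (hM : M0ᵀ = M0)
    (h1 : ∀ x, ∑ y, M0 x y = 0) {J : V → ℝ} (hJ : Neu J) :
    GrI fun h : V → ℤ => w h * Real.exp (-(qf M0 (re h) / 2)) * Real.exp (li J h) := by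
  intro h n
  simp only [hw h n, re_addc, qf_addc hM h1, grI_li hJ h n]

/-- **periodisation with a neutral source** -/
theorem int_Zc [Nonempty V] {w : (V → ℤ) → ℝ} (hw : GrI w) (hw0 : ∀ h, 0 ≤ w h)
    {M : Matrix V V ℝ} (hM : Mᵀ = M) {m : ℝ} (hm : 0 < m) (hrow : ∀ x, ∑ y, M x y = m) {x₀ : V}
    (hE : EM (pin (wM w (ntr M m)) x₀)) {J : V → ℝ} (hJ : Neu J) :
    ∫ c in (0 : ℝ)..1, Zc w M m J c =
      Real.sqrt (2 * Real.pi / (m * Fintype.card V)) * Zs (pin (wM w (ntr M m)) x₀) J := by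
  have hN : (0 : ℝ) < Fintype.card V := Nat.cast_pos.2 Fintype.card_pos
  have hM0t := ntr_transpose hM m
  have hM01 := ntr_row (V := V) hrow
  have ha : ∀ (h : V → ℤ) (n : ℤ), (∑ x, (((fun x => h x + n) x : ℤ) : ℝ)) /
      (Fintype.card V : ℝ) = (∑ x, (h x : ℝ)) / (Fintype.card V : ℝ) + n := by
    intro h n
    have : ∑ x, (((fun x => h x + n) x : ℤ) : ℝ) = ∑ x, (h x : ℝ) + Fintype.card V * n := by
      push_cast
      rw [Finset.sum_add_distrib, Finset.sum_const, Finset.card_univ, nsmul_eq_mul]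
    rw [this]
    field_simp
  have hpt : ∀ h : V → ℤ, (if h x₀ = 0 then
      w h * Real.exp (-(qf (ntr M m) (re h) / 2)) * Real.exp (li J h) else 0) =
      1 * pin (wM w (ntr M m)) x₀ h * Real.exp (li J h) := by
    intro h
    unfold pin
    by_cases h0 : h x₀ = 0
    · rw [if_pos h0, if_pos h0, one_mul]
      rfl
    · rw [if_neg h0, if_neg h0]
      ring
  have hsum : Summable fun h : V → ℤ => if h x₀ = 0 then
      w h * Real.exp (-(qf (ntr M m) (re h) / 2)) * Real.exp (li J h) else 0 :=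
    (hE.summ (TM.H104.Gr.const 1) J).congr fun h => (hpt h).symm
  have hc : 0 < m * (Fintype.card V : ℝ) / 2 := by positivity
  have h1 := per_sum (x₀ := x₀) (B := fun h : V → ℤ =>
      w h * Real.exp (-(qf (ntr M m) (re h) / 2)) * Real.exp (li J h))
    (a := fun h : V → ℤ => (∑ x, (h x : ℝ)) / (Fintype.card V : ℝ))
    (fun h => mul_nonneg (mul_nonneg (hw0 h) (Real.exp_pos _).le) (Real.exp_pos _).le)
    (grI_core hw hM0t hM01 hJ) ha hsum hc
  have h2 : (fun c : ℝ => Zc w M m J c) = fun c : ℝ => ∑' h : V → ℤ,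
      (w h * Real.exp (-(qf (ntr M m) (re h) / 2)) * Real.exp (li J h)) *
        Real.exp (-(m * Fintype.card V / 2) *
          ((∑ x, (h x : ℝ)) / Fintype.card V - c) ^ 2) := by
    funext c
    exact Zc_eq w M m J c
  rw [h2, h1]
  have h3 : Real.pi / (m * (Fintype.card V : ℝ) / 2) = 2 * Real.pi / (m * Fintype.card V) := by
    field_simp
  rw [h3]
  congr 1
  unfold Zs TM.H104.T
  exact tsum_congr hpt

/-- periodicity in the constant background -/
theorem Zc_per [Nonempty V] {w : (V → ℤ) → ℝ} (hw : GrI w) {M : Matrix V V ℝ} (hM : Mᵀ = M)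
    {m : ℝ} (hrow : ∀ x, ∑ y, M x y = m) {J : V → ℝ} (hJ : Neu J) :
    Function.Periodic (Zc w M m J) 1 := by
  have hN : (Fintype.card V : ℝ) ≠ 0 := Nat.cast_ne_zero.2 Fintype.card_ne_zero
  intro c
  rw [Zc_eq, Zc_eq]
  set e : (V → ℤ) ≃ (V → ℤ) := Equiv.addRight (fun _ => (1 : ℤ)) with he
  rw [← e.tsum_eq]
  refine tsum_congr fun h => ?_
  have h1 : e h = fun x => h x + 1 := rfl
  have h2 := grI_core hw (ntr_transpose hM m) (ntr_row (V := V) hrow) hJ h 1
  simp only at h2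
  rw [h1, h2]
  congr 3
  have : ∑ x, (((fun x => h x + 1) x : ℤ) : ℝ) = ∑ x, (h x : ℝ) + Fintype.card V := by
    push_cast
    rw [Finset.sum_add_distrib, Finset.sum_const, Finset.card_univ, nsmul_eq_mul, mul_one]
  rw [this]
  field_simp
  ring

lemma continuous_Zc {w : (V → ℤ) → ℝ} {M : Matrix V V ℝ} (hE : EM (wM w M)) (m : ℝ)
    (J : V → ℝ) : Continuous (Zc w M m J) := by
  unfold Zc
  have h1 : Continuous fun c : ℝ => Zs (wM w M) (J + fun _ => m * c) := by
    have := TM.H104.continuous_T hE (TM.H104.Gr.const (V := V) 1)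
    exact this.comp (by fun_prop)
  fun_prop

lemma Zc_neg {w : (V → ℤ) → ℝ} {M : Matrix V V ℝ} (hμ : Ev (wM w M)) (m : ℝ)
    (J : V → ℝ) (c : ℝ) : Zc w M m J (-c) = Zc w M m (-J) c := by
  unfold Zc
  have e : (J + fun _ : V => m * -c) = -(-J + fun _ : V => m * c) := by
    funext x
    simp only [Pi.add_apply, Pi.neg_apply]
    ring
  rw [e, Zs_neg hμ, neg_sq]

end per

/-! ### neutral versus integer -/

section cmp

variable {V : Type} [Fintype V] [DecidableEq V] [Nonempty V]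

/-- **(N5)** Ginibre: the integer model is more rigid than the neutral model -/
theorem GW.int_le_neu {w : (V → ℤ) → ℝ} (hw : GW w) {M : Matrix V V ℝ} {m : ℝ} (hM : MF M m)
    (x₀ : V) {J : V → ℝ} (hJ : Neu J) :
    Zs (wM w M) J * Zs (nM w M m x₀) 0 ≤ Zs (wM w M) 0 * Zs (nM w M m x₀) J := by
  have hN : (0 : ℝ) < Fintype.card V := Nat.cast_pos.2 Fintype.card_pos
  have hm := hM.pos
  have hE := hw.em_wM hM
  have hEv : Ev (wM w M) := ev_wM hw.ev M
  have hEn := hw.em_nM hM x₀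
  have hK : 0 < Real.sqrt (2 * Real.pi / (m * Fintype.card V)) :=
    Real.sqrt_pos.2 (by positivity)
  have i0 := int_Zc hw.grd hw.nn hM.symm hm hM.row hEn (Neu.zero (V := V))
  have iJ := int_Zc hw.grd hw.nn hM.symm hm hM.row hEn hJ
  have iJ' : ∫ c in (0 : ℝ)..1, Zc w M m J (-c) =
      Real.sqrt (2 * Real.pi / (m * Fintype.card V)) * Zs (pin (wM w (ntr M m)) x₀) J := by
    rw [intervalIntegral.integral_comp_neg (fun c => Zc w M m J c), neg_zero]
    have h1 := (Zc_per hw.grd hM.symm hM.row hJ).intervalIntegral_add_eq (-1) 0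
    rw [neg_add_cancel, zero_add] at h1
    rw [h1, iJ]
  -- pointwise inequality
  have hpt : ∀ c : ℝ, 2 * (Zs (wM w M) J * Zc w M m 0 c) ≤
      Zs (wM w M) 0 * (Zc w M m J c + Zc w M m J (-c)) := by
    intro c
    have h1 := two_mul_le (hw.pk_wM hM) hEv J fun _ => m * c
    have e1 : (J - fun _ : V => m * c) = J + fun _ : V => m * -c := by
      funext x
      simp only [Pi.sub_apply, Pi.add_apply]
      ring
    rw [e1] at h1
    unfold Zc
    rw [zero_add, neg_sq]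
    have h2 := mul_le_mul_of_nonneg_left h1
      (Real.exp_pos (-(m * (Fintype.card V : ℝ) / 2 * c ^ 2))).le
    calc _ = Real.exp (-(m * (Fintype.card V : ℝ) / 2 * c ^ 2)) *
          (2 * (Zs (wM w M) J * Zs (wM w M) fun _ => m * c)) := by ring
      _ ≤ _ := h2
      _ = _ := by ring
  have c0 := continuous_Zc hE m (0 : V → ℝ)
  have cJ := continuous_Zc hE m J
  have h3 : ∫ c in (0 : ℝ)..1, 2 * (Zs (wM w M) J * Zc w M m 0 c) ≤
      ∫ c in (0 : ℝ)..1, Zs (wM w M) 0 * (Zc w M m J c + Zc w M m J (-c)) := by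
    refine intervalIntegral.integral_mono_on zero_le_one ?_ ?_ fun c _ => hpt c
    · exact (by fun_prop : Continuous fun c => 2 * (Zs (wM w M) J * Zc w M m 0 c)).intervalIntegrable _ _
    · exact (by fun_prop : Continuous fun c =>
        Zs (wM w M) 0 * (Zc w M m J c + Zc w M m J (-c))).intervalIntegrable _ _
  have h5 : ∫ c in (0 : ℝ)..1, (Zc w M m J c + Zc w M m J (-c)) =
      (∫ c in (0 : ℝ)..1, Zc w M m J c) + ∫ c in (0 : ℝ)..1, Zc w M m J (-c) :=
    intervalIntegral.integral_add (cJ.intervalIntegrable _ _)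
      ((cJ.comp continuous_neg).intervalIntegrable _ _)
  rw [intervalIntegral.integral_const_mul, intervalIntegral.integral_const_mul,
    intervalIntegral.integral_const_mul, h5, i0, iJ, iJ'] at h3
  have h4 : Real.sqrt (2 * Real.pi / (m * Fintype.card V)) *
      (Zs (wM w M) J * Zs (nM w M m x₀) 0) ≤
      Real.sqrt (2 * Real.pi / (m * Fintype.card V)) *
      (Zs (wM w M) 0 * Zs (nM w M m x₀) J) := by
    unfold nM
    nlinarith
  exact le_of_mul_le_mul_left h4 hK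

theorem GW.Lg_int_le_neu {w : (V → ℤ) → ℝ} (hw : GW w) {M : Matrix V V ℝ} {m : ℝ} (hM : MF M m)
    (x₀ : V) {J : V → ℝ} (hJ : Neu J) :
    Lg (wM w M) J - Lg (wM w M) 0 ≤ Lg (nM w M m x₀) J - Lg (nM w M m x₀) 0 := by
  have h1 := hw.int_le_neu hM x₀ hJ
  have p1 := TM.H104.T_one_pos (hw.em_wM hM) J
  have p2 := TM.H104.T_one_pos (hw.em_wM hM) 0
  have p3 := TM.H104.T_one_pos (hw.em_nM hM x₀) J
  have p4 := TM.H104.T_one_pos (hw.em_nM hM x₀) 0
  have h2 : Real.log (Zs (wM w M) J * Zs (nM w M m x₀) 0) ≤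
      Real.log (Zs (wM w M) 0 * Zs (nM w M m x₀) J) := Real.log_le_log (mul_pos p1 p4) h1
  have e1 : Real.log (Zs (wM w M) J * Zs (nM w M m x₀) 0) = Lg (wM w M) J +
      Lg (nM w M m x₀) 0 := Real.log_mul p1.ne' p4.ne'
  have e2 : Real.log (Zs (wM w M) 0 * Zs (nM w M m x₀) J) = Lg (wM w M) 0 +
      Lg (nM w M m x₀) J := Real.log_mul p2.ne' p3.ne'
  rw [e1, e2] at h2
  linarith

/-- second derivative at a minimum -/
lemma deriv2_nonneg {φ φ' : ℝ → ℝ} {D : ℝ} (h1 : ∀ s, HasDerivAt φ (φ' s) s) (h0 : φ' 0 = 0)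
    (h2 : HasDerivAt φ' D 0) (hmin : ∀ s, φ 0 ≤ φ s) : 0 ≤ D := by
  by_contra hD
  rw [not_le] at hD
  have h3 : ∀ᶠ s in nhdsWithin (0 : ℝ) (Set.Ioi 0), φ' s < 0 := by
    have h4 := h2.hasDerivWithinAt (s := Set.Ioi 0)
    rw [hasDerivWithinAt_iff_tendsto_slope' (by simp)] at h4
    have h5 := h4.eventually (gt_mem_nhds hD)
    filter_upwards [h5, self_mem_nhdsWithin] with s hs hs0
    rw [slope_def_field, h0, sub_zero, sub_zero] at hs
    by_contra h6
    rw [not_lt] at h6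
    have : 0 ≤ φ' s / s := div_nonneg h6 (le_of_lt hs0)
    linarith
  rw [eventually_nhdsWithin_iff, Metric.eventually_nhds_iff] at h3
  obtain ⟨ε, hε, h3⟩ := h3
  have hanti : StrictAntiOn φ (Set.Icc 0 (ε / 2)) := by
    refine strictAntiOn_of_deriv_neg (convex_Icc _ _)
      (fun s _ => (h1 s).continuousAt.continuousWithinAt) fun s hs => ?_
    rw [interior_Icc] at hs
    rw [(h1 s).deriv]
    refine h3 ?_ hs.1
    rw [Real.dist_eq, sub_zero, abs_of_pos hs.1]
    linarith [hs.2]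
  have := hanti (Set.left_mem_Icc.2 (by positivity)) (Set.right_mem_Icc.2 (by positivity))
    (by positivity)
  linarith [hmin (ε / 2)]

/-- **(N5')** the covariance forms on neutral vectors -/
theorem GW.Gm_int_le_neu {w : (V → ℤ) → ℝ} (hw : GW w) {M : Matrix V V ℝ} {m : ℝ} (hM : MF M m)
    (x₀ : V) {u : V → ℝ} (hu : Neu u) :
    qf (Gm (wM w M)) u ≤ qf (Gm (nM w M m x₀)) u := by
  have hE := hw.em_wM hM
  have hEn := hw.em_nM hM x₀
  have hEv : Ev (wM w M) := ev_wM hw.ev M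
  have hEvn : Ev (nM w M m x₀) := hw.ev_nM M m x₀
  have e1 : qf (Gm (wM w M)) u = Cv (wM w M) 0 (li u) (li u) := H789.qf_Gm hE u
  have e2 : qf (Gm (nM w M m x₀)) u = Cv (nM w M m x₀) 0 (li u) (li u) := H789.qf_Gm hEn u
  rw [e1, e2, ← sub_nonneg]
  have z : ∀ s : ℝ, (0 : V → ℝ) + s • u = s • u := fun s => zero_add _
  refine deriv2_nonneg (φ := fun s : ℝ => Lg (nM w M m x₀) (0 + s • u) -
      Lg (wM w M) (0 + s • u))
    (φ' := fun s : ℝ => Ex (nM w M m x₀) (0 + s • u) (li u) - Ex (wM w M) (0 + s • u) (li u))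
    (fun s => (TM.H104.hasDerivAt_Lg hEn 0 u s).sub (TM.H104.hasDerivAt_Lg hE 0 u s)) ?_ ?_
    fun s => ?_
  · simp only [zero_smul, add_zero]
    rw [H789.Ex_zero_li hEvn, H789.Ex_zero_li hEv, sub_zero]
  · have h1 := TM.H104.hasDerivAt_Ex hEn (TM.H104.Gr.li u) 0 u 0
    have h2 := TM.H104.hasDerivAt_Ex hE (TM.H104.Gr.li u) 0 u 0
    simp only [zero_smul, add_zero] at h1 h2
    exact h1.sub h2
  · simp only [zero_smul, add_zero, z]
    have := hw.Lg_int_le_neu hM x₀ (hu.smul s)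
    linarith

end cmp

end

end Vale.Agent.P159.H963
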