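import Vale.Agent.P159.H963.NeuQ
import Vale.Agent.P159.H896.Chm

/-!
P159, module NEU (helper963), part 8: bridge to the charge module of helper896.
-/

namespace Vale.Agent.P159.H963

open Finset Matrix MeasureTheory
open Vale.Agent.P159.TM.H104 (EM Ex Cv K3 Lg li nh Gr)
open Vale.Agent.P159.H37
open Vale.Agent.P159.H896 (WM Ph om Ph_zero norm_Ph_le)

set_option linter.unusedSectionVars false

noncomputable section

variable {V : Type} [Fintype V] [DecidableEq V]

/-- `Φ_q` of helper896 as expectations in the neutral model -/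
theorem GW.Ph_eq [Nonempty V] {w : (V → ℤ) → ℝ} (hw : GW w) {M : Matrix V V ℝ} {m : ℝ}
    (hM : MF M m) (x₀ : V) (q : ℤ) (F : V → ℝ) :
    Ph w M q F = ((eq2 V m q : ℝ) : ℂ) *
      (((Ex (nM w M m x₀) (ntr M m *ᵥ F) (cq q (mF F)) : ℝ) : ℂ) -
        ((Ex (nM w M m x₀) (ntr M m *ᵥ F) (sq q (mF F)) : ℝ) : ℂ) * Complex.I) := by
  have hp : ((Zn w M F : ℝ) : ℂ) ≠ 0 := Complex.ofReal_ne_zero.2 (hw.Zn_pos hM F).ne'
  unfold H896.Ph
  rw [hw.Zq_eq hM x₀ q F]
  push_cast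
  field_simp

/-- the activity `ω_q` as an expectation in the neutral model -/
theorem GW.om_eq [Nonempty V] {w : (V → ℤ) → ℝ} (hw : GW w) {M : Matrix V V ℝ} {m : ℝ}
    (hM : MF M m) (hW : WM w M) (x₀ : V) (q : ℤ) :
    om w M q = eq2 V m q * Ex (nM w M m x₀) 0 (cq q 0) := by
  have h1 := hw.Ph_eq hM x₀ q 0
  rw [Ph_zero hW] at h1
  have h2 := congrArg Complex.re h1
  have h3 : mF (0 : V → ℝ) = 0 := by simp [mF]
  rw [mulVec_zero, h3] at h2
  simpa using h2

/-- **characters of the neutral model are largest at zero source** -/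
theorem GW.chr_le [Nonempty V] {w : (V → ℤ) → ℝ} (hw : GW w) {M : Matrix V V ℝ} {m : ℝ}
    (hM : MF M m) (hW : WM w M) (x₀ : V) (q : ℤ) (F : V → ℝ) :
    Ex (nM w M m x₀) (ntr M m *ᵥ F) (cq q (mF F)) ^ 2 +
      Ex (nM w M m x₀) (ntr M m *ᵥ F) (sq q (mF F)) ^ 2 ≤ Ex (nM w M m x₀) 0 (cq q 0) ^ 2 := by
  have h1 := norm_Ph_le hW q F
  rw [hw.Ph_eq hM x₀ q F, hw.om_eq hM hW x₀ q, norm_mul, Complex.norm_real,
    Real.norm_of_nonneg (eq2_pos (V := V) m q).le] at h1
  have h2 := le_of_mul_le_mul_left h1 (eq2_pos (V := V) m q)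
  have h3 := pow_le_pow_left₀ (norm_nonneg _) h2 2
  rw [Complex.sq_norm, Complex.normSq_apply] at h3
  simp only [Complex.sub_re, Complex.ofReal_re, Complex.mul_re, Complex.ofReal_im, Complex.I_re,
    mul_zero, Complex.I_im, sub_self, sub_zero, Complex.sub_im, Complex.mul_im, mul_one,
    add_zero, zero_sub] at h3
  nlinarith

end

end Vale.Agent.P159.H963
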