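import Vale.Agent.P159.H963.NeuP
import Vale.Agent.P159.H789.Ray

/-!
P159, module NEU (helper963), part 6: domination by doubling (integer and neutral models, any
admissible mass form), strict positivity of the neutral covariance.
-/

namespace Vale.Agent.P159.H963

open Finset Matrix MeasureTheory
open Vale.Agent.P159.TM.H104 (EM Ex Cv K3 Lg li nh Gr)
open Vale.Agent.P159.H37

set_option linter.unusedSectionVars false

noncomputable section

/-! ### bounded Gaussian sums -/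

section bdd

variable {V : Type} [Fintype V] [DecidableEq V]

lemma summable_gsq {c : ℝ} (hc : 0 < c) : Summable fun h : V → ℤ => Real.exp (-(c * ∑ x, (h x : ℝ) ^ 2)) := by
  have hE : EM (wM (fun _ : V → ℤ => (1 : ℝ)) ((2 * c) • (1 : Matrix V V ℝ))) :=
    H37.em_wM (fun _ => zero_le_one) (fun _ => le_refl _) ⟨0, zero_lt_one⟩
      (m0 := 2 * c) (by positivity) (fun u => by rw [qf_smul_one])
  have h1 := hE.summ (TM.H104.Gr.const 1) (0 : V → ℝ)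
  refine h1.congr fun h => ?_
  unfold wM
  rw [qf_smul_one, TM.H104.li_zero]
  simp only [re, one_mul, Real.exp_zero, mul_one]
  congr 1
  ring

/-- integer part of a real vector -/
def ivec (F : V → ℝ) : V → ℤ := fun x => ⌊F x⌋

lemma gsum_term {c : ℝ} (hc : 0 ≤ c) (F : V → ℝ) (h : V → ℤ) :
    Real.exp (-(c * ∑ x, (((h + ivec F) x : ℤ) - F x) ^ 2)) ≤
      Real.exp (c * Fintype.card V) * Real.exp (-(c / 2 * ∑ x, (h x : ℝ) ^ 2)) := by
  rw [← Real.exp_add]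
  refine Real.exp_le_exp.2 ?_
  have h1 : ∀ x, (h x : ℝ) ^ 2 / 2 - 1 ≤ (((h + ivec F) x : ℤ) - F x) ^ 2 := by
    intro x
    have e : (((h + ivec F) x : ℤ) : ℝ) - F x = h x - Int.fract (F x) := by
      rw [Pi.add_apply]
      push_cast
      unfold ivec Int.fract
      ring
    rw [e]
    have h2 := Int.fract_nonneg (F x)
    have h3 := (Int.fract_lt_one (F x)).le
    nlinarith [sq_nonneg ((h x : ℝ) - 2 * Int.fract (F x))]
  have h2 : ∑ x, ((h x : ℝ) ^ 2 / 2 - 1) ≤ ∑ x, (((h + ivec F) x : ℤ) - F x) ^ 2 :=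
    Finset.sum_le_sum fun x _ => h1 x
  rw [Finset.sum_sub_distrib, ← Finset.sum_div, Finset.sum_const, Finset.card_univ, nsmul_eq_mul,
    mul_one] at h2
  nlinarith

lemma gsum_le {c : ℝ} (hc : 0 < c) (F : V → ℝ) :
    (Summable fun h : V → ℤ => Real.exp (-(c * ∑ x, ((h x : ℝ) - F x) ^ 2))) ∧
    ∑' h : V → ℤ, Real.exp (-(c * ∑ x, ((h x : ℝ) - F x) ^ 2)) ≤
      Real.exp (c * Fintype.card V) * ∑' h : V → ℤ, Real.exp (-(c / 2 * ∑ x, (h x : ℝ) ^ 2)) := by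
  have hs : Summable fun h : V → ℤ =>
      Real.exp (c * Fintype.card V) * Real.exp (-(c / 2 * ∑ x, (h x : ℝ) ^ 2)) :=
    (summable_gsq (by positivity)).mul_left _
  have hs' : Summable fun h : V → ℤ => Real.exp (-(c * ∑ x, (((h + ivec F) x : ℤ) - F x) ^ 2)) :=
    Summable.of_nonneg_of_le (fun _ => (Real.exp_pos _).le) (gsum_term hc.le F) hs
  constructor
  · exact (Equiv.addRight (ivec F)).summable_iff.1 hs'
  · rw [← tsum_mul_left, ← (Equiv.addRight (ivec F)).tsum_eq]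
    exact hs'.tsum_le_tsum (gsum_term hc.le F) hs

/-- the integer partition function is bounded over all backgrounds -/
theorem ZM_bdd {w : (V → ℤ) → ℝ} (hw0 : ∀ h, 0 ≤ w h) (hb : ∃ Wb : ℝ, ∀ h, w h ≤ Wb)
    {M : Matrix V V ℝ} (hc : ∃ m0 : ℝ, 0 < m0 ∧ ∀ u : V → ℝ, m0 * ∑ x, u x ^ 2 ≤ qf M u) :
    ∃ K : ℝ, 0 ≤ K ∧ ∀ F : V → ℝ, 0 ≤ ZM w M F ∧ ZM w M F ≤ K := by
  obtain ⟨Wb, hb⟩ := hb
  obtain ⟨m0, hm0, hc⟩ := hc
  have hWb : 0 ≤ Wb := (hw0 0).trans (hb 0)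
  refine ⟨Wb * (Real.exp (m0 / 2 * Fintype.card V) *
    ∑' h : V → ℤ, Real.exp (-(m0 / 2 / 2 * ∑ x, (h x : ℝ) ^ 2))),
    mul_nonneg hWb (mul_nonneg (Real.exp_pos _).le (tsum_nonneg fun _ => (Real.exp_pos _).le)),
    fun F => ⟨tsum_nonneg fun h => mul_nonneg (hw0 h) (Real.exp_pos _).le, ?_⟩⟩
  have hle : ∀ h : V → ℤ, w h * Real.exp (-(qf M (re h - F) / 2)) ≤
      Wb * Real.exp (-(m0 / 2 * ∑ x, ((h x : ℝ) - F x) ^ 2)) := by
    intro h
    refine mul_le_mul (hb h) (Real.exp_le_exp.2 ?_) (Real.exp_pos _).le hWb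
    have := hc (re h - F)
    simp only [Pi.sub_apply] at this
    have e : ∀ x, re h x = (h x : ℝ) := fun _ => rfl
    simp only [e] at this
    linarith
  obtain ⟨hs, hl⟩ := gsum_le (c := m0 / 2) (by positivity) F
  have hs1 := hs.mul_left Wb
  have hs2 := Summable.of_nonneg_of_le (fun h => mul_nonneg (hw0 h) (Real.exp_pos _).le) hle hs1
  calc ZM w M F ≤ ∑' h : V → ℤ, Wb * Real.exp (-(m0 / 2 * ∑ x, ((h x : ℝ) - F x) ^ 2)) :=
        hs2.tsum_le_tsum hle hs1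
    _ = Wb * ∑' h : V → ℤ, Real.exp (-(m0 / 2 * ∑ x, ((h x : ℝ) - F x) ^ 2)) := tsum_mul_left
    _ ≤ _ := mul_le_mul_of_nonneg_left hl hWb

/-- the neutral partition function is bounded over all backgrounds -/
theorem Zn_bdd {w : (V → ℤ) → ℝ} (hw0 : ∀ h, 0 ≤ w h) (hb : ∃ Wb : ℝ, ∀ h, w h ≤ Wb)
    {M : Matrix V V ℝ} (hc : ∃ m0 : ℝ, 0 < m0 ∧ ∀ u : V → ℝ, m0 * ∑ x, u x ^ 2 ≤ qf M u) :
    ∃ K : ℝ, 0 ≤ K ∧ ∀ F : V → ℝ, Zn w M F ≤ K := by
  obtain ⟨K, hK0, hK⟩ := ZM_bdd hw0 hb hc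
  refine ⟨K, hK0, fun F => ?_⟩
  unfold Zn
  refine (le_abs_self _).trans ?_
  have := intervalIntegral.norm_integral_le_of_norm_le_const (a := (0 : ℝ)) (b := 1) (C := K)
    (f := fun c => ZM w M fun x => F x + c) (fun c _ => by
      rw [Real.norm_eq_abs, abs_of_nonneg (hK _).1]
      exact (hK _).2)
  simpa using this

end bdd

/-! ### doubling -/

/-- a function which at most quadruples under doubling and is bounded below is nonnegative -/
lemma dbl {V : Type*} {φ : (V → ℝ) → ℝ} (h2 : ∀ F, φ ((2 : ℝ) • F) ≤ 4 * φ F) {K : ℝ}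
    (hK : ∀ F, -K ≤ φ F) (F : V → ℝ) : 0 ≤ φ F := by
  by_contra hneg
  push Not at hneg
  have h3 : ∀ n : ℕ, φ ((2 : ℝ) ^ n • F) ≤ 4 ^ n * φ F := by
    intro n
    induction n with
    | zero => simp
    | succ n ih =>
      have e : (2 : ℝ) ^ (n + 1) • F = (2 : ℝ) • ((2 : ℝ) ^ n • F) := by
        rw [smul_smul]; ring_nf
      rw [e]
      calc φ ((2 : ℝ) • ((2 : ℝ) ^ n • F)) ≤ 4 * φ ((2 : ℝ) ^ n • F) := h2 _
        _ ≤ 4 * (4 ^ n * φ F) := by linarith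
        _ = 4 ^ (n + 1) * φ F := by ring
  obtain ⟨n, hn⟩ := pow_unbounded_of_one_lt (K / -φ F) (by norm_num : (1 : ℝ) < 4)
  have h4 := h3 n
  have h5 := hK ((2 : ℝ) ^ n • F)
  rw [div_lt_iff₀ (by linarith)] at hn
  linarith

section dom

variable {V : Type} [Fintype V] [DecidableEq V]

/-- domination for the neutral model : `Un ≥ 0` -/
theorem GW.Un_nonneg [Nonempty V] {w : (V → ℤ) → ℝ} (hw : GW w) {M : Matrix V V ℝ} {m : ℝ}
    (hM : MF M m) (F : V → ℝ) : 0 ≤ Un w M F := by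
  have x₀ : V := Classical.arbitrary V
  obtain ⟨K, hK0, hK⟩ := Zn_bdd hw.nn hw.bdd hM.coer
  have hZ0 := hw.Zn_pos hM (0 : V → ℝ)
  have hKp : 0 < K := lt_of_lt_of_le hZ0 (hK 0)
  refine dbl (K := Real.log (K / Zn w M 0)) (fun F => ?_) (fun F => ?_) F
  · rw [hw.Un_eq hM x₀, hw.Un_eq hM x₀, mulVec_smul, qf_smul]
    have h1 := H789.Tq_nonneg (hw.em_nM hM x₀) (hw.ev_nM M m x₀) (hw.pk_nM hM x₀)
      (ntr M m *ᵥ F)
    rw [H789.Tq_eq] at h1
    linarith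
  · unfold Un
    rw [neg_le_neg_iff]
    refine Real.log_le_log (div_pos (hw.Zn_pos hM F) hZ0) ?_
    exact div_le_div_of_nonneg_right (hK F) hZ0.le

theorem GW.Zn_le [Nonempty V] {w : (V → ℤ) → ℝ} (hw : GW w) {M : Matrix V V ℝ} {m : ℝ}
    (hM : MF M m) (F : V → ℝ) : Zn w M F ≤ Zn w M 0 := by
  have h1 := hw.Un_nonneg hM F
  unfold Un at h1
  have hZ0 := hw.Zn_pos hM (0 : V → ℝ)
  have hZF := hw.Zn_pos hM F
  have h2 : Real.log (Zn w M F / Zn w M 0) ≤ 0 := by linarith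
  have h3 := (Real.log_nonpos_iff (div_pos hZF hZ0).le).1 h2
  rwa [div_le_one hZ0] at h3

/-- the quadratic part of the neutral free energy is nonnegative (and dominates `2 Rs`) -/
theorem GW.qf_An_ge [Nonempty V] {w : (V → ℤ) → ℝ} (hw : GW w) {M : Matrix V V ℝ} {m : ℝ}
    (hM : MF M m) (x₀ : V) (F : V → ℝ) :
    2 * Rs (nM w M m x₀) (ntr M m *ᵥ F) ≤ qf (An w M m x₀) F := by
  have h1 := hw.Un_nonneg hM F
  rw [hw.Un_eq hM x₀] at h1
  linarith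

theorem GW.qf_An_nonneg [Nonempty V] {w : (V → ℤ) → ℝ} (hw : GW w) {M : Matrix V V ℝ} {m : ℝ}
    (hM : MF M m) (x₀ : V) (F : V → ℝ) : 0 ≤ qf (An w M m x₀) F := by
  have h1 := hw.qf_An_ge hM x₀ F
  have h2 := H789.Rs_nonneg (hw.em_nM hM x₀) (hw.ev_nM M m x₀) (hw.pk_nM hM x₀)
    (ntr M m *ᵥ F)
  linarith

theorem GW.Un_le [Nonempty V] {w : (V → ℤ) → ℝ} (hw : GW w) {M : Matrix V V ℝ} {m : ℝ}
    (hM : MF M m) (x₀ : V) (F : V → ℝ) : Un w M F ≤ qf (An w M m x₀) F / 2 := by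
  rw [hw.Un_eq hM x₀]
  have h2 := H789.Rs_nonneg (hw.em_nM hM x₀) (hw.ev_nM M m x₀) (hw.pk_nM hM x₀)
    (ntr M m *ᵥ F)
  linarith

/-- variance of a mass source in the neutral model -/
theorem GW.qf_Gm_le_mass [Nonempty V] {w : (V → ℤ) → ℝ} (hw : GW w) {M : Matrix V V ℝ} {m : ℝ}
    (hM : MF M m) (x₀ : V) (F : V → ℝ) :
    qf (Gm (nM w M m x₀)) (ntr M m *ᵥ F) ≤ qf (ntr M m) F := by
  have h1 := hw.qf_An_nonneg hM x₀ F
  rw [qf_An hM.symm] at h1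
  exact sub_nonneg.1 h1

/-! ### the integer model -/

/-- domination for the integer model -/
theorem GW.ZM_le {w : (V → ℤ) → ℝ} (hw : GW w) {M : Matrix V V ℝ} {m : ℝ}
    (hM : MF M m) (F : V → ℝ) : ZM w M F ≤ ZM w M 0 := by
  obtain ⟨K, hK0, hK⟩ := ZM_bdd hw.nn hw.bdd hM.coer
  have hE := hw.em_wM hM
  have hp := fun F => ZM_pos hM.symm hE F
  have hKp : 0 < K := lt_of_lt_of_le (hp 0) (hK 0).2
  have hform : ∀ F, -Real.log (ZM w M F / ZM w M 0) =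
      qf M F / 2 - (Lg (wM w M) (M *ᵥ F) - Lg (wM w M) 0) := by
    intro F
    rw [ZM_eq w hM.symm F, ZM_eq w hM.symm 0, qf_zero_vec, mulVec_zero, zero_div, neg_zero,
      Real.exp_zero, one_mul, mul_div_assoc, Real.log_mul (Real.exp_pos _).ne'
      (div_pos (Zs_pos hE _) (Zs_pos hE _)).ne', Real.log_exp,
      Real.log_div (Zs_pos hE _).ne' (Zs_pos hE _).ne']
    unfold TM.H104.Lg Zs
    ring
  have h0 : 0 ≤ -Real.log (ZM w M F / ZM w M 0) := by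
    refine dbl (φ := fun F => -Real.log (ZM w M F / ZM w M 0)) (K := Real.log (K / ZM w M 0))
      (fun F => ?_) (fun F => ?_) F
    · simp only [hform]
      rw [mulVec_smul, qf_smul]
      have h1 := H789.Tq_nonneg hE (ev_wM hw.ev M) (hw.pk_wM hM) (M *ᵥ F)
      unfold Tq at h1
      linarith
    · rw [neg_le_neg_iff]
      exact Real.log_le_log (div_pos (hp F) (hp 0)) (div_le_div_of_nonneg_right (hK F).2 (hp 0).le)
  have h2 : Real.log (ZM w M F / ZM w M 0) ≤ 0 := by linarith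
  have h3 := (Real.log_nonpos_iff (div_pos (hp F) (hp 0)).le).1 h2
  rwa [div_le_one (hp 0)] at h3

theorem GW.Lg_le {w : (V → ℤ) → ℝ} (hw : GW w) {M : Matrix V V ℝ} {m : ℝ}
    (hM : MF M m) (F : V → ℝ) :
    Lg (wM w M) (M *ᵥ F) - Lg (wM w M) 0 ≤ qf M F / 2 := by
  have hE := hw.em_wM hM
  have h1 := hw.ZM_le hM F
  rw [ZM_eq w hM.symm F, ZM_eq w hM.symm 0, qf_zero_vec, mulVec_zero, zero_div, neg_zero,
      Real.exp_zero, one_mul] at h1
  have h2 := Real.log_le_log (mul_pos (Real.exp_pos _) (Zs_pos hE _)) h1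
  rw [Real.log_mul (Real.exp_pos _).ne' (Zs_pos hE _).ne', Real.log_exp] at h2
  unfold TM.H104.Lg
  unfold Zs at h2
  linarith

theorem GW.qf_Gm_int_le_mass {w : (V → ℤ) → ℝ} (hw : GW w) {M : Matrix V V ℝ} {m : ℝ}
    (hM : MF M m) (F : V → ℝ) : qf (Gm (wM w M)) (M *ᵥ F) ≤ qf M F := by
  have h1 := hw.Lg_le hM F
  have h2 := H789.Rs_nonneg (hw.em_wM hM) (ev_wM hw.ev M) (hw.pk_wM hM) (M *ᵥ F)
  unfold Rs at h2
  linarith

end dom

end

end Vale.Agent.P159.H963
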