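import Vale.Agent.P159.H963.LinkL
import Vale.Agent.P159.H889.Vb
import Vale.Agent.P159.H316.Zb13
import Vale.Agent.P159.H197.Ov5
import Vale.Agent.P159.H801.Master1
import Vale.Agent.P159.H801.ParEv

/-!
P159, module LINK (helper963), part P: both halves of LINK in the letters of LIST P_up, for one state
`VB` on one torus (helper316, rows 6579 and 6763).
-/

set_option linter.unusedSectionVars false

namespace Vale.Agent.P159.LNK

open Finset Matrix MeasureTheory Filter Topology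
open Vale.Agent.P159.TM.H104 (EM Ex Cv)
open Vale.Agent.P159.TM.Spec (V)
open Vale.Agent.P159.TM.SpecC (Tor wT)
open Vale.Agent.P159.H363 (pin Nf lf acl Rcl Wcl)
open Vale.Agent.P159.H896 (Ph om)
open Vale.Agent.P159.H889 (VB)
open Vale.Agent.P159.H316 (Yn TyIn)
open Vale.Agent.P159.H972 (Par Good FL tn tn_pos lg)
open Vale.Agent.P159.H801 (FLC xa)
open Vale.Agent.P159.H37 (small_rpow lg_lo lg_hi)

noncomputable section

variable {N l : ℕ} [NeZero N] [NeZero (N / l)] {b t : ℝ}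

/-- the cell number of the torus -/
lemma cells_sq (hl : l ∣ N) (t : ℝ) : ((N / l : ℕ) : ℝ) ^ 2 * (t * (l : ℝ) ^ 2) = t * (N : ℝ) ^ 2 := by
  have hlp := lpos hl
  rw [Nat.cast_div hl hlp.ne']
  field_simp

/-- **(U), one torus**: the massless torus number below the carried activity -/
theorem yn_le_vb (hb : 0 < b) (hl : l ∣ N) (ht : 0 < t) {η p : ℝ} (hT : TyIn N l b t η p) {z : ℂ}
    {Δ ηc Lp E K K' : ℝ} {D : ℕ}
    (hV : VB N l b t (z * ((t * (l : ℝ) ^ 2 : ℝ) : ℂ)) (Δ * (t * (l : ℝ) ^ 2)) D ηc Lp E K K') :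
    Yn N b ≤ Real.exp (2 * Real.pi ^ 2 / (t * (N : ℝ) ^ 2)) *
      (t * (N : ℝ) ^ 2 * (‖z‖ * Real.exp (-(2 * Real.pi ^ 2 * vT (t * (l : ℝ) ^ 2)
        (acl N l b t t))) + Δ) + E
        + η * om (wT b N) (t • (1 : Matrix (V N) (V N) ℝ)) 1) := by
  have hlp := lpos hl
  have hA : Nf (acl N l b t t) := H197.nf_acl hb hl ht
  have hν : 0 < t * (l : ℝ) ^ 2 := by positivity
  obtain ⟨Ψ, ψ, lam, h1, h2, h3, -, h5, -⟩ := hV.ex
  have hY : ∀ a, 0 < a → a ≤ t → Yn N b ≤ Ex (H963.nMC N l b t a 0) 0 (H963.cq 1 0) := by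
    intro a ha hat
    exact (H316.Yn_le hb ha).trans (H316.omt_le_omh hb.le hl ha hat)
  have h := link_acl hb.le hl ht hA (0 : V N) hY hT.it hT.nm h1 h2 h3 h5
  refine h.trans (le_of_eq ?_)
  rw [norm_mul, Complex.norm_real, Real.norm_eq_abs, abs_of_pos hν, ← cells_sq hl t]
  ring

/-- **(L), one torus**: the carried activity below the activity at the natural mass -/
theorem vb_le_om (hb : 0 < b) (hl : l ∣ N) (ht : 0 < t) {z : ℂ}
    {Δ ηc Lp E K K' : ℝ} {D : ℕ}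
    (hV : VB N l b t (z * ((t * (l : ℝ) ^ 2 : ℝ) : ℂ)) (Δ * (t * (l : ℝ) ^ 2)) D ηc Lp E K K') :
    t * (N : ℝ) ^ 2 * (‖z‖ * Real.exp (-(2 * Real.pi ^ 2 * vT (t * (l : ℝ) ^ 2)
        (acl N l b t t))))
      ≤ om (wT b N) (t • (1 : Matrix (V N) (V N) ℝ)) 1 + t * (N : ℝ) ^ 2 * Δ + E := by
  have hlp := lpos hl
  have hA : Nf (acl N l b t t) := H197.nf_acl hb hl ht
  have hν : 0 < t * (l : ℝ) ^ 2 := by positivity
  obtain ⟨Ψ, ψ, lam, h1, h2, h3, -, h5, -⟩ := hV.ex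
  have h := link_ge_om hb.le ht hA h1 h2 h3 h5
  rw [norm_mul, Complex.norm_real, Real.norm_eq_abs, abs_of_pos hν] at h
  have e1 : ((N / l : ℕ) : ℝ) ^ 2 * (‖z‖ * (t * (l : ℝ) ^ 2) *
      Real.exp (-(2 * Real.pi ^ 2 * vT (t * (l : ℝ) ^ 2) (acl N l b t t)))
        - Δ * (t * (l : ℝ) ^ 2))
      = ((N / l : ℕ) : ℝ) ^ 2 * (t * (l : ℝ) ^ 2) * (‖z‖ *
      Real.exp (-(2 * Real.pi ^ 2 * vT (t * (l : ℝ) ^ 2) (acl N l b t t))))
        - ((N / l : ℕ) : ℝ) ^ 2 * (t * (l : ℝ) ^ 2) * Δ := by ring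
  rw [e1, cells_sq hl t] at h
  linarith

/-! ### the letters of LIST P_up -/

/-- growth of the activity between level `n` and the torus `2 ^ r` -/
def Gx (x : ℝ) (n r : ℕ) : ℝ := Real.exp (-(Real.pi * x * (((r : ℝ) - n) * Real.log 2)))

lemma Gx_pos (x : ℝ) (n r : ℕ) : 0 < Gx x n r := Real.exp_pos _

/-- the natural size of the torus -/
lemma four_pow_eq (n r : ℕ) : (4 : ℝ) ^ r / 4 ^ n = Real.exp (2 * (((r : ℝ) - n) * Real.log 2)) := by
  have h1 : (4 : ℝ) ^ r / 4 ^ n = Real.exp (Real.log ((4 : ℝ) ^ r / 4 ^ n)) :=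
    (Real.exp_log (by positivity)).symm
  rw [h1]
  congr 1
  rw [Real.log_div (by positivity) (by positivity), Real.log_pow, Real.log_pow,
    show (4 : ℝ) = 2 ^ 2 by norm_num, Real.log_pow]
  push_cast
  ring

lemma growth_up {a v : ℝ} {n r : ℕ} (ha : 0 < a)
    (h : ((r : ℝ) - n) * Real.log 2 / (2 * Real.pi * a) - 2 ≤ v) :
    (4 : ℝ) ^ r / 4 ^ n * Real.exp (-(2 * Real.pi ^ 2 * v))
      ≤ Real.exp 40 * Gx (a⁻¹ - 2 / Real.pi) n r := by
  have hp := Real.pi_pos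
  have hp2 := Real.pi_lt_d2
  rw [four_pow_eq, Gx, ← Real.exp_add, ← Real.exp_add, Real.exp_le_exp]
  have h1 : 2 * Real.pi ^ 2 * (((r : ℝ) - n) * Real.log 2 / (2 * Real.pi * a) - 2)
      ≤ 2 * Real.pi ^ 2 * v := mul_le_mul_of_nonneg_left h (by positivity)
  have h2 : 2 * Real.pi ^ 2 * (((r : ℝ) - n) * Real.log 2 / (2 * Real.pi * a) - 2)
      = Real.pi * a⁻¹ * (((r : ℝ) - n) * Real.log 2) - 4 * Real.pi ^ 2 := by
    field_simp
    ring
  have h3 : Real.pi * (a⁻¹ - 2 / Real.pi) * (((r : ℝ) - n) * Real.log 2)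
      = Real.pi * a⁻¹ * (((r : ℝ) - n) * Real.log 2) - 2 * (((r : ℝ) - n) * Real.log 2) := by
    field_simp
  have h4 : 4 * Real.pi ^ 2 ≤ 40 := by nlinarith
  rw [h3]
  linarith

lemma growth_lo {a v C3 : ℝ} {n r : ℕ} (ha : 0 < a)
    (h : v ≤ ((r : ℝ) - n) * Real.log 2 / (2 * Real.pi * a) + C3) :
    Real.exp (-(2 * Real.pi ^ 2 * C3)) * Gx (a⁻¹ - 2 / Real.pi) n r
      ≤ (4 : ℝ) ^ r / 4 ^ n * Real.exp (-(2 * Real.pi ^ 2 * v)) := by
  have hp := Real.pi_pos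
  rw [four_pow_eq, Gx, ← Real.exp_add, ← Real.exp_add, Real.exp_le_exp]
  have h1 : 2 * Real.pi ^ 2 * v
      ≤ 2 * Real.pi ^ 2 * (((r : ℝ) - n) * Real.log 2 / (2 * Real.pi * a) + C3) :=
    mul_le_mul_of_nonneg_left h (by positivity)
  have h2 : 2 * Real.pi ^ 2 * (((r : ℝ) - n) * Real.log 2 / (2 * Real.pi * a) + C3)
      = Real.pi * a⁻¹ * (((r : ℝ) - n) * Real.log 2) + 2 * Real.pi ^ 2 * C3 := by
    field_simp
  have h3 : Real.pi * (a⁻¹ - 2 / Real.pi) * (((r : ℝ) - n) * Real.log 2)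
      = Real.pi * a⁻¹ * (((r : ℝ) - n) * Real.log 2) - 2 * (((r : ℝ) - n) * Real.log 2) := by
    field_simp
  rw [h3]
  linarith

lemma two_le_cell {n s : ℕ} {e C1 : ℝ} (he : 0 < e) (he1 : e ≤ 1) (hC : 1 ≤ C1)
    (hs : (2 : ℝ) ^ s / 2 ^ n ≤ e ^ C1) : s ≤ n ∧ ((2 : ℝ) ^ n)⁻¹ ≤ e := by
  have h0 : e ^ C1 ≤ e := by
    calc e ^ C1 ≤ e ^ (1 : ℝ) := Real.rpow_le_rpow_of_exponent_ge he he1 hC
      _ = e := Real.rpow_one e
  have h1 : (2 : ℝ) ^ s / 2 ^ n ≤ e := hs.trans h0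
  constructor
  · by_contra hc
    push Not at hc
    have h2 : (2 : ℝ) ^ n < 2 ^ s := pow_lt_pow_right₀ (by norm_num) hc
    have h3 : 1 < (2 : ℝ) ^ s / 2 ^ n := by
      rw [one_lt_div (by positivity)]
      exact h2
    linarith
  · refine le_trans ?_ h1
    rw [inv_eq_one_div]
    exact div_le_div_of_nonneg_right (one_le_pow₀ (by norm_num)) (by positivity)

/-- **(U) and (L) in numbers**, one torus of the state, one state on this torus -/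
theorem link_num {b2 pf κ th thp C1 A : ℝ} (q0 : ℕ) (hb2 : 0 < b2) (hpf : 0 < pf) (hpf1 : pf ≤ 1)
    (hA : 1 ≤ A) (hth : 0 < th) (hthp : 0 < thp) (hq : κ < pf)
    (hC1 : pf + th + 4 * q0 * thp < C1) (hC11 : 1 ≤ C1) :
    ∃ E0, 0 < E0 ∧ E0 ≤ 1 ∧ ∀ P : Par, P.th = th → P.thp = thp → P.q0 = q0 →
      ∀ (b a e : ℝ) (n r s : ℕ) [NeZero (2 ^ r / 2 ^ s)], 0 < b → b ≤ b2 → 1 ≤ a → a ≤ 2 →
        0 < e → e ≤ E0 → P.TT n e r → (2 : ℝ) ^ s / 2 ^ n ≤ e ^ C1 →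
        (n : ℝ) - s ≤ e ^ (-κ) → FL b (tn n) a (A * e ^ pf) (2 ^ r) →
        ∀ (z : ℂ) (Δ ηc Lp E K K' : ℝ) (D : ℕ),
          VB (2 ^ r) (2 ^ s) b (tn n) (z * ((tn n * ((2 ^ s : ℕ) : ℝ) ^ 2 : ℝ) : ℂ))
            (Δ * (tn n * ((2 ^ s : ℕ) : ℝ) ^ 2)) D ηc Lp E K K' →
          (∀ η p, TyIn (2 ^ r) (2 ^ s) b (tn n) η p → Yn (2 ^ r) b ≤ Real.exp 60 *
            (Gx (a⁻¹ - 2 / Real.pi) n r * ‖z‖ + (4 : ℝ) ^ r / 4 ^ n * Δ + E
              + η * om (wT b (2 ^ r)) (tn n • (1 : Matrix (V (2 ^ r)) (V (2 ^ r)) ℝ)) 1)) ∧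
          Gx (a⁻¹ - 2 / Real.pi) n r * ‖z‖
            ≤ Real.exp (2 * Real.pi ^ 2 * (4100 * (3 * b2 + 1))) *
            (om (wT b (2 ^ r)) (tn n • (1 : Matrix (V (2 ^ r)) (V (2 ^ r)) ℝ)) 1
              + (4 : ℝ) ^ r / 4 ^ n * Δ + E) := by
  obtain ⟨E1, hE1, hE1', K1⟩ := H197.o2_num q0 hb2 hpf hpf1 hA hth hthp hq hC1
  refine ⟨E1, hE1, hE1', ?_⟩
  intro P p1 p2 p3 b a e n r s hnz hb hbb ha ha2 he hee hTT hs hns hF z Δ ηc Lp E K K' D hV
  have he1 : e ≤ 1 := hee.trans hE1'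
  obtain ⟨hsn, hn⟩ := two_le_cell he he1 hC11 hs
  obtain ⟨v1, v2⟩ := K1 P p1 p2 p3 b a e n r s hb hbb ha ha2 he hee hTT hsn hs hns hn hF
  have ha0 : 0 < a := by linarith
  have hnr : n ≤ r := by have := hTT.1; omega
  have hl : 2 ^ s ∣ 2 ^ r := pow_dvd_pow 2 (hsn.trans hnr)
  have ht := tn_pos n
  have hN := H197.tn_cast n r
  have hw := H896.wm_t (N := 2 ^ r) hb.le ht
  have ho0 := H896.om_nonneg hw 1
  have hE0 : 0 ≤ E := by
    obtain ⟨Ψ, ψ, lam, -, -, -, -, h5, -⟩ := hV.ex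
    exact (H889.tn2_nonneg _ _).trans h5
  have hlp : (0 : ℝ) < ((2 ^ s : ℕ) : ℝ) := by positivity
  have hΔ : 0 ≤ Δ := by
    obtain ⟨Ψ, ψ, lam, -, -, hden, -⟩ := hV.ex
    have := (H889.tn2_nonneg _ _).trans (hden.dev 0)
    exact nonneg_of_mul_nonneg_left this (by positivity)
  have h4 : (1 : ℝ) ≤ 4 ^ r / 4 ^ n := by
    rw [one_le_div (by positivity)]
    exact pow_le_pow_right₀ (by norm_num) hnr
  constructor
  · intro η p hT
    have h := yn_le_vb hb hl ht hT hV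
    rw [hN] at h
    have hup := mul_le_mul_of_nonneg_right (growth_up (n := n) (r := r) ha0 v1) (norm_nonneg z)
    have hη0 : 0 ≤ η := by
      have h5 := integral_mono (μ := H37.gau (V (2 ^ r / 2 ^ s))) (integrable_const (1 : ℝ)) hT.it
        fun g => H363.one_le_Wcl hb.le hl ht le_rfl _
      have h6 := h5.trans hT.nm
      simp at h6
      linarith
    have he20 : Real.exp (2 * Real.pi ^ 2 / ((4 : ℝ) ^ r / 4 ^ n)) ≤ Real.exp 20 := by
      rw [Real.exp_le_exp]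
      have hp2 := Real.pi_lt_d2
      have hp0 := Real.pi_pos
      exact (div_le_self (by positivity) h4).trans (by nlinarith)
    refine h.trans ?_
    have e40 : (1 : ℝ) ≤ Real.exp 40 := Real.one_le_exp (by norm_num)
    calc _ ≤ Real.exp 20 * (Real.exp 40 * (Gx (a⁻¹ - 2 / Real.pi) n r * ‖z‖
          + (4 : ℝ) ^ r / 4 ^ n * Δ + E
          + η * om (wT b (2 ^ r)) (tn n • (1 : Matrix (V (2 ^ r)) (V (2 ^ r)) ℝ)) 1)) := by
          refine mul_le_mul he20 ?_ ?_ (Real.exp_pos _).le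
          · set ω := om (wT b (2 ^ r)) (tn n • (1 : Matrix (V (2 ^ r)) (V (2 ^ r)) ℝ)) 1
            have k1 : 0 ≤ (4 : ℝ) ^ r / 4 ^ n * Δ + E + η * ω := by positivity
            have k2 : (4 : ℝ) ^ r / 4 ^ n * Δ + E + η * ω
                ≤ Real.exp 40 * ((4 : ℝ) ^ r / 4 ^ n * Δ + E + η * ω) :=
              le_mul_of_one_le_left k1 e40
            linarith
          · positivity
      _ = _ := by
          rw [← mul_assoc, ← Real.exp_add]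
          norm_num
  · have h := vb_le_om hb hl ht hV
    rw [hN] at h
    have hlo := mul_le_mul_of_nonneg_right (growth_lo (n := n) (r := r) ha0 v2) (norm_nonneg z)
    have h6 : Real.exp (-(2 * Real.pi ^ 2 * (4100 * (3 * b2 + 1))))
        * (Gx (a⁻¹ - 2 / Real.pi) n r * ‖z‖)
        ≤ om (wT b (2 ^ r)) (tn n • (1 : Matrix (V (2 ^ r)) (V (2 ^ r)) ℝ)) 1
          + (4 : ℝ) ^ r / 4 ^ n * Δ + E := by
      linarith
    have h7 : Real.exp (2 * Real.pi ^ 2 * (4100 * (3 * b2 + 1)))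
        * Real.exp (-(2 * Real.pi ^ 2 * (4100 * (3 * b2 + 1)))) = 1 := by
      rw [← Real.exp_add]
      simp
    calc Gx (a⁻¹ - 2 / Real.pi) n r * ‖z‖
        = Real.exp (2 * Real.pi ^ 2 * (4100 * (3 * b2 + 1)))
          * (Real.exp (-(2 * Real.pi ^ 2 * (4100 * (3 * b2 + 1))))
          * (Gx (a⁻¹ - 2 / Real.pi) n r * ‖z‖)) := by
          rw [← mul_assoc, h7, one_mul]
      _ ≤ _ := mul_le_mul_of_nonneg_left h6 (Real.exp_pos _).le

/-- the growth is a small power of the size of the torus -/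
lemma Gx_le {x δ X : ℝ} {n r : ℕ} (hnr : n ≤ r) (hδ : 0 ≤ δ) (hδ1 : δ ≤ 1)
    (hx : Real.pi * |x| ≤ 2 * δ) {T0 W0 e : ℝ} (he : 0 < e) (hT0 : 1 ≤ T0)
    (hX : X = (4 : ℝ) ^ r / 4 ^ n) (h : X ≤ T0 * e ^ (-W0)) :
    Gx x n r ≤ T0 * e ^ (-(W0 * δ)) ∧ 1 ≤ Gx x n r * (T0 * e ^ (-(W0 * δ))) := by
  have hp := Real.pi_pos
  have hL : 0 ≤ ((r : ℝ) - n) * Real.log 2 := by
    have h1 : (n : ℝ) ≤ r := by exact_mod_cast hnr
    exact mul_nonneg (by linarith) (Real.log_nonneg (by norm_num))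
  have hXe : X ^ δ = Real.exp (2 * (((r : ℝ) - n) * Real.log 2) * δ) := by
    rw [hX, four_pow_eq, ← Real.exp_mul]
  have hX0 : 0 ≤ X := by
    rw [hX]
    positivity
  have h1 : X ^ δ ≤ T0 * e ^ (-(W0 * δ)) := by
    calc X ^ δ ≤ (T0 * e ^ (-W0)) ^ δ := Real.rpow_le_rpow hX0 h hδ
      _ = T0 ^ δ * e ^ (-(W0 * δ)) := by
          rw [Real.mul_rpow (by linarith) (Real.rpow_pos_of_pos he _).le, ← Real.rpow_mul he.le,
            neg_mul]
      _ ≤ T0 ^ (1 : ℝ) * e ^ (-(W0 * δ)) :=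
          mul_le_mul_of_nonneg_right (Real.rpow_le_rpow_of_exponent_le hT0 hδ1)
            (Real.rpow_pos_of_pos he _).le
      _ = _ := by rw [Real.rpow_one]
  have h2 : |Real.pi * x * (((r : ℝ) - n) * Real.log 2)|
      ≤ 2 * (((r : ℝ) - n) * Real.log 2) * δ := by
    rw [abs_mul, abs_mul, abs_of_pos hp, abs_of_nonneg hL]
    have := mul_le_mul_of_nonneg_right hx hL
    linarith
  have h3 := abs_le.1 h2
  constructor
  · refine le_trans ?_ h1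
    rw [hXe, Gx, Real.exp_le_exp]
    linarith [h3.1]
  · have h4 : 1 ≤ Gx x n r * X ^ δ := by
      rw [hXe, Gx, ← Real.exp_add]
      refine Real.one_le_exp ?_
      linarith [h3.2]
    exact h4.trans (mul_le_mul_of_nonneg_left h1 (Gx_pos x n r).le)

/-- the last estimate -/
lemma ev_alg {e k th T0 W0 δ G Y z X Δ E η ω c c3 : ℝ} (he : 0 < e) (he1 : e ≤ 1)
    (hT01 : 1 ≤ T0) (hδW : W0 * δ ≤ k * th / 2) (hkt : 0 < k * th)
    (q2 : c * T0 * e ^ (k * th / 2) ≤ 1) (q3 : c3 * T0 * e ^ (k * th / 2) ≤ 1) (hc : 0 ≤ c)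
    (g1 : G ≤ T0 * e ^ (-(W0 * δ))) (g2 : 1 ≤ G * (T0 * e ^ (-(W0 * δ)))) (hG0 : 0 < G)
    (hz : 0 ≤ z) (hX0 : 0 ≤ X) (hΔ : 0 ≤ Δ) (hE0 : 0 ≤ E) (hω : 0 ≤ ω) :
    (0 ≤ η → Y ≤ c * (G * z + X * Δ + E + η * ω) →
      Y ≤ e ^ (-(k * th)) * (z + X * Δ + E + η * ω)) ∧
    (G * z ≤ c3 * (ω + X * Δ + E) → z ≤ e ^ (-(k * th)) * (ω + X * Δ + E)) := by
  have g3 : T0 * e ^ (-(W0 * δ)) ≤ T0 * e ^ (-(k * th / 2)) :=
    mul_le_mul_of_nonneg_left (Real.rpow_le_rpow_of_exponent_ge he he1 (by linarith))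
      (by linarith)
  have hee : e ^ (-(k * th / 2)) = e ^ (-(k * th)) * e ^ (k * th / 2) := by
    rw [← Real.rpow_add he]
    congr 1
    ring
  have hp1 : 0 < e ^ (-(k * th)) := Real.rpow_pos_of_pos he _
  have hpw : ∀ c : ℝ, c * T0 * e ^ (k * th / 2) ≤ 1 →
      c * (T0 * e ^ (-(k * th / 2))) ≤ e ^ (-(k * th)) := by
    intro c hc
    calc c * (T0 * e ^ (-(k * th / 2))) = e ^ (-(k * th)) * (c * T0 * e ^ (k * th / 2)) := by
          rw [hee]; ring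
      _ ≤ e ^ (-(k * th)) * 1 := mul_le_mul_of_nonneg_left hc hp1.le
      _ = _ := mul_one _
  have h9 : (1 : ℝ) ≤ e ^ (-(k * th / 2)) :=
    Real.one_le_rpow_of_pos_of_le_one_of_nonpos he he1 (by linarith)
  have hone : (1 : ℝ) ≤ T0 * e ^ (-(k * th / 2)) := one_le_mul_of_one_le_of_one_le hT01 h9
  constructor
  · intro hη0 hU
    refine hU.trans ?_
    have h10 : G * z + X * Δ + E + η * ω
        ≤ (T0 * e ^ (-(k * th / 2))) * (z + X * Δ + E + η * ω) := by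
      have k1 : G * z ≤ (T0 * e ^ (-(k * th / 2))) * z :=
        mul_le_mul_of_nonneg_right (g1.trans g3) hz
      have k2 : X * Δ + E + η * ω ≤ (T0 * e ^ (-(k * th / 2))) * (X * Δ + E + η * ω) :=
        le_mul_of_one_le_left (by positivity) hone
      linarith
    calc _ ≤ c * ((T0 * e ^ (-(k * th / 2))) * (z + X * Δ + E + η * ω)) :=
          mul_le_mul_of_nonneg_left h10 hc
      _ = (c * (T0 * e ^ (-(k * th / 2)))) * (z + X * Δ + E + η * ω) := by ring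
      _ ≤ _ := mul_le_mul_of_nonneg_right (hpw _ q2) (by positivity)
  · intro L
    have g4 : 1 ≤ G * (T0 * e ^ (-(k * th / 2))) :=
      g2.trans (mul_le_mul_of_nonneg_left g3 hG0.le)
    have hT0e : 0 ≤ T0 * e ^ (-(k * th / 2)) := by linarith
    calc z ≤ (G * (T0 * e ^ (-(k * th / 2)))) * z := le_mul_of_one_le_left hz g4
      _ = (T0 * e ^ (-(k * th / 2))) * (G * z) := by ring
      _ ≤ (T0 * e ^ (-(k * th / 2))) * (c3 * (ω + X * Δ + E)) :=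
          mul_le_mul_of_nonneg_left L hT0e
      _ = (c3 * (T0 * e ^ (-(k * th / 2)))) * (ω + X * Δ + E) := by ring
      _ ≤ _ := mul_le_mul_of_nonneg_right (hpw _ q3) (by positivity)

/-- **LINK IN THE ORDER OF CONSTANTS** (helper316, 6763): one torus of a state, (U) and (L), with
arbitrarily small powers of `K = e ^ (-th)` -/
theorem link_Ev {b1 b2 pf C1 k : ℝ} {Q : ℕ} (hb2 : 0 < b2) (hpf : 1 / 2 < pf) (hpf1 : pf ≤ 1)
    (hC1 : pf < C1) (hC11 : 1 ≤ C1) (hk : 0 < k) :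
    H801.Ev b1 b2 pf Q fun P _ => ∀ (b : ℝ) (a : ℕ → ℝ), 0 < b → b ≤ b2 → FLC P b a →
      Tendsto a atTop (𝓝 (Real.pi / 2)) → ∀ᶠ n in atTop, ∀ (ε e : ℝ) (r s : ℕ)
        [NeZero (2 ^ r / 2 ^ s)], 0 < ε → ε ≤ e → e ≤ P.es → Good P b n ε → P.TT n e r →
        (2 : ℝ) ^ s / 2 ^ n ≤ e ^ C1 → (n : ℝ) - s ≤ e ^ (-(1 / 2 : ℝ)) →
        ∀ (z : ℂ) (Δ ηc Lp E K K' : ℝ) (D : ℕ),
          VB (2 ^ r) (2 ^ s) b (tn n) (z * ((tn n * ((2 ^ s : ℕ) : ℝ) ^ 2 : ℝ) : ℂ))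
            (Δ * (tn n * ((2 ^ s : ℕ) : ℝ) ^ 2)) D ηc Lp E K K' →
          (∀ η p, TyIn (2 ^ r) (2 ^ s) b (tn n) η p → Yn (2 ^ r) b ≤ e ^ (-(k * P.th)) *
            (‖z‖ + (4 : ℝ) ^ r / 4 ^ n * Δ + E
              + η * om (wT b (2 ^ r)) (tn n • (1 : Matrix (V (2 ^ r)) (V (2 ^ r)) ℝ)) 1)) ∧
          ‖z‖ ≤ e ^ (-(k * P.th)) *
            (om (wT b (2 ^ r)) (tn n • (1 : Matrix (V (2 ^ r)) (V (2 ^ r)) ℝ)) 1
              + (4 : ℝ) ^ r / 4 ^ n * Δ + E) := by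
  apply H801.Ev.of
  have hc0 : 0 < C1 - pf := by linarith
  refine ⟨0, fun W _ => ⟨1, one_pos, fun ys _ _ => ⟨0, fun X0 _ => ⟨(C1 - pf) / 16, by positivity,
    fun x1 hx1 hx1r => ⟨(C1 - pf) / (16 * ((Q : ℝ) + 3)), by positivity, fun thp hthp hthpr =>
    ⟨(C1 - pf) / 4, by positivity, fun th hth hth1 => ⟨0, fun C0 _ => ⟨1, one_pos,
    fun c1 hc1 hc1th => ?_⟩⟩⟩⟩⟩⟩⟩⟩
  set q0 : ℕ := Q + ⌈x1 / thp⌉₊ + 2 with hq0
  have hq0thp : (q0 : ℝ) * thp ≤ x1 + (Q + 3) * thp := by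
    rw [hq0]
    push_cast
    have h2 : (⌈x1 / thp⌉₊ : ℝ) ≤ x1 / thp + 1 := (Nat.ceil_lt_add_one (by positivity)).le
    have h3 : (⌈x1 / thp⌉₊ : ℝ) * thp ≤ x1 + thp := by
      calc (⌈x1 / thp⌉₊ : ℝ) * thp ≤ (x1 / thp + 1) * thp := by gcongr
        _ = x1 + thp := by field_simp
    linarith
  have hQ3 : ((Q : ℝ) + 3) * thp ≤ (C1 - pf) / 16 := by
    have h0 : (0 : ℝ) < (Q : ℝ) + 3 := by positivity
    have h1 := mul_le_mul_of_nonneg_left hthpr h0.le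
    have h2 : ((Q : ℝ) + 3) * ((C1 - pf) / (16 * ((Q : ℝ) + 3))) = (C1 - pf) / 16 := by
      field_simp
    linarith
  have hCC : pf + th + 4 * q0 * thp < C1 := by
    have : 4 * (q0 : ℝ) * thp = 4 * ((q0 : ℝ) * thp) := by ring
    linarith
  obtain ⟨E1, hE1, hE1', K1⟩ := link_num (b2 := b2) (pf := pf) (κ := 1 / 2) (th := th) (thp := thp)
    (C1 := C1) (A := 17) q0 hb2 (by linarith) hpf1 (by norm_num) hth hthp hpf hCC hC11
  set W0 : ℝ := 2 * (th + 4 * q0 * thp) with hW0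
  have hW0p : 0 < W0 := by
    have : 0 ≤ 4 * (q0 : ℝ) * thp := by positivity
    rw [hW0]
    linarith
  set T0 : ℝ := 4 ^ (1 + 4 * q0) with hT0
  have hT01 : 1 ≤ T0 := one_le_pow₀ (by norm_num)
  set δ : ℝ := min 1 (k * th / (2 * W0)) with hδ
  have hkt : 0 < k * th := by positivity
  have hδ0 : 0 < δ := by rw [hδ]; positivity
  have hδ1 : δ ≤ 1 := min_le_left _ _
  have hδW : W0 * δ ≤ k * th / 2 := by
    calc W0 * δ ≤ W0 * (k * th / (2 * W0)) :=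
          mul_le_mul_of_nonneg_left (min_le_right _ _) hW0p.le
      _ = k * th / 2 := by field_simp
  obtain ⟨e2, he2, k2⟩ := small_rpow (s := k * th / 2) (A := Real.exp 60 * T0) (B := 1)
    (by positivity) one_pos
  obtain ⟨e3, he3, k3⟩ := small_rpow (s := k * th / 2)
    (A := Real.exp (2 * Real.pi ^ 2 * (4100 * (3 * b2 + 1))) * T0) (B := 1)
    (by positivity) one_pos
  refine ⟨min E1 (min e2 e3), by positivity, ?_⟩
  intro P hP b a hb hbb hF ha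
  have hp := Real.pi_pos
  have hp3 := Real.pi_gt_three
  have hp2 := Real.pi_lt_d2
  have ha1 : ∀ᶠ n in atTop, 1 ≤ a n ∧ a n ≤ 2 := by
    have h1 := ha.eventually (Icc_mem_nhds (show (1 : ℝ) < Real.pi / 2 by linarith)
      (show Real.pi / 2 < 2 by linarith))
    exact h1.mono fun n hn => ⟨hn.1, hn.2⟩
  have hx0 : Tendsto (xa a) atTop (𝓝 0) := by
    have h1 := (ha.inv₀ (by positivity)).sub_const (2 / Real.pi)
    rw [show (Real.pi / 2)⁻¹ - 2 / Real.pi = 0 by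
      rw [inv_div, sub_self]] at h1
    exact h1
  have hx1' : ∀ᶠ n in atTop, Real.pi * |xa a n| ≤ 2 * δ := by
    have h1 := (hx0.abs).eventually (ge_mem_nhds (show |(0 : ℝ)| < 2 * δ / Real.pi by
      rw [abs_zero]; positivity))
    refine h1.mono fun n hn => ?_
    have := mul_le_mul_of_nonneg_left hn hp.le
    calc Real.pi * |xa a n| ≤ Real.pi * (2 * δ / Real.pi) := this
      _ = 2 * δ := by field_simp
  filter_upwards [ha1, hx1'] with n hn1 hn2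
  intro ε e r s _ hε hεe hes hG hTT hs hns z Δ ηc Lp E K K' D hV
  have he : 0 < e := hε.trans_le hεe
  have hem : e ≤ min E1 (min e2 e3) := hes.trans hP.ees
  have heE : e ≤ E1 := hem.trans (min_le_left _ _)
  have he1 : e ≤ 1 := heE.trans hE1'
  have q2 := k2 e he (hem.trans ((min_le_right _ _).trans (min_le_left _ _)))
  have q3 := k3 e he (hem.trans ((min_le_right _ _).trans (min_le_right _ _)))
  have eq0 : P.q0 = q0 := hP.eq0
  have hFL := hF n ε hε (hεe.trans hes) hG e hεe hes r hTT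
  rw [hP.epf] at hFL
  obtain ⟨U, L⟩ := K1 P hP.eth hP.ethp eq0 b (a n) e n r s hb hbb hn1.1 hn1.2 he heE hTT hs hns
    hFL z Δ ηc Lp E K K' D hV
  have hnr : n ≤ r := by have := hTT.1; omega
  have h6 := H197.fl_tor (P := P) (m := n) he he1 hTT.2
  rw [hP.eth, hP.ethp, eq0] at h6
  obtain ⟨g1, g2⟩ := Gx_le (x := xa a n) (T0 := T0) (W0 := W0) hnr hδ0.le hδ1 hn2 he hT01 rfl h6
  have hxa : (a n)⁻¹ - 2 / Real.pi = xa a n := rfl
  rw [hxa] at U L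
  have hΔ : 0 ≤ Δ := by
    obtain ⟨Ψ, ψ, lam, -, -, hden, -⟩ := hV.ex
    have h7 := (H889.tn2_nonneg _ _).trans (hden.dev 0)
    have h8 : 0 < tn n * ((2 ^ s : ℕ) : ℝ) ^ 2 := mul_pos (tn_pos n) (by positivity)
    exact nonneg_of_mul_nonneg_left h7 h8
  have hE0 : 0 ≤ E := by
    obtain ⟨Ψ, ψ, lam, -, -, -, -, h5, -⟩ := hV.ex
    exact (H889.tn2_nonneg _ _).trans h5
  have ho0 := H896.om_nonneg (H896.wm_t (N := 2 ^ r) hb.le (tn_pos n)) 1
  set ω := om (wT b (2 ^ r)) (tn n • (1 : Matrix (V (2 ^ r)) (V (2 ^ r)) ℝ)) 1 with hω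
  have hX0 : (0 : ℝ) ≤ (4 : ℝ) ^ r / 4 ^ n := by positivity
  have hfin := fun (η Y : ℝ) => ev_alg (η := η) (Y := Y) (k := k) (th := th) (δ := δ) he he1 hT01 hδW
    hkt q2 q3 (Real.exp_pos _).le g1 g2 (Gx_pos _ _ _) (norm_nonneg z) hX0 hΔ hE0 ho0
  rw [hP.eth]
  constructor
  · intro η p hT
    have hη0 : 0 ≤ η := by
      have hl : 2 ^ s ∣ 2 ^ r :=
        pow_dvd_pow 2 ((two_le_cell he he1 hC11 hs).1.trans hnr)
      have h5 := integral_mono (μ := H37.gau (V (2 ^ r / 2 ^ s))) (integrable_const (1 : ℝ)) hT.it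
        fun g => H363.one_le_Wcl hb.le hl (tn_pos n) le_rfl _
      have h6 := h5.trans hT.nm
      simp at h6
      linarith
    exact (hfin η _).1 hη0 (U η p hT)
  · exact (hfin 0 0).2 L

end

end Vale.Agent.P159.LNK
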