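import Vale.Agent.P159.H963.LnkP
import Vale.Agent.P159.H316.St1
import Vale.Agent.P159.H816.Tyin
import Vale.Agent.P159.H43.P7
import Vale.Agent.P159.H801.Sp1

/-!
P159 (helper963), item (E) of helper316's division of START (row 8601): `LKU` and `LKL` of St1 in
the order of constants, from `link_Ev`, `H816.ev_tyK` and `H43.om_tor`.
-/

set_option linter.unusedSectionVars false
set_option linter.unusedVariables false

namespace Vale.Agent.P159.H963.Lk2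

open Filter Topology
open Vale.Agent.P159.TM.Spec (V)
open Vale.Agent.P159.TM.SpecC (Tor wT)
open Vale.Agent.P159.H864 (yt)
open Vale.Agent.P159.H896 (om)
open Vale.Agent.P159.H145 (mt)
open Vale.Agent.P159.H972 (Par Good GP lg tn)
open Vale.Agent.P159.H801 (Ev PS FLC)
open Vale.Agent.P159.H889 (Cx VB lam nu Dc QP)
open Vale.Agent.P159.H316 (V1 LKU LKL Yn TyIn)

noncomputable section

variable {P : Par} {b C1 c1 e y : ℝ} {n s : ℕ}

/-- the cells of a level against `sE` -/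
lemma cx_cell (h : Cx P b C1 c1 n s e y) (hC0 : P.C0 ≤ C1) (hC1 : 1 ≤ C1) :
    s ≤ P.sE n e ∧ (2 : ℝ) ^ s / 2 ^ n ≤ e ^ (1 : ℝ) := by
  have he0 := h.e0
  have he1 : e ≤ 1 := h.e1.trans (by norm_num)
  have hup := h.up (by linarith)
  unfold H889.lam at hup
  have hsn : s < n := h.sn (by linarith)
  refine ⟨?_, hup.trans (Real.rpow_le_rpow_of_exponent_ge he0 he1 hC1)⟩
  have h1 : (2 : ℝ) ^ s / 2 ^ n ≤ e ^ P.C0 :=
    hup.trans (Real.rpow_le_rpow_of_exponent_ge he0 he1 hC0)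
  have h2 : (2 : ℝ) ^ s / 2 ^ n = ((2 : ℝ) ^ (n - s))⁻¹ := by
    rw [div_eq_iff (by positivity), ← Nat.sub_add_cancel hsn.le, pow_add, Nat.add_sub_cancel]
    field_simp
  rw [h2] at h1
  have h3 : P.C0 * Real.logb 2 (1 / e) ≤ ((n - s : ℕ) : ℝ) := by
    have h4 := Real.logb_le_logb_of_le (b := 2) one_lt_two (by positivity) h1
    rw [Real.logb_inv, Real.logb_pow, Real.logb_self_eq_one one_lt_two, mul_one,
      Real.logb_rpow_eq_mul_logb_of_pos he0] at h4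
    rw [one_div, Real.logb_inv]
    linarith
  have h5 : lg P.C0 e ≤ n - s := by
    unfold H972.lg
    exact Nat.ceil_le.2 h3
  unfold Par.sE
  omega

/-- **(E): `LKU` and `LKL` in the order of constants** -/
theorem lk_Ev {b b1 b2 : ℝ} (hb1 : 0 < b1) (h1 : b1 ≤ b) (h2 : b ≤ b2) (Q : ℕ) (K : ℝ) {κ : ℝ}
    (hκ : 0 < κ) :
    Ev b1 b2 (9 / 10) Q fun P c1 => ∀ C1, 1 ≤ C1 → P.C0 ≤ C1 → C1 ≤ K * P.C0 →
      ∀ (A1 : ℝ) (a : ℕ → ℝ), FLC P b a → Tendsto a atTop (𝓝 (Real.pi / 2)) →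
        ∀ᶠ N0 in atTop, LKU P b C1 c1 A1 κ N0 ∧ LKL P b C1 c1 A1 κ N0 := by
  have hb : 0 < b := hb1.trans_le h1
  have hb2 : 0 < b2 := hb.trans_le h2
  -- numbers of the cells and of the window
  have hnum : Ev b1 b2 (9 / 10) Q fun P c1 => 0 < c1 ∧ c1 ≤ 1 / 4 ∧ P.th ≤ P.thp ∧
      (∀ C1, 1 ≤ C1 → C1 ≤ K * P.C0 → ∀ (n s : ℕ) (e y : ℝ), Cx P b C1 c1 n s e y →
        ((n - s : ℕ) : ℝ) ≤ e ^ (-(2 * c1)) ∧ s < n) ∧
      ∀ e, 0 < e → e ≤ P.es → 16 ≤ e ^ (-(16 * P.thp)) := by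
    refine H801.Ev.of ⟨0, fun W _ => ⟨1, one_pos, fun ys _ _ => ⟨0, fun X0 _ => ⟨1, one_pos,
      fun x1 _ _ => ⟨1, one_pos, fun thp hthp _ => ⟨thp, hthp, fun th _ hth => ⟨1, fun C0 hC0 =>
      ⟨1 / 4, by norm_num, fun c1 hc hc' => ?_⟩⟩⟩⟩⟩⟩⟩⟩
    obtain ⟨E0, hE0, hF⟩ := H889.Cx.loC (Cm := max (K * C0) 1) (c1 := c1)
      (lt_of_lt_of_le one_pos (le_max_right _ _)) hc
    obtain ⟨E1, hE1, hE1'⟩ := mem_nhdsGT_iff_exists_Ioc_subset.1
      (H816.ev_ge (show (0 : ℝ) < 16 * thp by positivity) 16)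
    have hE1p : (0 : ℝ) < E1 := hE1
    refine ⟨min E0 E1, lt_min hE0 hE1p, fun P hP => ⟨hc, hc', ?_, ?_, ?_⟩⟩
    · rw [hP.eth, hP.ethp]
      exact hth
    · intro C1 hC1 hCK n s e y hX
      rw [hP.eC0] at hCK
      have h3 := hF C1 (by linarith) (hCK.trans (le_max_left _ _)) P b n s e y
        (hX.es.trans (hP.ees.trans (min_le_left _ _))) hX
      exact ⟨h3.2.1, h3.2.2⟩
    · intro e he hes
      rw [hP.ethp]
      exact hE1' ⟨he, hes.trans (hP.ees.trans (min_le_right _ _))⟩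
  refine (((LNK.link_Ev (b1 := b1) (b2 := b2) (pf := 9 / 10) (C1 := 1) (k := κ) (Q := Q) hb2
    (by norm_num) (by norm_num) (by norm_num) le_rfl hκ).and
    (H816.ev_tyK (b2 := b2) hb1 h1 (by norm_num : (0 : ℝ) < 9 / 10) Q
      (by norm_num : (0 : ℝ) < 30))).and hnum).mono fun P c1 _ hT => ?_
  obtain ⟨⟨hL, hTy⟩, hc0, hc1, hthp, hcell, hsm⟩ := hT
  intro C1 hC1 hC0 hCK A1 a hFL ha
  obtain ⟨N1, hN1⟩ := eventually_atTop.1 (hL b a hb h2 hFL ha)
  refine eventually_atTop.2 ⟨N1, fun N0 hN0 => ?_⟩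
  -- the common part
  have key : ∀ (n s r : ℕ) (e y Y : ℝ) (ζ : ℂ) (Δ E : ℝ), N0 ≤ n → Cx P b C1 c1 n s e y →
      P.TT n e r → r ≤ n + P.kE e + P.w e → yt (2 ^ r) b (4 * tn n) ≤ Y →
      4 * (((2 : ℝ) ^ (r - n)) ^ 2 * Y) ≤ 1 → V1 P b A1 n s e r ζ Δ E →
      Yn (2 ^ r) b ≤ e ^ (-(κ * P.th)) *
        (‖ζ‖ + (4 : ℝ) ^ r / 4 ^ n * Δ + E + e ^ (10 * P.thp) * Y) ∧
      ‖ζ‖ ≤ e ^ (-(κ * P.th)) * (((2 : ℝ) ^ (r - n)) ^ 2 * Y + (4 : ℝ) ^ r / 4 ^ n * Δ + E) := by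
    intro n s r e y Y ζ Δ E hn hX hr hrw hy hs hV
    have he0 := hX.e0
    have he1 : e ≤ 1 := hX.e1.trans (by norm_num)
    obtain ⟨c1', hsn⟩ := hcell C1 hC1 hCK n s e y hX
    obtain ⟨hsE, hlam⟩ := cx_cell hX hC0 hC1
    have hnr : n ≤ r := (Nat.le_add_right _ _).trans hr.1
    have hdiv : 2 ^ s ∣ 2 ^ r := pow_dvd_pow 2 (hsn.le.trans hnr)
    have : NeZero (2 ^ r / 2 ^ s) :=
      ⟨(Nat.div_pos (Nat.le_of_dvd (by positivity) hdiv) (by positivity)).ne'⟩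
    have hns : (n : ℝ) - s ≤ e ^ (-(2 * c1)) := by
      rw [← Nat.cast_sub hsn.le]
      exact c1'
    have hns' : (n : ℝ) - s ≤ e ^ (-(1 / 2 : ℝ)) :=
      hns.trans (Real.rpow_le_rpow_of_exponent_ge he0 he1 (by linarith))
    obtain ⟨Lp, hVB⟩ := hV
    obtain ⟨τ, a', -, -, hGP⟩ := hX.G
    have hty := hTy n e τ a' he0 hX.es (hGP e le_rfl hX.es) r hr s hsE hX.ns hns (tn n) le_rfl
      (by have := H816.tn_pos n; linarith)
    obtain ⟨m1, m2⟩ := hN1 n (hN0.trans hn) e e r s he0 le_rfl hX.es hX.G hr hlam hns' ζ Δ _ Lp E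
      _ _ _ hVB
    have hom := H43.om_tor (b := b) (n := n) (r := r) (Y := Y) hb hnr hy hs
      (T := tn n) (H816.tn_pos n) (by have := H816.tn_pos n; linarith)
    have hom' : om (wT b (2 ^ r)) (tn n • (1 : Matrix (V (2 ^ r)) (V (2 ^ r)) ℝ)) 1 ≤
        (2 ^ (r - n)) ^ 2 * Y := hom
    have hκ0 : 0 ≤ e ^ (-(κ * P.th)) := Real.rpow_nonneg he0.le _
    refine ⟨?_, ?_⟩
    · refine (m1 _ _ hty).trans (mul_le_mul_of_nonneg_left ?_ hκ0)
      have hη : 0 < e ^ (30 * P.thp) := Real.rpow_pos_of_pos he0 _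
      have h3 : e ^ (30 * P.thp) *
          om (wT b (2 ^ r)) (tn n • (1 : Matrix (V (2 ^ r)) (V (2 ^ r)) ℝ)) 1 ≤
          e ^ (30 * P.thp) * ((2 ^ (r - n)) ^ 2 * Y) := mul_le_mul_of_nonneg_left hom' hη.le
      have hY0 : 0 ≤ Y := by
        have h4 : 0 ≤ om (wT b (2 ^ r)) (tn n • (1 : Matrix (V (2 ^ r)) (V (2 ^ r)) ℝ)) 1 :=
          H896.om_nonneg (H896.wp_t (N := 2 ^ r) hb.le (H816.tn_pos n)).toWM 1
        have h5 : 0 ≤ ((2 : ℝ) ^ (r - n)) ^ 2 * Y := h4.trans hom'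
        exact nonneg_of_mul_nonneg_right h5 (by positivity)
      -- the size of the torus
      have hR : ((2 : ℝ) ^ (r - n)) ^ 2 ≤ e ^ (-(20 * P.thp)) := by
        have hthp0 := P.thp0
        have hth0 := P.th0
        have k1 : (2 : ℝ) ^ (r - n) ≤ 2 ^ (P.kE e + P.w e) :=
          pow_le_pow_right₀ one_le_two (by omega)
        have k2 : (2 : ℝ) ^ P.kE e ≤ 2 * e ^ (-P.th) := H801.two_lg P.th0.le he0 he1
        have k3 : (2 : ℝ) ^ P.w e ≤ 2 * e ^ (-P.thp) := H801.two_lg P.thp0.le he0 he1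
        have k4 : e ^ (-P.th) ≤ e ^ (-P.thp) :=
          Real.rpow_le_rpow_of_exponent_ge he0 he1 (by linarith)
        have k5 : 0 < e ^ (-P.thp) := Real.rpow_pos_of_pos he0 _
        have k6 : (2 : ℝ) ^ (r - n) ≤ 4 * (e ^ (-P.thp) * e ^ (-P.thp)) := by
          rw [pow_add] at k1
          have k7 : (2 : ℝ) ^ P.kE e ≤ 2 * e ^ (-P.thp) := by linarith
          calc (2 : ℝ) ^ (r - n) ≤ 2 ^ P.kE e * 2 ^ P.w e := k1
            _ ≤ (2 * e ^ (-P.thp)) * (2 * e ^ (-P.thp)) :=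
                mul_le_mul k7 k3 (by positivity) (by positivity)
            _ = _ := by ring
        have k8 : e ^ (-P.thp) * e ^ (-P.thp) = e ^ (-(2 * P.thp)) := by
          rw [← Real.rpow_add he0]
          congr 1
          ring
        rw [k8] at k6
        have k9 : (e ^ (-(2 * P.thp))) ^ 2 = e ^ (-(4 * P.thp)) := by
          rw [← Real.rpow_natCast, ← Real.rpow_mul he0.le]
          congr 1
          push_cast
          ring
        have k10 := hsm e he0 hX.es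
        calc ((2 : ℝ) ^ (r - n)) ^ 2 ≤ (4 * e ^ (-(2 * P.thp))) ^ 2 :=
              pow_le_pow_left₀ (by positivity) k6 2
          _ = 16 * e ^ (-(4 * P.thp)) := by rw [mul_pow, k9]; norm_num
          _ ≤ e ^ (-(16 * P.thp)) * e ^ (-(4 * P.thp)) :=
              mul_le_mul_of_nonneg_right k10 (Real.rpow_nonneg he0.le _)
          _ = e ^ (-(20 * P.thp)) := by
              rw [← Real.rpow_add he0]
              congr 1
              ring
      have h6 : e ^ (30 * P.thp) * ((2 ^ (r - n)) ^ 2 * Y) ≤ e ^ (10 * P.thp) * Y := by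
        calc e ^ (30 * P.thp) * ((2 ^ (r - n)) ^ 2 * Y)
            ≤ e ^ (30 * P.thp) * (e ^ (-(20 * P.thp)) * Y) :=
              mul_le_mul_of_nonneg_left (mul_le_mul_of_nonneg_right hR hY0) hη.le
          _ = (e ^ (30 * P.thp) * e ^ (-(20 * P.thp))) * Y := by ring
          _ = e ^ (10 * P.thp) * Y := by
              rw [← Real.rpow_add he0]
              congr 2
              ring
      linarith
    · refine m2.trans (mul_le_mul_of_nonneg_left ?_ hκ0)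
      linarith
  refine ⟨?_, ?_⟩
  · intro n s r e y Y ζ Δ E hn hX hr hrw hy hs hV
    exact (key n s r e y Y ζ Δ E hn hX hr hrw hy (by linarith) hV).1
  · intro n s r e y Y ζ Δ E hn hX hr hrw hy hs hV
    exact (key n s r e y Y ζ Δ E hn hX hr hrw hy (by linarith) hV).2

end

end Vale.Agent.P159.H963.Lk2
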