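import Vale.Agent.P159.H963.TransT
import Vale.Agent.P159.H708.Coarse
import Vale.Agent.P159.H889.Vwin

/-!
P159 / module VB6 (helper963): the charge-one state of helper889 (`Den`) under coarse graining of
the cells, in the letters of helper708 (`Ac`, `m2`, `Bm`).
-/

namespace Vale.Agent.P159.H963

open MeasureTheory ProbabilityTheory Finset Matrix
open Vale.Agent.P159.H37 (gau)
open Vale.Agent.P159.H363
open Vale.Agent.P159.H864 (cl up TI CT sym fc)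
open Vale.Agent.P159.TM.Spec (V)
open Vale.Agent.P159.H708
open Vale.Agent.P159.H889 (Den tn2 dn tn2_sq tn2_nonneg measurable_dn norm_dn_le)
open scoped Real

noncomputable section

set_option linter.unusedSectionVars false

variable {N ρ : ℕ} [NeZero N] [NeZero (N / ρ)] {A : Matrix (V N) (V N) ℝ}

/-- `Pg` with the field inside -/
lemma Pg_inner {I J Λ Λ' : Type*} [Fintype I] [Fintype J] [Fintype Λ'] (M : Matrix Λ Λ' ℝ)
    (C' : Matrix Λ' J ℝ) (B : Matrix Λ I ℝ) (ψ : (Λ → ℝ) → ℂ) (a : J → ℝ) :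
    Pg (M * C') B ψ a = Pg M B ψ (C' *ᵥ a) := by
  unfold Pg
  simp only [mulVec_mulVec]

lemma psC_eq_dn {I J Λ Λ' : Type*} [Fintype I] [Fintype J] [Fintype Λ] [Fintype Λ']
    (M : Matrix Λ Λ' ℝ) (B : Matrix Λ I ℝ) (C' : Matrix Λ' J ℝ) (phi : Λ → (Λ → ℝ) → ℂ) (X : Λ')
    (a : J → ℝ) : psC M B C' phi X a = dn M B phi X (C' *ᵥ a) := by
  unfold psC dn
  simp only [Pg_inner]

/-- the exponents `v_w` -/
def vC (ρ : ℕ) [NeZero (N / ρ)] (A : Matrix (V N) (V N) ℝ) (ν : ℝ) (w : V N) : ℝ :=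
  ∑ i, (((1 - ν⁻¹ • A) * Bm ρ A) w i) ^ 2

/-- the factor of the main function -/
def GC (ρ : ℕ) [NeZero (N / ρ)] (A : Matrix (V N) (V N) ℝ) (ν : ℝ) : ℝ :=
  ∑ w with (cl w : V (N / ρ)) = 0, Real.exp (-(2 * π ^ 2 * vC ρ A ν w))

lemma ti_S' (h : Nf A) (ν : ℝ) : TI (1 - ν⁻¹ • A) := H864.TI.one.sub (h.ti.smul _)

lemma vC_up (hρ : ρ ∣ N) (h : Nf A) (ν : ℝ) (a : V (N / ρ)) (w : V N) :
    vC ρ A ν (w + up a) = vC ρ A ν w := by
  unfold vC
  rw [← Equiv.sum_comp (Equiv.addRight (up a))]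
  refine Finset.sum_congr rfl fun i _ => ?_
  congr 1
  rw [Equiv.coe_addRight, Matrix.mul_apply, Matrix.mul_apply,
    ← Equiv.sum_comp (Equiv.addRight (up a))]
  refine Finset.sum_congr rfl fun j _ => ?_
  rw [Equiv.coe_addRight, (ti_S' h ν).tr, Bm_up hρ h]

lemma sum_cell_shift (hρ : ρ ∣ N) {f : V N → ℝ} (hf : ∀ (a : V (N / ρ)) (w : V N),
    f (w + up a) = f w) (W : V (N / ρ)) :
    ∑ w with (cl w : V (N / ρ)) = W, f w = ∑ w with (cl w : V (N / ρ)) = 0, f w := by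
  rw [Finset.sum_filter, Finset.sum_filter, ← Equiv.sum_comp (Equiv.addRight (up W : V N))]
  refine Finset.sum_congr rfl fun w _ => ?_
  rw [Equiv.coe_addRight, hf, H864.cl_add_up hρ]
  by_cases h : (cl w : V (N / ρ)) = 0
  · rw [if_pos h, if_pos (by rw [h, zero_add])]
  · rw [if_neg h, if_neg fun h2 => h (by
      have := congrArg (fun t => t - W) h2
      simpa using this)]

lemma GC_cell (hρ : ρ ∣ N) (h : Nf A) (ν : ℝ) (W : V (N / ρ)) :
    ∑ w with (cl w : V (N / ρ)) = W, Real.exp (-(2 * π ^ 2 * vC ρ A ν w)) = GC ρ A ν :=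
  sum_cell_shift hρ (fun a w => by rw [vC_up hρ h]) W

/-- the quantitative hypotheses of the coarse graining -/
structure CG (ρ : ℕ) [NeZero (N / ρ)] (A : Matrix (V N) (V N) ℝ) (ν d3 e4 s1 op : ℝ) : Prop where
  rvar : ∑ w with (cl w : V (N / ρ)) = 0,
    ∑ j, (((m2 ρ A - lfM N ρ) * pin (Ac ρ A)) w j) ^ 2 ≤ (ρ : ℝ) ^ 2 * d3 ^ 2
  rsum : ∑ w, |(m2 ρ A - lfM N ρ) w 0| ≤ (ρ : ℝ) ^ 2 * e4
  ssum : ∑ W, |(1 - (ν * (ρ : ℝ) ^ 2)⁻¹ • Ac ρ A) W 0| ≤ s1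
  opn : ∀ c : V N → ℝ, ∑ X, (∑ x, m2 ρ A x X * c x) ^ 2 ≤ op ^ 2 * ∑ x, c x ^ 2
  d30 : 0 ≤ d3
  op0 : 0 ≤ op

lemma rpin_up (hρ : ρ ∣ N) (A : Matrix (V N) (V N) ℝ) (a : V (N / ρ)) (w : V N)
    (j : V (N / ρ)) :
    ((m2 ρ A - lfM N ρ) * pin (Ac ρ A)) (w + up a) (j + a) =
      ((m2 ρ A - lfM N ρ) * pin (Ac ρ A)) w j := by
  have ht : TI (pin (Ac ρ A)) := H864.ti_fc _ _
  rw [Matrix.mul_apply, Matrix.mul_apply, ← Equiv.sum_comp (Equiv.addRight a)]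
  refine Finset.sum_congr rfl fun Y _ => ?_
  rw [Equiv.coe_addRight, r_up hρ, ht.tr]

/-- the structure `Tr` on the cell torus -/
theorem CG.tr {ν d3 e4 s1 op : ℝ} (hρ : ρ ∣ N) (h : Nf A) (hc : CG ρ A ν d3 e4 s1 op) :
    Tr (cl : V N → V (N / ρ)) (1 - ν⁻¹ • A) (1 - (ν * (ρ : ℝ) ^ 2)⁻¹ • Ac ρ A) (m2 ρ A)
      (m2 ρ A - lfM N ρ) (Bm ρ A) (pin (Ac ρ A)) (vC ρ A ν) (GC ρ A ν) ((ρ : ℝ) ^ 2)
      d3 e4 s1 op where
  sy := fun x w => (ti_S' h ν).sy x w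
  scsy := fun X W => (ti_S' (nf_Ac hρ h) _).sy X W
  dec := fun w X => by
    rw [S_m2 hρ h ν, Matrix.add_apply]
    congr 1
    rw [Matrix.mul_apply]
    have h2 : (lfM N ρ *ᵥ fun Y => (1 - (ν * (ρ : ℝ) ^ 2)⁻¹ • Ac ρ A) Y X) w =
        (1 - (ν * (ρ : ℝ) ^ 2)⁻¹ • Ac ρ A) (cl w) X := lf_mulVec hρ _ w
    exact h2
  var := fun w => rfl
  fac := fun W => GC_cell hρ h ν W
  card := fun W => H864.card_cell hρ W
  rvar := fun W => by
    have h1 := sum_cell_shift hρ (f := fun w => ∑ j, (((m2 ρ A - lfM N ρ) * pin (Ac ρ A)) w j) ^ 2)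
      (fun a w => by
        rw [← Equiv.sum_comp (Equiv.addRight a)]
        refine Finset.sum_congr rfl fun j _ => ?_
        rw [Equiv.coe_addRight, rpin_up hρ]) W
    rw [h1]
    exact hc.rvar
  rsum := fun X => by
    have h1 : ∑ w, |(m2 ρ A - lfM N ρ) w X| = ∑ w, |(m2 ρ A - lfM N ρ) w 0| := by
      rw [← Equiv.sum_comp (Equiv.addRight (up X : V N))]
      refine Finset.sum_congr rfl fun w _ => ?_
      rw [Equiv.coe_addRight]
      have := r_up hρ A w 0 X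
      rw [zero_add] at this
      rw [this]
    rw [h1]
    exact hc.rsum
  ssum := fun X => by
    have h1 : ∑ W, |(1 - (ν * (ρ : ℝ) ^ 2)⁻¹ • Ac ρ A) W X| =
        ∑ W, |(1 - (ν * (ρ : ℝ) ^ 2)⁻¹ • Ac ρ A) W 0| := by
      rw [← Equiv.sum_comp (Equiv.addRight X)]
      refine Finset.sum_congr rfl fun W _ => ?_
      rw [Equiv.coe_addRight]
      have := (ti_S' (nf_Ac hρ h) (ν * (ρ : ℝ) ^ 2)).tr X W 0
      rw [zero_add] at this
      rw [this]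
    rw [h1]
    exact hc.ssum
  opn := hc.opn
  d30 := hc.d30

theorem trCov (hρ : ρ ∣ N) (h : Nf A) : TrCov (m2 ρ A) (Bm ρ A) (pin (Ac ρ A)) where
  m2c := fun c x X => m2_up hρ A x X c
  Bc := fun c x y => Bm_up hρ h c x y
  Cc := fun c X Y => (H864.ti_fc _ _ : TI (pin (Ac ρ A))).tr c X Y

/-- charge one of the transported density -/
lemma ch_dn {I J Λ : Type*} [Fintype I] [Fintype J] [Fintype Λ] {F0 : Matrix Λ J ℝ}
    {B : Matrix Λ I ℝ} (h1 : ∀ x, ∑ X, F0 x X = 1) {u : Λ → (Λ → ℝ) → ℂ} (hu : ∀ x, Ch (u x))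
    (X : J) : Ch (dn F0 B u X) := by
  intro f c
  unfold dn
  rw [Finset.mul_sum]
  refine Finset.sum_congr rfl fun y _ => ?_
  have h2 : Pg F0 B (u y) (fun x => f x + c) =
      Complex.exp (((2 * π * c : ℝ) : ℂ) * Complex.I) * Pg F0 B (u y) f := by
    unfold Pg
    rw [← integral_const_mul]
    refine integral_congr_ae (Filter.Eventually.of_forall fun g => ?_)
    simp only
    rw [← hu y]
    congr 1
    funext x
    simp only [Pi.add_apply, mulVec, dotProduct]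
    have h3 : ∑ X, F0 x X * (f X + c) = (∑ X, F0 x X * f X) + c := by
      simp_rw [mul_add]
      rw [Finset.sum_add_distrib, ← Finset.sum_mul, h1 x, one_mul]
    rw [h3]
    ring
  rw [h2]
  ring

/-- covariance of the transported density under all coarse translations -/
lemma cov_dn_coarse (hρ : ρ ∣ N) (h : Nf A) {u : V N → (V N → ℝ) → ℂ} (hu : Cov u) :
    Cov (dn (m2 ρ A) (Bm ρ A) u) := by
  intro c X f
  have hc := trCov hρ h
  unfold dn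
  rw [← Equiv.sum_comp (Equiv.addRight (up c : V N))]
  refine Finset.sum_congr rfl fun x _ => ?_
  rw [Equiv.coe_addRight, hc.m2c]
  congr 1
  unfold Pg
  rw [← gau_permE (Equiv.addRight (up c)) fun g : V N → ℝ =>
    u x (m2 ρ A *ᵥ sh c f + Bm ρ A *ᵥ g)]
  refine integral_congr_ae (Filter.Eventually.of_forall fun g => ?_)
  simp only
  rw [hu, ← sh_eq, sh_add, hc.sh_B, hc.sh_m2]

/-- **COARSE GRAINING OF THE CHARGE-ONE STATE** -/
theorem den_coarse (hρ : ρ ∣ N) (h : Nf A) {ν d3 e4 s1 op : ℝ} (hc : CG ρ A ν d3 e4 s1 op)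
    {z : ℂ} {d : ℝ} (hd0 : 0 ≤ d) {ψ : V N → (V N → ℝ) → ℂ} (hD : Den A ν z d ψ) :
    Den (Ac ρ A) (ν * (ρ : ℝ) ^ 2) (z * (GC ρ A ν : ℂ))
      (‖z‖ * ((ρ : ℝ) ^ 2 * (2 * π * s1 * d3 + e4)) + op * ρ * d)
      (dn (m2 ρ A) (Bm ρ A) ψ) := by
  obtain ⟨K, hK⟩ := hD.bd
  have hS := ti_S' h ν
  refine ⟨fun X => measurable_dn hD.m X, ?_, fun X => ch_dn (row_m2 hρ h) hD.ch X,
    cov_dn_coarse hρ h hD.cov, fun X => ?_⟩
  · refine ⟨∑ X, ∑ y, |m2 ρ A y X| * |K|, fun X F => ?_⟩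
    have h1 : ‖dn (m2 ρ A) (Bm ρ A) ψ X F‖ ≤ ∑ y, |m2 ρ A y X| * |K| := by
      unfold dn
      refine (norm_sum_le _ _).trans (Finset.sum_le_sum fun y _ => ?_)
      rw [norm_mul, Complex.norm_real, Real.norm_eq_abs]
      exact mul_le_mul_of_nonneg_left
        (norm_Pg_le (fun F => (hK y F).trans (le_abs_self K)) F) (abs_nonneg _)
    exact h1.trans (Finset.single_le_sum (f := fun X => ∑ y, |m2 ρ A y X| * |K|)
      (fun _ _ => Finset.sum_nonneg fun _ _ => by positivity) (Finset.mem_univ X))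
  · set D : V N → (V N → ℝ) → ℂ := fun x F => ψ x F - z * mainf (1 - ν⁻¹ • A) x F with hDd
    have hDm : ∀ x, Measurable (D x) := fun x =>
      (hD.m x).sub ((measurable_mainf _ x).const_mul z)
    have hDK : ∀ x F, ‖D x F‖ ≤ K + ‖z‖ * ∑ y, ∑ w, |(1 - ν⁻¹ • A) y w| := by
      intro x F
      refine (norm_sub_le _ _).trans (add_le_add (hK x F) ?_)
      rw [norm_mul]
      exact mul_le_mul_of_nonneg_left (H889.norm_mainf_bdd _ x F) (norm_nonneg _)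
    have hDc : CovC ρ D := by
      intro c x F
      rw [hDd]
      simp only
      rw [hD.cov, H889.mainf_sh hS]
    have hδ : ∀ x, ∫ a, ∫ g, ‖D x ((m2 ρ A * pin (Ac ρ A)) *ᵥ a + Bm ρ A *ᵥ g)‖ ^ 2
        ∂(gau (V N)) ∂(gau (V (N / ρ))) ≤ d ^ 2 := by
      intro x
      have h2 := law_coarse_bdd hρ h (Bm_mul hρ h) (fun F => ‖D x F‖ ^ 2)
        (((hDm x).norm.pow_const 2).stronglyMeasurable)
        (C := (K + ‖z‖ * ∑ y, ∑ w, |(1 - ν⁻¹ • A) y w|) ^ 2) fun F => by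
          rw [Real.norm_eq_abs, abs_of_nonneg (by positivity)]
          exact pow_le_pow_left₀ (norm_nonneg _) (hDK x F) 2
      simp only [← mulVec_mulVec]
      rw [h2, ← tn2_sq (hDm x) (hDK x)]
      exact pow_le_pow_left₀ (tn2_nonneg A _) (hD.dev x) 2
    have h3 := transT (hc.tr hρ h) (trCov hρ h) z (phi := ψ) (D := D) (fun x F => by
      rw [hDd]
      ring) hDm hDK hDc hd0 hc.op0 hδ X
    unfold tn2
    refine le_trans (le_of_eq ?_) h3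
    refine n2_congr fun a => ?_
    rw [psC_eq_dn]

end

end Vale.Agent.P159.H963
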