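import Vale.Agent.P159.H963.Trans
import Vale.Agent.P159.H363.Kap
import Vale.Agent.P159.H864.Cel0

/-!
P159 / module VB6 (helper963): transport under coarse graining on the cell torus. `N` fine cells
per side, `ρ ∣ N`, coarse cells `V (N / ρ)`, `cl`, `up` of helper864. All matrices covariant under
the translations of the coarse cells, deviations covariant: every coarse cell has the same
deviation.
-/

namespace Vale.Agent.P159.H963

open MeasureTheory ProbabilityTheory Finset Matrix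
open Vale.Agent.P159.H37 (gau)
open Vale.Agent.P159.H363
open Vale.Agent.P159.H864 (cl up)
open Vale.Agent.P159.TM.Spec (V)
open scoped Real

noncomputable section

set_option linter.unusedSectionVars false

/-- `n2` is invariant under permutations of the coordinates -/
lemma n2_perm {J : Type*} [Fintype J] (e' : Equiv.Perm J) {u : (J → ℝ) → ℂ}
    (hu : MemLp u 2 (gau J)) (hu' : MemLp (fun a => u (a ∘ e')) 2 (gau J)) :
    n2 (gau J) (fun a => u (a ∘ e')) = n2 (gau J) u := by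
  have h1 := n2_sq hu
  have h2 := n2_sq hu'
  have h3 := gau_permE e' fun a : J → ℝ => ‖u a‖ ^ 2
  rw [h3, ← h1] at h2
  exact (pow_left_inj₀ (n2_nonneg _) (n2_nonneg _) (by norm_num)).1 h2

section torus

variable {N ρ : ℕ} [NeZero N] [NeZero (N / ρ)]

/-- covariance of the matrices under the translations of the coarse cells -/
structure TrCov (m2 : Matrix (V N) (V (N / ρ)) ℝ) (B : Matrix (V N) (V N) ℝ)
    (C' : Matrix (V (N / ρ)) (V (N / ρ)) ℝ) : Prop where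
  m2c : ∀ (c : V (N / ρ)) (x : V N) (X : V (N / ρ)), m2 (x + up c) (X + c) = m2 x X
  Bc : ∀ (c : V (N / ρ)) (x y : V N), B (x + up c) (y + up c) = B x y
  Cc : ∀ (c X Y : V (N / ρ)), C' (X + c) (Y + c) = C' X Y

/-- covariance of a family of functionals under the translations of the coarse cells -/
def CovC (ρ : ℕ) [NeZero (N / ρ)] (ψ : V N → (V N → ℝ) → ℂ) : Prop :=
  ∀ (c : V (N / ρ)) (x : V N) (F : V N → ℝ), ψ (x + up c) F = ψ x (sh (up c) F)

lemma Cov.covC {ψ : V N → (V N → ℝ) → ℂ} (h : Cov ψ) : CovC ρ ψ := fun c x F => h (up c) x F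

variable {m2 : Matrix (V N) (V (N / ρ)) ℝ} {B : Matrix (V N) (V N) ℝ}
  {C' : Matrix (V (N / ρ)) (V (N / ρ)) ℝ}

lemma TrCov.sh_m2 (h : TrCov m2 B C') (c : V (N / ρ)) (u : V (N / ρ) → ℝ) :
    sh (up c) (m2 *ᵥ u) = m2 *ᵥ (sh c u) := by
  funext z
  unfold sh
  simp only [mulVec, dotProduct]
  rw [← Equiv.sum_comp (Equiv.addRight c)]
  refine Finset.sum_congr rfl fun Y _ => ?_
  rw [Equiv.coe_addRight, h.m2c]

lemma TrCov.sh_B (h : TrCov m2 B C') (c : V (N / ρ)) (u : V N → ℝ) :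
    sh (up c) (B *ᵥ u) = B *ᵥ (sh (up c) u) := by
  funext z
  unfold sh
  simp only [mulVec, dotProduct]
  rw [← Equiv.sum_comp (Equiv.addRight (up c))]
  refine Finset.sum_congr rfl fun Y _ => ?_
  rw [Equiv.coe_addRight, h.Bc]

lemma TrCov.sh_C (h : TrCov m2 B C') (c : V (N / ρ)) (u : V (N / ρ) → ℝ) :
    sh c (C' *ᵥ u) = C' *ᵥ (sh c u) := by
  funext z
  unfold sh
  simp only [mulVec, dotProduct]
  rw [← Equiv.sum_comp (Equiv.addRight c)]
  refine Finset.sum_congr rfl fun Y _ => ?_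
  rw [Equiv.coe_addRight, h.Cc]

lemma TrCov.Pg_sh (h : TrCov m2 B C') {ψ : V N → (V N → ℝ) → ℂ} (hψ : CovC ρ ψ) (c : V (N / ρ))
    (x : V N) (b : V (N / ρ) → ℝ) :
    Pg (m2 * C') B (ψ (x + up c)) b = Pg (m2 * C') B (ψ x) (sh c b) := by
  unfold Pg
  rw [← gau_permE (Equiv.addRight (up c)) fun g : V N → ℝ =>
    ψ x ((m2 * C') *ᵥ sh c b + B *ᵥ g)]
  refine integral_congr_ae (Filter.Eventually.of_forall fun g => ?_)
  simp only
  rw [hψ, ← sh_eq, sh_add, h.sh_B, ← mulVec_mulVec, h.sh_m2, h.sh_C, ← mulVec_mulVec]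

/-- the transported family is covariant -/
theorem TrCov.psC_sh (h : TrCov m2 B C') {ψ : V N → (V N → ℝ) → ℂ} (hψ : CovC ρ ψ)
    (c X : V (N / ρ)) (b : V (N / ρ) → ℝ) :
    psC m2 B C' ψ (X + c) b = psC m2 B C' ψ X (sh c b) := by
  unfold psC
  rw [← Equiv.sum_comp (Equiv.addRight (up c : V N))]
  refine Finset.sum_congr rfl fun x _ => ?_
  rw [Equiv.coe_addRight, h.m2c, h.Pg_sh hψ]

theorem TrCov.n2_same (h : TrCov m2 B C') {ψ : V N → (V N → ℝ) → ℂ} (hψ : CovC ρ ψ)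
    (hm : ∀ x, Measurable (ψ x)) {K : ℝ} (hK : ∀ x F, ‖ψ x F‖ ≤ K) (X Y : V (N / ρ)) :
    n2 (gau (V (N / ρ))) (psC m2 B C' ψ X) = n2 (gau (V (N / ρ))) (psC m2 B C' ψ Y) := by
  have hL : ∀ X, MemLp (psC m2 B C' ψ X) 2 (gau (V (N / ρ))) := fun X =>
    memLp_sum _ fun x _ => (memLp_bdd (measurable_Pg (hm x)).aestronglyMeasurable
      fun a => norm_Pg_le (hK x) a).const_mul _
  have h1 : psC m2 B C' ψ X = fun b => psC m2 B C' ψ Y (b ∘ Equiv.addRight (X - Y)) := by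
    funext b
    have h2 := h.psC_sh hψ (X - Y) Y b
    rw [add_sub_cancel] at h2
    rw [h2, sh_eq]
  have h3 : MemLp (fun b => psC m2 B C' ψ Y (b ∘ Equiv.addRight (X - Y))) 2
      (gau (V (N / ρ))) := by
    rw [← h1]
    exact hL X
  have h4 := n2_perm (Equiv.addRight (X - Y)) (hL Y) h3
  rw [← h4]
  rw [h1]

/-- **(C) on the torus**: `ψ''_X = z G mainf Sc X + error`, every coarse cell, in `L²` of the
coarse field -/
theorem transT {S : Matrix (V N) (V N) ℝ} {Sc : Matrix (V (N / ρ)) (V (N / ρ)) ℝ}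
    {r : Matrix (V N) (V (N / ρ)) ℝ} {v : V N → ℝ} {G d3 e4 s1 op : ℝ}
    (h : Tr (cl : V N → V (N / ρ)) S Sc m2 r B C' v G ((ρ : ℝ) ^ 2) d3 e4 s1 op)
    (hc : TrCov m2 B C') {phi D : V N → (V N → ℝ) → ℂ} (z : ℂ)
    {K : ℝ} (hphi : ∀ x F, phi x F = z * mainf S x F + D x F) (hDm : ∀ x, Measurable (D x))
    (hDK : ∀ x F, ‖D x F‖ ≤ K) (hDc : CovC ρ D)
    {δ : ℝ} (hδ0 : 0 ≤ δ) (hop : 0 ≤ op)
    (hδ : ∀ x, ∫ a, ∫ g, ‖D x ((m2 * C') *ᵥ a + B *ᵥ g)‖ ^ 2 ∂(gau (V N)) ∂(gau (V (N / ρ))) ≤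
      δ ^ 2) (X : V (N / ρ)) :
    n2 (gau (V (N / ρ))) (fun a => psC m2 B C' phi X a - z * (G : ℂ) * mainf Sc X (C' *ᵥ a)) ≤
      ‖z‖ * ((ρ : ℝ) ^ 2 * (2 * π * s1 * d3 + e4)) + op * ρ * δ := by
  have h1 := h.cell_le' z hphi hDm hDK (fun X Y => hc.n2_same hDc hDm hDK X Y) hδ0 hop hδ X
  rwa [Real.sqrt_sq (Nat.cast_nonneg ρ)] at h1

end torus

end

end Vale.Agent.P159.H963
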