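import Vale.Agent.P159.H474.Cb3

/-!
P159 / H963 (764 rows 5145, 5320): the ENTANGLED chessboard, one direction.  Two cycles of different
lengths, state spaces `S1`, `S2`, arbitrary slab functions, and ONE functional of a pair of slabs (slab
`i0` of the first cycle, slab `i1` of the second).
-/

namespace Vale.Agent.P159.H963.Cbx

open Finset
open scoped ENNReal
open Vale.Agent.P159.H963.Chess (hs tr chain cs_tsum hs_chain tr_chain half_sq)
open Vale.Agent.P159.H474.Cb (pth slb ker cyc_slab hs_ker hs1)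

noncomputable section

variable {S S1 S2 : Type*}

/-! ### cyclic products of kernels -/

lemma open_eq (T : ℕ → S → S → ℝ≥0∞) (n : ℕ) (g : S → S → ℝ≥0∞) :
    ∑' b : Fin (n + 2) → S, (∏ j : Fin (n + 1), T j (b j.castSucc) (b j.succ)) *
      g (b 0) (b (Fin.last (n + 1))) = ∑' s, ∑' t, chain T n s t * g s t := by
  induction n generalizing g with
  | zero =>
    rw [← (finTwoArrowEquiv S).symm.tsum_eq, ENNReal.tsum_prod']
    refine tsum_congr fun s => tsum_congr fun t => ?_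
    simp [chain]
  | succ n ih =>
    have h1 := ih fun s t => ∑' t', T (n + 1) t t' * g s t'
    have h2 : ∑' s, ∑' t, chain T n s t * ∑' t', T (n + 1) t t' * g s t' =
        ∑' s, ∑' t, chain T (n + 1) s t * g s t := by
      refine tsum_congr fun s => ?_
      simp only [chain, Chess.cmp, ← ENNReal.tsum_mul_left, ← ENNReal.tsum_mul_right]
      rw [ENNReal.tsum_comm]
      refine tsum_congr fun t => tsum_congr fun t' => ?_
      ring
    rw [← h2, ← h1, ← (Fin.snocEquiv fun _ : Fin (n + 3) => S).tsum_eq, ENNReal.tsum_prod',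
      ENNReal.tsum_comm]
    refine tsum_congr fun σ => ?_
    rw [← ENNReal.tsum_mul_left]
    refine tsum_congr fun s' => ?_
    have e : (Fin.snocEquiv fun _ : Fin (n + 3) => S) (s', σ) =
        (Fin.snoc (α := fun _ => S) σ s' : Fin (n + 3) → S) := rfl
    rw [e]
    have h0 : (Fin.snoc (α := fun _ => S) σ s' : Fin (n + 3) → S) 0 = σ 0 := by
      have := Fin.snoc_castSucc (α := fun _ => S) s' σ 0
      rwa [Fin.castSucc_zero] at this
    have h1 : ∀ j : Fin (n + 1), (Fin.snoc (α := fun _ => S) σ s' : Fin (n + 3) → S) j.castSucc.succ =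
        σ j.succ := by
      intro j
      have := Fin.snoc_castSucc (α := fun _ => S) s' σ j.succ
      rwa [← Fin.succ_castSucc] at this
    have h2 : (Fin.snoc (α := fun _ => S) σ s' : Fin (n + 3) → S) (Fin.last (n + 1)).succ = s' := by
      rw [Fin.succ_last, Fin.snoc_last]
    rw [Fin.prod_univ_castSucc, h2, h0, Fin.snoc_last]
    simp only [Fin.snoc_castSucc, h1, Fin.val_castSucc, Fin.val_last]
    ring

/-- cyclic product of `n + 2` kernels, the kernel number `0` singled out -/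
lemma cyc_eq (n : ℕ) (g : S → S → ℝ≥0∞) (T : ℕ → S → S → ℝ≥0∞) :
    ∑' b : Fin (n + 2) → S, g (b 0) (b 1) *
      ∏ j : Fin (n + 1), T j (b j.succ) (b (j.succ + 1)) = ∑' s, ∑' t, g s t * chain T n t s := by
  have h1 := open_eq T n fun s t => g t s
  have h2 : ∑' s, ∑' t, chain T n s t * g t s = ∑' s, ∑' t, g s t * chain T n t s := by
    rw [ENNReal.tsum_comm]
    exact tsum_congr fun s => tsum_congr fun t => mul_comm _ _
  rw [← h2, ← h1,
    ← (Equiv.arrowCongr (Equiv.subRight (1 : Fin (n + 2))) (Equiv.refl S)).tsum_eq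
      fun b : Fin (n + 2) → S => (∏ j : Fin (n + 1), T j (b j.castSucc) (b j.succ)) *
        g (b (Fin.last (n + 1))) (b 0)]
  refine tsum_congr fun b => ?_
  have e : ∀ i, (Equiv.arrowCongr (Equiv.subRight (1 : Fin (n + 2))) (Equiv.refl S)) b i
      = b (i + 1) := fun i => rfl
  simp only [e]
  rw [mul_comm, Fin.last_add_one, zero_add]
  congr 1
  refine Finset.prod_congr rfl fun j _ => ?_
  rw [Fin.coeSucc_eq_succ]

/-- a product over all indices but one -/
lemma prod_erase_rot {n : ℕ} (i0 : Fin (n + 2)) (F : Fin (n + 2) → ℝ≥0∞) :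
    ∏ i ∈ univ.erase i0, F i = ∏ j : Fin (n + 1), F (j.succ + i0) := by
  symm
  refine Finset.prod_bij (fun j _ => j.succ + i0) (fun j _ => ?_) (fun j _ j' _ h => ?_)
    (fun i hi => ?_) fun j _ => rfl
  · rw [Finset.mem_erase]
    refine ⟨fun h => ?_, Finset.mem_univ _⟩
    have : j.succ = 0 := by
      have h' : j.succ + i0 = 0 + i0 := by rw [h, zero_add]
      exact add_right_cancel h'
    exact Fin.succ_ne_zero j this
  · exact Fin.succ_injective _ (add_right_cancel h)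
  · have h1 : i - i0 ≠ 0 := sub_ne_zero.2 (Finset.mem_erase.1 hi).1
    obtain ⟨j, hj⟩ := Fin.exists_succ_eq.2 h1
    exact ⟨j, Finset.mem_univ _, by rw [hj]; exact sub_add_cancel i i0⟩

/-- **cyclic product with one kernel singled out: the rest is a kernel of controlled norm** -/
lemma cyc_hs {n : ℕ} (i0 : Fin (n + 2)) (K : Fin (n + 2) → S → S → ℝ≥0∞) :
    ∃ R : S → S → ℝ≥0∞, hs R ≤ ∏ i ∈ univ.erase i0, hs (K i) ∧ ∀ h : S → S → ℝ≥0∞,
      ∑' f : Fin (n + 2) → S, h (f i0) (f (i0 + 1)) * ∏ i ∈ univ.erase i0, K i (f i) (f (i + 1)) =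
        ∑' s, ∑' t, h s t * R t s := by
  set T : ℕ → S → S → ℝ≥0∞ := fun j =>
    if hj : j + 1 < n + 2 then K (⟨j + 1, hj⟩ + i0) else fun _ _ => 0 with hT
  have eT : ∀ j : Fin (n + 1), T j = K (j.succ + i0) := fun j => by
    have h : (j : ℕ) + 1 < n + 2 := by have := j.2; omega
    rw [hT]
    simp only [h, dif_pos]
    rfl
  refine ⟨chain T n, ?_, fun h => ?_⟩
  · refine (hs_chain T n).trans (le_of_eq ?_)
    rw [Finset.prod_range, prod_erase_rot]
    exact Finset.prod_congr rfl fun j _ => by rw [eT]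
  · rw [← cyc_eq n h T, ← (Equiv.arrowCongr (Equiv.subRight i0) (Equiv.refl S)).tsum_eq
      fun b : Fin (n + 2) → S => h (b 0) (b 1) *
        ∏ j : Fin (n + 1), T j (b j.succ) (b (j.succ + 1))]
    refine tsum_congr fun f => ?_
    have e : ∀ i, (Equiv.arrowCongr (Equiv.subRight i0) (Equiv.refl S)) f i = f (i + i0) :=
      fun i => rfl
    simp only [e]
    rw [prod_erase_rot, zero_add, add_comm (1 : Fin (n + 2)) i0]
    congr 1
    refine Finset.prod_congr rfl fun j _ => ?_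
    rw [eT, add_right_comm j.succ i0 1]

/-- Cauchy-Schwarz for one entangled kernel -/
lemma ent_cs (T : S1 → S1 → S2 → S2 → ℝ≥0∞) (R1 : S1 → S1 → ℝ≥0∞) (R2 : S2 → S2 → ℝ≥0∞) :
    ∑' s, ∑' t, ∑' s', ∑' t', T s t s' t' * R1 t s * R2 t' s' ≤
      (∑' s, ∑' t, ∑' s', ∑' t', T s t s' t' ^ 2) ^ (1 / 2 : ℝ) * hs R1 ^ (1 / 2 : ℝ) *
        hs R2 ^ (1 / 2 : ℝ) := by
  have h := cs_tsum (fun p : (S1 × S1) × (S2 × S2) => T p.1.1 p.1.2 p.2.1 p.2.2)
    fun p : (S1 × S1) × (S2 × S2) => R1 p.1.2 p.1.1 * R2 p.2.2 p.2.1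
  have e1 : ∀ F : S1 → S1 → S2 → S2 → ℝ≥0∞,
      ∑' p : (S1 × S1) × (S2 × S2), F p.1.1 p.1.2 p.2.1 p.2.2 =
        ∑' s, ∑' t, ∑' s', ∑' t', F s t s' t' := by
    intro F
    rw [ENNReal.tsum_prod' (f := fun p : (S1 × S1) × (S2 × S2) => F p.1.1 p.1.2 p.2.1 p.2.2),
      ENNReal.tsum_prod' (f := fun p : S1 × S1 => ∑' q : S2 × S2, F p.1 p.2 q.1 q.2)]
    refine tsum_congr fun s => tsum_congr fun t => ?_
    rw [ENNReal.tsum_prod' (f := fun q : S2 × S2 => F s t q.1 q.2)]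
  rw [e1 fun s t s' t' => T s t s' t' * (R1 t s * R2 t' s'), e1 fun s t s' t' => T s t s' t' ^ 2,
    e1 fun s t s' t' => (R1 t s * R2 t' s') ^ 2] at h
  have e2 : ∑' s, ∑' t, ∑' s', ∑' t', (R1 t s * R2 t' s') ^ 2 = hs R1 * hs R2 := by
    have e3 : ∀ s t, ∑' s', ∑' t', (R1 t s * R2 t' s') ^ 2 = R1 t s ^ 2 * hs R2 := by
      intro s t
      simp only [mul_pow, ENNReal.tsum_mul_left]
      congr 1
      unfold hs
      rw [ENNReal.tsum_comm]
    simp only [e3, ENNReal.tsum_mul_right]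
    congr 1
    unfold hs
    rw [ENNReal.tsum_comm]
  rw [e2, ENNReal.mul_rpow_of_nonneg _ _ (by norm_num : (0 : ℝ) ≤ 1 / 2), ← mul_assoc] at h
  simp only [← mul_assoc] at h
  exact h

/-! ### one direction -/

/-- the folded slab sum -/
def fd (m : ℕ) (W : (Fin (m + 2) → S) → ℝ≥0∞) : ℝ≥0∞ :=
  ∑' τ : ZMod ((m + 1) * 2) → S, W (fun j => τ ((j : ℕ) : ZMod ((m + 1) * 2))) *
    W fun j => τ (-((j : ℕ) : ZMod ((m + 1) * 2)))

/-- the folded entangled slab sum -/
def fd2 (m : ℕ) (X : (Fin (m + 2) → S1) → (Fin (m + 2) → S2) → ℝ≥0∞) : ℝ≥0∞ :=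
  ∑' τ : ZMod ((m + 1) * 2) → S1, ∑' τ' : ZMod ((m + 1) * 2) → S2,
    X (fun j => τ ((j : ℕ) : ZMod ((m + 1) * 2))) (fun j => τ' ((j : ℕ) : ZMod ((m + 1) * 2))) *
    X (fun j => τ (-((j : ℕ) : ZMod ((m + 1) * 2))))
      fun j => τ' (-((j : ℕ) : ZMod ((m + 1) * 2)))

lemma cyc_slab_hs (m : ℕ) {n : ℕ} [NeZero ((m + 1) * (n + 2))] [NeZero ((m + 1) * 2)] (i0 : Fin (n + 2))
    (W : Fin (n + 2) → (Fin (m + 2) → S) → ℝ≥0∞) :
    ∃ R : S → S → ℝ≥0∞, hs R ≤ ∏ i ∈ univ.erase i0, fd m (W i) ∧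
      ∀ g : (Fin (m + 2) → S) → ℝ≥0∞,
      ∑' σ : ZMod ((m + 1) * (n + 2)) → S, g (slb m σ i0) * ∏ i ∈ univ.erase i0, W i (slb m σ i) =
        ∑' s, ∑' t, ker m g s t * R t s := by
  obtain ⟨R, h1, h2⟩ := cyc_hs i0 fun i => ker m (W i)
  refine ⟨R, h1.trans (le_of_eq (Finset.prod_congr rfl fun i _ => hs_ker m (W i))), fun g => ?_⟩
  rw [← h2]
  have h3 := cyc_slab (S := S) m (n + 1) (Function.update W i0 g)
  have e1 : ∀ σ : ZMod ((m + 1) * (n + 2)) → S,
      ∏ i : Fin (n + 2), Function.update W i0 g i (slb m σ i) =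
        g (slb m σ i0) * ∏ i ∈ univ.erase i0, W i (slb m σ i) := by
    intro σ
    rw [← Finset.mul_prod_erase univ _ (Finset.mem_univ i0), Function.update_self]
    congr 1
    refine Finset.prod_congr rfl fun i hi => ?_
    rw [Function.update_of_ne (Finset.mem_erase.1 hi).1]
  have e2 : ∀ f : Fin (n + 2) → S,
      ∏ i : Fin (n + 2), ker m (Function.update W i0 g i) (f i) (f (i + 1)) =
        ker m g (f i0) (f (i0 + 1)) * ∏ i ∈ univ.erase i0, ker m (W i) (f i) (f (i + 1)) := by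
    intro f
    rw [← Finset.mul_prod_erase univ _ (Finset.mem_univ i0), Function.update_self]
    congr 1
    refine Finset.prod_congr rfl fun i hi => ?_
    rw [Function.update_of_ne (Finset.mem_erase.1 hi).1]
  have h3' : ∑' σ : ZMod ((m + 1) * (n + 2)) → S,
      ∏ i : Fin (n + 2), Function.update W i0 g i (slb m σ i) =
      ∑' f : Fin (n + 2) → S,
        ∏ i : Fin (n + 2), ker m (Function.update W i0 g i) (f i) (f (i + 1)) := h3
  simp only [e1, e2] at h3'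
  exact h3'

lemma ker_mul_right (m : ℕ) (g : (Fin (m + 2) → S) → ℝ≥0∞) (c : ℝ≥0∞) (s t : S) :
    ker m (fun x => g x * c) s t = ker m g s t * c := by
  unfold ker
  exact ENNReal.tsum_mul_right

/-- the entangled kernel -/
def kT (m : ℕ) (X : (Fin (m + 2) → S1) → (Fin (m + 2) → S2) → ℝ≥0∞) (s t : S1) (s' t' : S2) : ℝ≥0∞ :=
  ker m (fun y => ker m (fun x => X x y) s t) s' t'

lemma kT_sq (m : ℕ) [NeZero ((m + 1) * 2)]
    (X : (Fin (m + 2) → S1) → (Fin (m + 2) → S2) → ℝ≥0∞) :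
    ∑' s, ∑' t, ∑' s', ∑' t', kT m X s t s' t' ^ 2 = fd2 m X := by
  have h := hs_ker m fun z : Fin (m + 2) → S1 × S2 => X (fun j => (z j).1) fun j => (z j).2
  have e0 : ∀ (s t : S1) (s' t' : S2),
      ker m (fun z : Fin (m + 2) → S1 × S2 => X (fun j => (z j).1) fun j => (z j).2) (s, s') (t, t') =
        kT m X s t s' t' := by
    intro s t s' t'
    unfold kT ker
    rw [← (Equiv.arrowProdEquivProdArrow (Fin m) (fun _ => S1) fun _ => S2).symm.tsum_eq,
      ENNReal.tsum_prod', ENNReal.tsum_comm]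
    refine tsum_congr fun ω' => tsum_congr fun ω => ?_
    set p : Fin (m + 2) → S1 × S2 := pth m (s, s')
      ((Equiv.arrowProdEquivProdArrow (Fin m) (fun _ => S1) fun _ => S2).symm (ω, ω')) (t, t') with hp
    have q1 : (fun j => (p j).1) = pth m s ω t := by
      refine H474.Cb.eq_pth m _ ?_ ?_ fun j => ?_
      · rw [hp, H474.Cb.pth_zero]
      · rw [hp, H474.Cb.pth_last]
      · rw [hp, H474.Cb.pth_mid]
        rfl
    have q2 : (fun j => (p j).2) = pth m s' ω' t' := by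
      refine H474.Cb.eq_pth m _ ?_ ?_ fun j => ?_
      · rw [hp, H474.Cb.pth_zero]
      · rw [hp, H474.Cb.pth_last]
      · rw [hp, H474.Cb.pth_mid]
        rfl
    show X (fun j => (p j).1) (fun j => (p j).2) = X (pth m s ω t) (pth m s' ω' t')
    rw [q1, q2]
  have e1 : hs (ker m fun z : Fin (m + 2) → S1 × S2 => X (fun j => (z j).1) fun j => (z j).2) =
      ∑' s, ∑' t, ∑' s', ∑' t', kT m X s t s' t' ^ 2 := by
    unfold hs
    rw [ENNReal.tsum_prod']
    refine tsum_congr fun s => ?_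
    have : ∀ s' : S2, ∑' q : S1 × S2,
        ker m (fun z : Fin (m + 2) → S1 × S2 => X (fun j => (z j).1) fun j => (z j).2) (s, s') q ^ 2 =
          ∑' t, ∑' t', kT m X s t s' t' ^ 2 := by
      intro s'
      rw [ENNReal.tsum_prod']
      refine tsum_congr fun t => tsum_congr fun t' => ?_
      rw [e0]
    simp only [this]
    rw [ENNReal.tsum_comm]
  rw [← e1, h]
  unfold fd2
  rw [← (Equiv.arrowProdEquivProdArrow (ZMod ((m + 1) * 2)) (fun _ => S1) fun _ => S2).symm.tsum_eq,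
    ENNReal.tsum_prod']
  rfl

/-- **the entangled chessboard in one direction** -/
theorem ent1 (m : ℕ) {n1 n2 : ℕ} [NeZero ((m + 1) * (n1 + 2))] [NeZero ((m + 1) * (n2 + 2))]
    [NeZero ((m + 1) * 2)] (i0 : Fin (n1 + 2)) (i1 : Fin (n2 + 2))
    (X : (Fin (m + 2) → S1) → (Fin (m + 2) → S2) → ℝ≥0∞)
    (W1 : Fin (n1 + 2) → (Fin (m + 2) → S1) → ℝ≥0∞)
    (W2 : Fin (n2 + 2) → (Fin (m + 2) → S2) → ℝ≥0∞) :
    ∑' σ1 : ZMod ((m + 1) * (n1 + 2)) → S1, ∑' σ2 : ZMod ((m + 1) * (n2 + 2)) → S2,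
      X (slb m σ1 i0) (slb m σ2 i1) * (∏ i ∈ univ.erase i0, W1 i (slb m σ1 i)) *
        ∏ i ∈ univ.erase i1, W2 i (slb m σ2 i) ≤
    fd2 m X ^ (1 / 2 : ℝ) * (∏ i ∈ univ.erase i0, fd m (W1 i)) ^ (1 / 2 : ℝ) *
      (∏ i ∈ univ.erase i1, fd m (W2 i)) ^ (1 / 2 : ℝ) := by
  obtain ⟨R1, hR1, e1⟩ := cyc_slab_hs m i0 W1
  obtain ⟨R2, hR2, e2⟩ := cyc_slab_hs m i1 W2
  have h1 : ∑' σ1 : ZMod ((m + 1) * (n1 + 2)) → S1, ∑' σ2 : ZMod ((m + 1) * (n2 + 2)) → S2,
      X (slb m σ1 i0) (slb m σ2 i1) * (∏ i ∈ univ.erase i0, W1 i (slb m σ1 i)) *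
        ∏ i ∈ univ.erase i1, W2 i (slb m σ2 i) =
      ∑' s, ∑' t, ∑' s', ∑' t', kT m X s t s' t' * R1 t s * R2 t' s' := by
    rw [ENNReal.tsum_comm]
    have q1 : ∀ σ2 : ZMod ((m + 1) * (n2 + 2)) → S2,
        ∑' σ1 : ZMod ((m + 1) * (n1 + 2)) → S1,
          X (slb m σ1 i0) (slb m σ2 i1) * (∏ i ∈ univ.erase i0, W1 i (slb m σ1 i)) *
            ∏ i ∈ univ.erase i1, W2 i (slb m σ2 i) =
        ∑' s, ∑' t, ker m (fun x => X x (slb m σ2 i1)) s t * R1 t s *
          ∏ i ∈ univ.erase i1, W2 i (slb m σ2 i) := by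
      intro σ2
      rw [ENNReal.tsum_mul_right, e1 fun x => X x (slb m σ2 i1), ← ENNReal.tsum_mul_right]
      refine tsum_congr fun s => ?_
      rw [ENNReal.tsum_mul_right]
    simp only [q1]
    rw [ENNReal.tsum_comm]
    refine tsum_congr fun s => ?_
    rw [ENNReal.tsum_comm]
    refine tsum_congr fun t => ?_
    have q2 := e2 fun y => ker m (fun x => X x y) s t
    have q3 : ∀ σ2 : ZMod ((m + 1) * (n2 + 2)) → S2,
        ker m (fun x => X x (slb m σ2 i1)) s t * R1 t s * ∏ i ∈ univ.erase i1, W2 i (slb m σ2 i) =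
          R1 t s * (ker m (fun x => X x (slb m σ2 i1)) s t *
            ∏ i ∈ univ.erase i1, W2 i (slb m σ2 i)) := fun σ2 => by ring
    simp only [q3]
    rw [ENNReal.tsum_mul_left, q2, ← ENNReal.tsum_mul_left]
    refine tsum_congr fun s' => ?_
    rw [← ENNReal.tsum_mul_left]
    refine tsum_congr fun t' => ?_
    unfold kT
    ring
  rw [h1]
  refine (ent_cs _ R1 R2).trans ?_
  rw [kT_sq]
  exact mul_le_mul' (mul_le_mul' le_rfl (ENNReal.rpow_le_rpow hR1 (by norm_num)))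
    (ENNReal.rpow_le_rpow hR2 (by norm_num))

end

end Vale.Agent.P159.H963.Cbx
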