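import Vale.Agent.P159.H963.Cbx1

/-!
P159 / H963 (764 rows 5145, 5320): the ENTANGLED chessboard on two tori of different sizes, arbitrary
block functions and one functional of a pair of blocks; and the form for torus data (`Dat` of 474).
-/

namespace Vale.Agent.P159.H963.Cbx

open Finset
open scoped ENNReal
open Vale.Agent.P159.H963.Chess (hs tr chain cs_tsum hs_chain tr_chain half_sq)
open Vale.Agent.P159.H474.Cb (pth slb ker cyc_slab hs_ker hs1 blk W4 Dat tot ZD bw fold W4_bw prod_bw)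

noncomputable section

variable {A A1 A2 : Type*}

/-- a product over all pairs but one -/
lemma prod_erase_pair {a b : ℕ} (F : Fin a → Fin b → ℝ≥0∞) (i0 : Fin a) (j0 : Fin b) :
    ∏ p ∈ (univ : Finset (Fin a × Fin b)).erase (i0, j0), F p.1 p.2 =
      (∏ j ∈ univ.erase j0, F i0 j) * ∏ i ∈ univ.erase i0, ∏ j, F i j := by
  classical
  set G : Fin a → Fin b → ℝ≥0∞ := fun i j => if i = i0 ∧ j = j0 then 1 else F i j with hG
  have h1 : ∏ p ∈ (univ : Finset (Fin a × Fin b)).erase (i0, j0), F p.1 p.2 =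
      ∏ p : Fin a × Fin b, G p.1 p.2 := by
    rw [← Finset.mul_prod_erase univ _ (Finset.mem_univ (i0, j0))]
    have : G (i0, j0).1 (i0, j0).2 = 1 := by simp [hG]
    rw [this, one_mul]
    refine Finset.prod_congr rfl fun p hp => ?_
    rw [hG]
    simp only
    rw [if_neg fun h => (Finset.mem_erase.1 hp).1 (Prod.ext h.1 h.2)]
  rw [h1, Fintype.prod_prod_type, ← Finset.mul_prod_erase univ _ (Finset.mem_univ i0)]
  congr 1
  · rw [← Finset.mul_prod_erase univ _ (Finset.mem_univ j0)]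
    have : G i0 j0 = 1 := by simp [hG]
    rw [this, one_mul]
    refine Finset.prod_congr rfl fun j hj => ?_
    rw [hG]
    simp only
    rw [if_neg fun h => (Finset.mem_erase.1 hj).1 h.2]
  · refine Finset.prod_congr rfl fun i hi => Finset.prod_congr rfl fun j _ => ?_
    rw [hG]
    simp only
    rw [if_neg fun h => (Finset.mem_erase.1 hi).1 h.1]

/-- the four quadrants of an entangled functional -/
def X4 (m m' : ℕ) (X : (Fin (m + 2) → Fin (m' + 2) → A1) → (Fin (m + 2) → Fin (m' + 2) → A2) → ℝ≥0∞)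
    (τ : ZMod ((m + 1) * 2) → ZMod ((m' + 1) * 2) → A1)
    (τ' : ZMod ((m + 1) * 2) → ZMod ((m' + 1) * 2) → A2) : ℝ≥0∞ :=
  (X (fun a b => τ ((a : ℕ) : ZMod ((m + 1) * 2)) ((b : ℕ) : ZMod ((m' + 1) * 2)))
      (fun a b => τ' ((a : ℕ) : ZMod ((m + 1) * 2)) ((b : ℕ) : ZMod ((m' + 1) * 2))) *
    X (fun a b => τ (-((a : ℕ) : ZMod ((m + 1) * 2))) ((b : ℕ) : ZMod ((m' + 1) * 2)))
      (fun a b => τ' (-((a : ℕ) : ZMod ((m + 1) * 2))) ((b : ℕ) : ZMod ((m' + 1) * 2)))) *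
  (X (fun a b => τ ((a : ℕ) : ZMod ((m + 1) * 2)) (-((b : ℕ) : ZMod ((m' + 1) * 2))))
      (fun a b => τ' ((a : ℕ) : ZMod ((m + 1) * 2)) (-((b : ℕ) : ZMod ((m' + 1) * 2)))) *
    X (fun a b => τ (-((a : ℕ) : ZMod ((m + 1) * 2))) (-((b : ℕ) : ZMod ((m' + 1) * 2))))
      (fun a b => τ' (-((a : ℕ) : ZMod ((m + 1) * 2))) (-((b : ℕ) : ZMod ((m' + 1) * 2)))))

/-- one strip -/
lemma fd_le (m m' n' : ℕ) [NeZero ((m' + 1) * (n' + 2))] [NeZero ((m + 1) * 2)]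
    [NeZero ((m' + 1) * 2)] (W : Fin (n' + 2) → (Fin (m + 2) → Fin (m' + 2) → A) → ℝ≥0∞) :
    fd m (fun f : Fin (m + 2) → ZMod ((m' + 1) * (n' + 2)) → A =>
      ∏ j : Fin (n' + 2), W j fun a b => f a (((m' + 1) * j + b : ℕ) : ZMod ((m' + 1) * (n' + 2)))) ≤
    ∏ j : Fin (n' + 2), (∑' τ : ZMod ((m + 1) * 2) → ZMod ((m' + 1) * 2) → A,
      W4 m m' (W j) τ) ^ (1 / 2 : ℝ) := by
  have h2 := hs1 (S := ZMod ((m + 1) * 2) → A) m' n' fun j f =>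
    W j (fun a b => f b ((a : ℕ) : ZMod ((m + 1) * 2))) *
      W j fun a b => f b (-((a : ℕ) : ZMod ((m + 1) * 2)))
  unfold fd
  rw [← (Equiv.piComm fun (_ : ZMod ((m' + 1) * (n' + 2))) (_ : ZMod ((m + 1) * 2)) => A).tsum_eq]
  have e : ∀ τ : ZMod ((m' + 1) * (n' + 2)) → ZMod ((m + 1) * 2) → A,
      ((∏ j : Fin (n' + 2), W j fun a b => (Equiv.piComm fun _ _ => A) τ
          ((a : ℕ) : ZMod ((m + 1) * 2))
          (((m' + 1) * j + b : ℕ) : ZMod ((m' + 1) * (n' + 2)))) *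
        ∏ j : Fin (n' + 2), W j fun a b => (Equiv.piComm fun _ _ => A) τ
          (-((a : ℕ) : ZMod ((m + 1) * 2)))
          (((m' + 1) * j + b : ℕ) : ZMod ((m' + 1) * (n' + 2)))) =
      ∏ j : Fin (n' + 2), (W j (fun a b => slb m' τ j b ((a : ℕ) : ZMod ((m + 1) * 2))) *
        W j fun a b => slb m' τ j b (-((a : ℕ) : ZMod ((m + 1) * 2)))) := by
    intro τ
    rw [← Finset.prod_mul_distrib]
    rfl
  simp only [e]
  refine h2.trans (le_of_eq ?_)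
  refine Finset.prod_congr rfl fun j _ => ?_
  rw [← (Equiv.piComm fun (_ : ZMod ((m' + 1) * 2)) (_ : ZMod ((m + 1) * 2)) => A).tsum_eq]
  rfl

/-- the entangled strip -/
lemma fd2_le (m m' : ℕ) {n1' n2' : ℕ} [NeZero ((m' + 1) * (n1' + 2))] [NeZero ((m' + 1) * (n2' + 2))]
    [NeZero ((m + 1) * 2)] [NeZero ((m' + 1) * 2)] (j0 : Fin (n1' + 2)) (j1 : Fin (n2' + 2))
    (X : (Fin (m + 2) → Fin (m' + 2) → A1) → (Fin (m + 2) → Fin (m' + 2) → A2) → ℝ≥0∞)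
    (W1 : Fin (n1' + 2) → (Fin (m + 2) → Fin (m' + 2) → A1) → ℝ≥0∞)
    (W2 : Fin (n2' + 2) → (Fin (m + 2) → Fin (m' + 2) → A2) → ℝ≥0∞) :
    fd2 m (fun (f : Fin (m + 2) → ZMod ((m' + 1) * (n1' + 2)) → A1)
        (g : Fin (m + 2) → ZMod ((m' + 1) * (n2' + 2)) → A2) =>
      X (fun a b => f a (((m' + 1) * j0 + b : ℕ) : ZMod ((m' + 1) * (n1' + 2))))
          (fun a b => g a (((m' + 1) * j1 + b : ℕ) : ZMod ((m' + 1) * (n2' + 2)))) *
        (∏ j ∈ univ.erase j0, W1 j fun a b =>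
          f a (((m' + 1) * j + b : ℕ) : ZMod ((m' + 1) * (n1' + 2)))) *
        ∏ j ∈ univ.erase j1, W2 j fun a b =>
          g a (((m' + 1) * j + b : ℕ) : ZMod ((m' + 1) * (n2' + 2)))) ≤
    (∑' τ, ∑' τ', X4 m m' X τ τ') ^ (1 / 2 : ℝ) *
      (∏ j ∈ univ.erase j0, ∑' τ, W4 m m' (W1 j) τ) ^ (1 / 2 : ℝ) *
      (∏ j ∈ univ.erase j1, ∑' τ, W4 m m' (W2 j) τ) ^ (1 / 2 : ℝ) := by
  have h := ent1 (S1 := ZMod ((m + 1) * 2) → A1) (S2 := ZMod ((m + 1) * 2) → A2) m' j0 j1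
    (fun f g => X (fun a b => f b ((a : ℕ) : ZMod ((m + 1) * 2)))
        (fun a b => g b ((a : ℕ) : ZMod ((m + 1) * 2))) *
      X (fun a b => f b (-((a : ℕ) : ZMod ((m + 1) * 2))))
        fun a b => g b (-((a : ℕ) : ZMod ((m + 1) * 2))))
    (fun j f => W1 j (fun a b => f b ((a : ℕ) : ZMod ((m + 1) * 2))) *
      W1 j fun a b => f b (-((a : ℕ) : ZMod ((m + 1) * 2))))
    (fun j f => W2 j (fun a b => f b ((a : ℕ) : ZMod ((m + 1) * 2))) *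
      W2 j fun a b => f b (-((a : ℕ) : ZMod ((m + 1) * 2))))
  refine le_trans (le_of_eq ?_) (h.trans (le_of_eq ?_))
  · unfold fd2
    rw [← (Equiv.piComm fun (_ : ZMod ((m' + 1) * (n1' + 2))) (_ : ZMod ((m + 1) * 2)) =>
      A1).tsum_eq]
    refine tsum_congr fun τ => ?_
    rw [← (Equiv.piComm fun (_ : ZMod ((m' + 1) * (n2' + 2))) (_ : ZMod ((m + 1) * 2)) =>
      A2).tsum_eq]
    refine tsum_congr fun τ' => ?_
    simp only [Finset.prod_mul_distrib]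
    simp only [Equiv.piComm_apply, Function.swap, slb]
    ring
  · congr 1
    · congr 1
      · congr 1
        unfold fd2
        rw [← (Equiv.piComm fun (_ : ZMod ((m + 1) * 2)) (_ : ZMod ((m' + 1) * 2)) => A1).tsum_eq]
        refine tsum_congr fun τ => ?_
        rw [← (Equiv.piComm fun (_ : ZMod ((m + 1) * 2)) (_ : ZMod ((m' + 1) * 2)) => A2).tsum_eq]
        rfl
      · congr 1
        refine Finset.prod_congr rfl fun j _ => ?_
        unfold fd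
        rw [← (Equiv.piComm fun (_ : ZMod ((m + 1) * 2)) (_ : ZMod ((m' + 1) * 2)) => A1).tsum_eq]
        rfl
    · congr 1
      refine Finset.prod_congr rfl fun j _ => ?_
      unfold fd
      rw [← (Equiv.piComm fun (_ : ZMod ((m + 1) * 2)) (_ : ZMod ((m' + 1) * 2)) => A2).tsum_eq]
      rfl

/-- **the entangled chessboard on two tori, arbitrary block functions** -/
theorem ent2 (m m' : ℕ) {n1 n1' n2 n2' : ℕ} [NeZero ((m + 1) * (n1 + 2))]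
    [NeZero ((m' + 1) * (n1' + 2))] [NeZero ((m + 1) * (n2 + 2))] [NeZero ((m' + 1) * (n2' + 2))]
    [NeZero ((m + 1) * 2)] [NeZero ((m' + 1) * 2)] (i0 : Fin (n1 + 2)) (j0 : Fin (n1' + 2))
    (i1 : Fin (n2 + 2)) (j1 : Fin (n2' + 2))
    (X : (Fin (m + 2) → Fin (m' + 2) → A1) → (Fin (m + 2) → Fin (m' + 2) → A2) → ℝ≥0∞)
    (W1 : Fin (n1 + 2) → Fin (n1' + 2) → (Fin (m + 2) → Fin (m' + 2) → A1) → ℝ≥0∞)
    (W2 : Fin (n2 + 2) → Fin (n2' + 2) → (Fin (m + 2) → Fin (m' + 2) → A2) → ℝ≥0∞) :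
    ∑' σ1 : ZMod ((m + 1) * (n1 + 2)) → ZMod ((m' + 1) * (n1' + 2)) → A1,
    ∑' σ2 : ZMod ((m + 1) * (n2 + 2)) → ZMod ((m' + 1) * (n2' + 2)) → A2,
      X (blk m m' σ1 i0 j0) (blk m m' σ2 i1 j1) *
        (∏ p ∈ (univ : Finset (Fin (n1 + 2) × Fin (n1' + 2))).erase (i0, j0),
          W1 p.1 p.2 (blk m m' σ1 p.1 p.2)) *
        ∏ p ∈ (univ : Finset (Fin (n2 + 2) × Fin (n2' + 2))).erase (i1, j1),
          W2 p.1 p.2 (blk m m' σ2 p.1 p.2) ≤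
    (∑' τ, ∑' τ', X4 m m' X τ τ') ^ (1 / 4 : ℝ) *
      (∏ p ∈ (univ : Finset (Fin (n1 + 2) × Fin (n1' + 2))).erase (i0, j0),
        (∑' τ, W4 m m' (W1 p.1 p.2) τ) ^ (1 / 4 : ℝ)) *
      ∏ p ∈ (univ : Finset (Fin (n2 + 2) × Fin (n2' + 2))).erase (i1, j1),
        (∑' τ, W4 m m' (W2 p.1 p.2) τ) ^ (1 / 4 : ℝ) := by
  -- first direction
  have h := ent1 (S1 := ZMod ((m' + 1) * (n1' + 2)) → A1) (S2 := ZMod ((m' + 1) * (n2' + 2)) → A2)
    m i0 i1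
    (fun f g => X (fun a b => f a (((m' + 1) * j0 + b : ℕ) : ZMod ((m' + 1) * (n1' + 2))))
          (fun a b => g a (((m' + 1) * j1 + b : ℕ) : ZMod ((m' + 1) * (n2' + 2)))) *
        (∏ j ∈ univ.erase j0, W1 i0 j fun a b =>
          f a (((m' + 1) * j + b : ℕ) : ZMod ((m' + 1) * (n1' + 2)))) *
        ∏ j ∈ univ.erase j1, W2 i1 j fun a b =>
          g a (((m' + 1) * j + b : ℕ) : ZMod ((m' + 1) * (n2' + 2))))
    (fun i f => ∏ j : Fin (n1' + 2), W1 i j fun a b =>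
      f a (((m' + 1) * j + b : ℕ) : ZMod ((m' + 1) * (n1' + 2))))
    (fun i g => ∏ j : Fin (n2' + 2), W2 i j fun a b =>
      g a (((m' + 1) * j + b : ℕ) : ZMod ((m' + 1) * (n2' + 2))))
  refine le_trans (le_of_eq ?_) (h.trans ?_)
  · refine tsum_congr fun σ1 => tsum_congr fun σ2 => ?_
    rw [prod_erase_pair (fun i j => W1 i j (blk m m' σ1 i j)),
      prod_erase_pair (fun i j => W2 i j (blk m m' σ2 i j))]
    show X (blk m m' σ1 i0 j0) (blk m m' σ2 i1 j1) *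
          ((∏ j ∈ univ.erase j0, W1 i0 j (blk m m' σ1 i0 j)) *
            ∏ i ∈ univ.erase i0, ∏ j, W1 i j (blk m m' σ1 i j)) *
          ((∏ j ∈ univ.erase j1, W2 i1 j (blk m m' σ2 i1 j)) *
            ∏ i ∈ univ.erase i1, ∏ j, W2 i j (blk m m' σ2 i j)) =
        (X (blk m m' σ1 i0 j0) (blk m m' σ2 i1 j1) *
          (∏ j ∈ univ.erase j0, W1 i0 j (blk m m' σ1 i0 j)) *
          ∏ j ∈ univ.erase j1, W2 i1 j (blk m m' σ2 i1 j)) *
        (∏ i ∈ univ.erase i0, ∏ j, W1 i j (blk m m' σ1 i j)) *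
        ∏ i ∈ univ.erase i1, ∏ j, W2 i j (blk m m' σ2 i j)
    ring
  -- second direction
  have hX := fd2_le m m' j0 j1 X (W1 i0) (W2 i1)
  have e1 : ∀ x : ℝ≥0∞, x ^ (1 / 4 : ℝ) = (x ^ (1 / 2 : ℝ)) ^ (1 / 2 : ℝ) := fun x => by
    rw [← ENNReal.rpow_mul]
    norm_num
  have e2 : ∀ {ι : Type} (s : Finset ι) (F : ι → ℝ≥0∞), (∏ i ∈ s, F i) ^ (1 / 2 : ℝ) =
      ∏ i ∈ s, F i ^ (1 / 2 : ℝ) := fun s F =>
    (ENNReal.prod_rpow_of_nonneg (by norm_num)).symm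
  have em : ∀ x y : ℝ≥0∞, (x * y) ^ (1 / 2 : ℝ) = x ^ (1 / 2 : ℝ) * y ^ (1 / 2 : ℝ) := fun x y =>
    ENNReal.mul_rpow_of_nonneg _ _ (by norm_num)
  have k1 : (∏ i ∈ univ.erase i0, fd m fun f : Fin (m + 2) → ZMod ((m' + 1) * (n1' + 2)) → A1 =>
      ∏ j : Fin (n1' + 2), W1 i j fun a b =>
        f a (((m' + 1) * j + b : ℕ) : ZMod ((m' + 1) * (n1' + 2)))) ^ (1 / 2 : ℝ) ≤
      ∏ i ∈ univ.erase i0, ∏ j, (∑' τ, W4 m m' (W1 i j) τ) ^ (1 / 4 : ℝ) := by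
    rw [e2]
    refine Finset.prod_le_prod' fun i _ => ?_
    refine (ENNReal.rpow_le_rpow (fd_le m m' n1' (W1 i)) (by norm_num)).trans (le_of_eq ?_)
    rw [e2]
    exact Finset.prod_congr rfl fun j _ => (e1 _).symm
  have k2 : (∏ i ∈ univ.erase i1, fd m fun g : Fin (m + 2) → ZMod ((m' + 1) * (n2' + 2)) → A2 =>
      ∏ j : Fin (n2' + 2), W2 i j fun a b =>
        g a (((m' + 1) * j + b : ℕ) : ZMod ((m' + 1) * (n2' + 2)))) ^ (1 / 2 : ℝ) ≤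
      ∏ i ∈ univ.erase i1, ∏ j, (∑' τ, W4 m m' (W2 i j) τ) ^ (1 / 4 : ℝ) := by
    rw [e2]
    refine Finset.prod_le_prod' fun i _ => ?_
    refine (ENNReal.rpow_le_rpow (fd_le m m' n2' (W2 i)) (by norm_num)).trans (le_of_eq ?_)
    rw [e2]
    exact Finset.prod_congr rfl fun j _ => (e1 _).symm
  have k0 := ENNReal.rpow_le_rpow hX (by norm_num : (0 : ℝ) ≤ 1 / 2)
  rw [em, em, ← e1, ← e1, ← e1] at k0
  have e4 : ∀ {ι : Type} (s : Finset ι) (F : ι → ℝ≥0∞), (∏ i ∈ s, F i) ^ (1 / 4 : ℝ) =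
      ∏ i ∈ s, F i ^ (1 / 4 : ℝ) := fun s F =>
    (ENNReal.prod_rpow_of_nonneg (by norm_num)).symm
  rw [e4, e4] at k0
  refine (mul_le_mul' (mul_le_mul' k0 k1) k2).trans (le_of_eq ?_)
  rw [prod_erase_pair (fun i j => (∑' τ, W4 m m' (W1 i j) τ) ^ (1 / 4 : ℝ)),
    prod_erase_pair (fun i j => (∑' τ, W4 m m' (W2 i j) τ) ^ (1 / 4 : ℝ))]
  ring

/-- **the entangled chessboard for torus data**: copy 1 on one torus, copy 2 on another one, `G` any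
functional of the block `(i0, j0)` of copy 1 and the block `(i1, j1)` of copy 2 -/
theorem chess_ent {m m' n1 n1' n2 n2' : ℕ} [NeZero ((m + 1) * (n1 + 2))]
    [NeZero ((m' + 1) * (n1' + 2))] [NeZero ((m + 1) * (n2 + 2))] [NeZero ((m' + 1) * (n2' + 2))]
    [NeZero ((m + 1) * 2)] [NeZero ((m' + 1) * 2)]
    (D1 : Dat ((m + 1) * (n1 + 2)) ((m' + 1) * (n1' + 2)) A1)
    (D2 : Dat ((m + 1) * (n2 + 2)) ((m' + 1) * (n2' + 2)) A2) (i0 : Fin (n1 + 2)) (j0 : Fin (n1' + 2))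
    (i1 : Fin (n2 + 2)) (j1 : Fin (n2' + 2))
    (G : (Fin (m + 2) → Fin (m' + 2) → A1) → (Fin (m + 2) → Fin (m' + 2) → A2) → ℝ≥0∞)
    (hG : ∀ x y, G x y ≤ 1) :
    ∑' σ1, ∑' σ2, tot D1 σ1 * tot D2 σ2 * G (blk m m' σ1 i0 j0) (blk m m' σ2 i1 j1) ≤
      (∑' τ, ∑' τ', tot (fold m m' D1 i0 j0) τ * tot (fold m m' D2 i1 j1) τ' *
        G (fun a b => τ ((a : ℕ) : ZMod ((m + 1) * 2)) ((b : ℕ) : ZMod ((m' + 1) * 2)))
          fun a b => τ' ((a : ℕ) : ZMod ((m + 1) * 2)) ((b : ℕ) : ZMod ((m' + 1) * 2))) ^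
            (1 / 4 : ℝ) *
      (∏ p ∈ (univ : Finset (Fin (n1 + 2) × Fin (n1' + 2))).erase (i0, j0),
        ZD (fold m m' D1 p.1 p.2) ^ (1 / 4 : ℝ)) *
      ∏ p ∈ (univ : Finset (Fin (n2 + 2) × Fin (n2' + 2))).erase (i1, j1),
        ZD (fold m m' D2 p.1 p.2) ^ (1 / 4 : ℝ) := by
  classical
  have h := ent2 (A1 := A1) (A2 := A2) m m' i0 j0 i1 j1
    (fun x y => bw m m' D1 i0 j0 x * bw m m' D2 i1 j1 y * G x y)
    (fun i j => bw m m' D1 i j) fun i j => bw m m' D2 i j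
  refine le_trans (le_of_eq ?_) (h.trans ?_)
  · refine tsum_congr fun σ1 => tsum_congr fun σ2 => ?_
    have e1 : tot D1 σ1 = bw m m' D1 i0 j0 (blk m m' σ1 i0 j0) *
        ∏ p ∈ (univ : Finset (Fin (n1 + 2) × Fin (n1' + 2))).erase (i0, j0),
          bw m m' D1 p.1 p.2 (blk m m' σ1 p.1 p.2) := by
      rw [← prod_bw D1 σ1, ← Fintype.prod_prod_type' (f := fun (i : Fin (n1 + 2))
        (j : Fin (n1' + 2)) => bw m m' D1 i j (blk m m' σ1 i j)),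
        ← Finset.mul_prod_erase univ _ (Finset.mem_univ (i0, j0))]
    have e2 : tot D2 σ2 = bw m m' D2 i1 j1 (blk m m' σ2 i1 j1) *
        ∏ p ∈ (univ : Finset (Fin (n2 + 2) × Fin (n2' + 2))).erase (i1, j1),
          bw m m' D2 p.1 p.2 (blk m m' σ2 p.1 p.2) := by
      rw [← prod_bw D2 σ2, ← Fintype.prod_prod_type' (f := fun (i : Fin (n2 + 2))
        (j : Fin (n2' + 2)) => bw m m' D2 i j (blk m m' σ2 i j)),
        ← Finset.mul_prod_erase univ _ (Finset.mem_univ (i1, j1))]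
    rw [e1, e2]
    ring
  · have hz1 : ∀ i : Fin (n1 + 2), ∀ j : Fin (n1' + 2), ∑' τ, W4 m m' (bw m m' D1 i j) τ =
        ZD (fold m m' D1 i j) := fun i j => tsum_congr fun τ => W4_bw D1 i j τ
    have hz2 : ∀ i : Fin (n2 + 2), ∀ j : Fin (n2' + 2), ∑' τ, W4 m m' (bw m m' D2 i j) τ =
        ZD (fold m m' D2 i j) := fun i j => tsum_congr fun τ => W4_bw D2 i j τ
    simp only [hz1, hz2]
    refine mul_le_mul' (mul_le_mul' (ENNReal.rpow_le_rpow (ENNReal.tsum_le_tsum fun τ =>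
      ENNReal.tsum_le_tsum fun τ' => ?_) (by norm_num)) le_rfl) le_rfl
    rw [← W4_bw, ← W4_bw]
    unfold X4 W4
    set u1 : Fin (m + 2) → Fin (m' + 2) → A1 := fun a b => τ ((a : ℕ) : ZMod ((m + 1) * 2))
      ((b : ℕ) : ZMod ((m' + 1) * 2))
    set u2 : Fin (m + 2) → Fin (m' + 2) → A1 := fun a b => τ (-((a : ℕ) : ZMod ((m + 1) * 2)))
      ((b : ℕ) : ZMod ((m' + 1) * 2))
    set u3 : Fin (m + 2) → Fin (m' + 2) → A1 := fun a b => τ ((a : ℕ) : ZMod ((m + 1) * 2))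
      (-((b : ℕ) : ZMod ((m' + 1) * 2)))
    set u4 : Fin (m + 2) → Fin (m' + 2) → A1 := fun a b => τ (-((a : ℕ) : ZMod ((m + 1) * 2)))
      (-((b : ℕ) : ZMod ((m' + 1) * 2)))
    set v1 : Fin (m + 2) → Fin (m' + 2) → A2 := fun a b => τ' ((a : ℕ) : ZMod ((m + 1) * 2))
      ((b : ℕ) : ZMod ((m' + 1) * 2))
    set v2 : Fin (m + 2) → Fin (m' + 2) → A2 := fun a b => τ' (-((a : ℕ) : ZMod ((m + 1) * 2)))
      ((b : ℕ) : ZMod ((m' + 1) * 2))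
    set v3 : Fin (m + 2) → Fin (m' + 2) → A2 := fun a b => τ' ((a : ℕ) : ZMod ((m + 1) * 2))
      (-((b : ℕ) : ZMod ((m' + 1) * 2)))
    set v4 : Fin (m + 2) → Fin (m' + 2) → A2 := fun a b => τ' (-((a : ℕ) : ZMod ((m + 1) * 2)))
      (-((b : ℕ) : ZMod ((m' + 1) * 2)))
    set P1 := bw m m' D1 i0 j0
    set P2 := bw m m' D2 i1 j1
    calc P1 u1 * P2 v1 * G u1 v1 * (P1 u2 * P2 v2 * G u2 v2) *
          (P1 u3 * P2 v3 * G u3 v3 * (P1 u4 * P2 v4 * G u4 v4))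
        = P1 u1 * P1 u2 * (P1 u3 * P1 u4) * (P2 v1 * P2 v2 * (P2 v3 * P2 v4)) * G u1 v1 *
            (G u2 v2 * G u3 v3 * G u4 v4) := by ring
      _ ≤ P1 u1 * P1 u2 * (P1 u3 * P1 u4) * (P2 v1 * P2 v2 * (P2 v3 * P2 v4)) * G u1 v1 * 1 := by
          refine mul_le_mul' le_rfl ?_
          calc G u2 v2 * G u3 v3 * G u4 v4 ≤ 1 * 1 * 1 :=
              mul_le_mul' (mul_le_mul' (hG _ _) (hG _ _)) (hG _ _)
            _ = 1 := by simp
      _ = _ := by rw [mul_one]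

end

end Vale.Agent.P159.H963.Cbx
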