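import Mathlib

/-!
P159, module CHESS (helper963), part 1: nonnegative kernels, Hilbert-Schmidt norms, cyclic chains.
Everything takes values in the extended nonnegative reals.
-/

namespace Vale.Agent.P159.H963.Chess

open Finset
open scoped ENNReal

noncomputable section

/-- Cauchy-Schwarz for sums of extended nonnegative reals -/
lemma cs_tsum {α : Type*} (a b : α → ℝ≥0∞) :
    ∑' i, a i * b i ≤ (∑' i, a i ^ 2) ^ (1 / 2 : ℝ) * (∑' i, b i ^ 2) ^ (1 / 2 : ℝ) := by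
  rw [ENNReal.tsum_eq_iSup_sum]
  refine iSup_le fun s => ?_
  have h1 := ENNReal.inner_le_Lp_mul_Lq s a b (p := 2) (q := 2) Real.HolderConjugate.two_two
  refine h1.trans ?_
  have h2 : ∀ f : α → ℝ≥0∞, (∑ i ∈ s, f i ^ (2 : ℝ)) ^ (1 / 2 : ℝ) ≤ (∑' i, f i ^ 2) ^ (1 / 2 : ℝ) := by
    intro f
    refine ENNReal.rpow_le_rpow ?_ (by norm_num)
    have : ∀ i, f i ^ (2 : ℝ) = f i ^ 2 := fun i => by
      rw [← ENNReal.rpow_natCast]; norm_num
    simp only [this]
    exact ENNReal.sum_le_tsum s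
  exact mul_le_mul' (h2 a) (h2 b)

lemma half_sq (x : ℝ≥0∞) : (x ^ (1 / 2 : ℝ)) ^ 2 = x := by
  rw [← ENNReal.rpow_natCast, ← ENNReal.rpow_mul]
  norm_num

lemma half_mul_half (x : ℝ≥0∞) : x ^ (1 / 2 : ℝ) * x ^ (1 / 2 : ℝ) = x := by
  rw [← sq, half_sq]

lemma cs_sq {α : Type*} (a b : α → ℝ≥0∞) :
    (∑' i, a i * b i) ^ 2 ≤ (∑' i, a i ^ 2) * ∑' i, b i ^ 2 := by
  have h := cs_tsum a b
  calc (∑' i, a i * b i) ^ 2
      ≤ ((∑' i, a i ^ 2) ^ (1 / 2 : ℝ) * (∑' i, b i ^ 2) ^ (1 / 2 : ℝ)) ^ 2 :=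
        pow_le_pow_left' h 2
    _ = _ := by rw [mul_pow, half_sq, half_sq]

variable {S : Type*}

/-- composition of kernels -/
def cmp (A B : S → S → ℝ≥0∞) (s s'' : S) : ℝ≥0∞ := ∑' s', A s s' * B s' s''

/-- squared Hilbert-Schmidt norm -/
def hs (A : S → S → ℝ≥0∞) : ℝ≥0∞ := ∑' s, ∑' s', A s s' ^ 2

/-- trace -/
def tr (A : S → S → ℝ≥0∞) : ℝ≥0∞ := ∑' s, A s s

lemma cmp_assoc (A B C : S → S → ℝ≥0∞) : cmp (cmp A B) C = cmp A (cmp B C) := by
  funext s s'''
  unfold cmp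
  simp only [← ENNReal.tsum_mul_right, ← ENNReal.tsum_mul_left]
  rw [ENNReal.tsum_comm]
  refine tsum_congr fun s' => tsum_congr fun s'' => ?_
  rw [mul_assoc]

lemma hs_cmp (A B : S → S → ℝ≥0∞) : hs (cmp A B) ≤ hs A * hs B := by
  unfold hs cmp
  calc ∑' s, ∑' s'', (∑' s', A s s' * B s' s'') ^ 2
      ≤ ∑' s, ∑' s'', (∑' s', A s s' ^ 2) * ∑' s', B s' s'' ^ 2 :=
        ENNReal.tsum_le_tsum fun s => ENNReal.tsum_le_tsum fun s'' => cs_sq _ _
    _ = (∑' s, ∑' s', A s s' ^ 2) * ∑' s'', ∑' s', B s' s'' ^ 2 := by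
        rw [← ENNReal.tsum_mul_right]
        refine tsum_congr fun s => ?_
        rw [ENNReal.tsum_mul_left]
    _ = _ := by
        congr 1
        rw [ENNReal.tsum_comm]

lemma tr_cmp (A B : S → S → ℝ≥0∞) : tr (cmp A B) ≤ hs A ^ (1 / 2 : ℝ) * hs B ^ (1 / 2 : ℝ) := by
  unfold tr hs cmp
  have h := cs_tsum (fun p : S × S => A p.1 p.2) fun p : S × S => B p.2 p.1
  rw [ENNReal.tsum_prod' (f := fun p : S × S => A p.1 p.2 * B p.2 p.1),
    ENNReal.tsum_prod' (f := fun p : S × S => A p.1 p.2 ^ 2),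
    ENNReal.tsum_prod' (f := fun p : S × S => B p.2 p.1 ^ 2)] at h
  simp only at h
  rw [ENNReal.tsum_comm (f := fun a b => B b a ^ 2)] at h
  exact h

/-- product of a nonempty list of kernels given by a function -/
def chain (T : ℕ → S → S → ℝ≥0∞) : ℕ → S → S → ℝ≥0∞
  | 0 => T 0
  | n + 1 => cmp (chain T n) (T (n + 1))

lemma hs_chain (T : ℕ → S → S → ℝ≥0∞) (n : ℕ) : hs (chain T n) ≤ ∏ i ∈ range (n + 1), hs (T i) := by
  induction n with
  | zero => simp [chain]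
  | succ n ih =>
    rw [Finset.prod_range_succ]
    exact (hs_cmp _ _).trans (mul_le_mul' ih le_rfl)

/-- **the trace of a product of at least two kernels** -/
theorem tr_chain (T : ℕ → S → S → ℝ≥0∞) (n : ℕ) :
    tr (chain T (n + 1)) ≤ ∏ i ∈ range (n + 2), hs (T i) ^ (1 / 2 : ℝ) := by
  have h1 : tr (chain T (n + 1)) ≤ hs (chain T n) ^ (1 / 2 : ℝ) * hs (T (n + 1)) ^ (1 / 2 : ℝ) :=
    tr_cmp _ _
  refine h1.trans ?_
  rw [Finset.prod_range_succ]
  refine mul_le_mul' ?_ le_rfl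
  refine (ENNReal.rpow_le_rpow (hs_chain T n) (by norm_num)).trans (le_of_eq ?_)
  exact (ENNReal.prod_rpow_of_nonneg (by norm_num)).symm

/-! ### chains of columns -/

variable (k : S → S → ℝ≥0∞) (ρ : ℕ → S → ℝ≥0∞)

/-- open chain from column `i` to column `i + m + 1`, without the weights of the two ends -/
def F (i : ℕ) : ℕ → S → S → ℝ≥0∞
  | 0 => k
  | m + 1 => fun s s'' => ∑' s', F i m s s' * ρ (i + m + 1) s' * k s' s''

lemma F_zero (i : ℕ) : F k ρ i 0 = k := rfl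

lemma F_succ (i m : ℕ) (s s'' : S) : F k ρ i (m + 1) s s'' =
    ∑' s', F k ρ i m s s' * ρ (i + m + 1) s' * k s' s'' := rfl

lemma F_add (i m m' : ℕ) (s s'' : S) : F k ρ i (m + m' + 1) s s'' =
    ∑' s', F k ρ i m s s' * ρ (i + m + 1) s' * F k ρ (i + m + 1) m' s' s'' := by
  induction m' generalizing s'' with
  | zero => rfl
  | succ m' ih =>
    have e2 : i + (m + m' + 1) + 1 = i + m + 1 + m' + 1 := by ring
    calc F k ρ i (m + (m' + 1) + 1) s s''
        = ∑' t, F k ρ i (m + m' + 1) s t * ρ (i + (m + m' + 1) + 1) t * k t s'' := rfl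
      _ = ∑' t, (∑' s', F k ρ i m s s' * ρ (i + m + 1) s' * F k ρ (i + m + 1) m' s' t) *
            ρ (i + m + 1 + m' + 1) t * k t s'' := by
          refine tsum_congr fun t => ?_
          rw [ih, e2]
      _ = ∑' t, ∑' s', F k ρ i m s s' * ρ (i + m + 1) s' * (F k ρ (i + m + 1) m' s' t *
            ρ (i + m + 1 + m' + 1) t * k t s'') := by
          refine tsum_congr fun t => ?_
          rw [← ENNReal.tsum_mul_right, ← ENNReal.tsum_mul_right]
          refine tsum_congr fun s' => ?_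
          ring
      _ = ∑' s', ∑' t, F k ρ i m s s' * ρ (i + m + 1) s' * (F k ρ (i + m + 1) m' s' t *
            ρ (i + m + 1 + m' + 1) t * k t s'') := ENNReal.tsum_comm
      _ = ∑' s', F k ρ i m s s' * ρ (i + m + 1) s' * F k ρ (i + m + 1) (m' + 1) s' s'' := by
          refine tsum_congr fun s' => ?_
          rw [ENNReal.tsum_mul_left]
          rfl

lemma F_left (i m : ℕ) (s s'' : S) : F k ρ i (m + 1) s s'' =
    ∑' s', k s s' * ρ (i + 1) s' * F k ρ (i + 1) m s' s'' := by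
  have h := F_add k ρ i 0 m s s''
  rw [zero_add] at h
  exact h

lemma F_congr {ρ ρ' : ℕ → S → ℝ≥0∞} {i i' m : ℕ}
    (h : ∀ j < m, ρ (i + j + 1) = ρ' (i' + j + 1)) : F k ρ i m = F k ρ' i' m := by
  induction m with
  | zero => rfl
  | succ m ih =>
    funext s s''
    rw [F_succ, F_succ, ih fun j hj => h j (by omega), h m (by omega)]

/-- reversal -/
lemma F_rev (hk : ∀ s s', k s s' = k s' s) {ρ ρ' : ℕ → S → ℝ≥0∞} {i i' m : ℕ}
    (h : ∀ j < m, ρ' (i' + j + 1) = ρ (i + m - j)) (s s' : S) :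
    F k ρ' i' m s' s = F k ρ i m s s' := by
  induction m generalizing i s s' with
  | zero => exact hk s' s
  | succ m ih =>
    rw [F_succ, F_left]
    refine tsum_congr fun t => ?_
    have h1 : F k ρ' i' m s' t = F k ρ (i + 1) m t s' := by
      refine ih (fun j hj => ?_) t s'
      rw [h j (by omega)]
      congr 1
      omega
    have h2 : ρ' (i' + m + 1) = ρ (i + 1) := by
      rw [h m (by omega)]
      congr 1
      omega
    rw [h1, h2, hk t s]
    ring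

/-- the cyclic chain with `a + 1` columns -/
def Zc (a : ℕ) : ℝ≥0∞ := ∑' s, ρ 0 s * F k ρ 0 a s s

/-- symmetrised block of `m + 1` steps -/
def Tb (m i : ℕ) (s s' : S) : ℝ≥0∞ :=
  ρ ((m + 1) * i) s ^ (1 / 2 : ℝ) * F k ρ ((m + 1) * i) m s s' *
    ρ ((m + 1) * (i + 1)) s' ^ (1 / 2 : ℝ)

lemma chain_Tb (m n : ℕ) (s s' : S) : chain (Tb k ρ m) n s s' =
    ρ 0 s ^ (1 / 2 : ℝ) * F k ρ 0 ((m + 1) * (n + 1) - 1) s s' *
      ρ ((m + 1) * (n + 1)) s' ^ (1 / 2 : ℝ) := by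
  induction n generalizing s' with
  | zero =>
    unfold chain Tb
    simp
  | succ n ih =>
    have e1 : chain (Tb k ρ m) (n + 1) s s' =
        ∑' t, chain (Tb k ρ m) n s t * Tb k ρ m (n + 1) t s' := rfl
    rw [e1]
    have e2 : (m + 1) * (n + 1 + 1) - 1 = ((m + 1) * (n + 1) - 1) + m + 1 := by
      have : (m + 1) * (n + 1 + 1) = (m + 1) * (n + 1) + (m + 1) := by ring
      rw [this]
      have h1 : 1 ≤ (m + 1) * (n + 1) := Nat.one_le_iff_ne_zero.2 (by positivity)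
      omega
    rw [e2, F_add, ← ENNReal.tsum_mul_left, ← ENNReal.tsum_mul_right]
    refine tsum_congr fun t => ?_
    have e3 : 0 + ((m + 1) * (n + 1) - 1) + 1 = (m + 1) * (n + 1) := by
      have h1 : 1 ≤ (m + 1) * (n + 1) := Nat.one_le_iff_ne_zero.2 (by positivity)
      omega
    rw [ih, e3]
    unfold Tb
    have h2 := half_mul_half (ρ ((m + 1) * (n + 1)) t)
    calc _ = ρ 0 s ^ (1 / 2 : ℝ) * F k ρ 0 ((m + 1) * (n + 1) - 1) s t *
          (ρ ((m + 1) * (n + 1)) t ^ (1 / 2 : ℝ) * ρ ((m + 1) * (n + 1)) t ^ (1 / 2 : ℝ)) *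
          F k ρ ((m + 1) * (n + 1)) m t s' * ρ ((m + 1) * (n + 1 + 1)) s' ^ (1 / 2 : ℝ) := by ring
      _ = _ := by rw [h2]; ring

/-- the folded index : `0, 1, …, m + 1, m, …, 1` -/
def fold (m j : ℕ) : ℕ := min j (2 * (m + 1) - j)

/-- the weights of the block `i` folded -/
def fρ (m i : ℕ) (j : ℕ) : S → ℝ≥0∞ := ρ ((m + 1) * i + fold m j)

/-- the Hilbert-Schmidt norm of a block is the partition function of the doubled block -/
lemma hs_Tb (hk : ∀ s s', k s s' = k s' s) (m i : ℕ) :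
    hs (Tb k ρ m i) = Zc k (fρ ρ m i) (2 * (m + 1) - 1) := by
  have e : 2 * (m + 1) - 1 = m + m + 1 := by omega
  rw [e]
  unfold Zc hs
  refine tsum_congr fun s => ?_
  rw [F_add, ← ENNReal.tsum_mul_left]
  refine tsum_congr fun t => ?_
  have h1 : F k (fρ ρ m i) 0 m = F k ρ ((m + 1) * i) m := by
    refine F_congr k fun j hj => ?_
    unfold fρ fold
    congr 1
    have : min (0 + j + 1) (2 * (m + 1) - (0 + j + 1)) = j + 1 := by omega
    rw [this]
    ring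
  have h2 : F k (fρ ρ m i) (0 + m + 1) m t s = F k ρ ((m + 1) * i) m s t := by
    refine F_rev k hk (fun j hj => ?_) s t
    unfold fρ fold
    congr 1
    have : min (0 + m + 1 + j + 1) (2 * (m + 1) - (0 + m + 1 + j + 1)) = m - j := by omega
    rw [this]
    omega
  have h3 : fρ ρ m i 0 = ρ ((m + 1) * i) := by
    unfold fρ fold
    simp
  have h4 : fρ ρ m i (0 + m + 1) = ρ ((m + 1) * (i + 1)) := by
    unfold fρ fold
    congr 1
    have : min (0 + m + 1) (2 * (m + 1) - (0 + m + 1)) = m + 1 := by omega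
    rw [this]
    ring
  rw [h1, h2, h3, h4]
  unfold Tb
  calc _ = (ρ ((m + 1) * i) s ^ (1 / 2 : ℝ)) ^ 2 * F k ρ ((m + 1) * i) m s t ^ 2 *
        (ρ ((m + 1) * (i + 1)) t ^ (1 / 2 : ℝ)) ^ 2 := by ring
    _ = _ := by rw [half_sq, half_sq]; ring

/-- **chessboard in one direction** -/
theorem Zc_le (hk : ∀ s s', k s s' = k s' s) (m n : ℕ)
    (hper : ρ ((m + 1) * (n + 2)) = ρ 0) :
    Zc k ρ ((m + 1) * (n + 2) - 1) ≤
      ∏ i ∈ range (n + 2), Zc k (fρ ρ m i) (2 * (m + 1) - 1) ^ (1 / 2 : ℝ) := by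
  have h1 : Zc k ρ ((m + 1) * (n + 2) - 1) = tr (chain (Tb k ρ m) (n + 1)) := by
    unfold Zc tr
    refine tsum_congr fun s => ?_
    rw [chain_Tb, hper]
    calc _ = (ρ 0 s ^ (1 / 2 : ℝ) * ρ 0 s ^ (1 / 2 : ℝ)) * F k ρ 0 ((m + 1) * (n + 2) - 1) s s := by
          rw [half_mul_half]
      _ = _ := by ring_nf
  rw [h1]
  refine (tr_chain _ n).trans (le_of_eq ?_)
  refine Finset.prod_congr rfl fun i _ => ?_
  rw [hs_Tb k ρ hk]

end

end Vale.Agent.P159.H963.Chess
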