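import Vale.Agent.P159.H963.Chess3
import Vale.Agent.P159.H447.MassB
import Vale.Agent.P159.H864.Cel0

/-!
P159, module CHESS (helper963), part 4: the volume term `(n² / 4) log Z_{2m}(0) - log Z_N(0)`.
-/

namespace Vale.Agent.P159.H963.Chess

open Finset Matrix
open scoped ENNReal
open Vale.Agent.P159.TM.H104 (EM Ex Cv K3 Lg li nh Gr)
open Vale.Agent.P159.H37
open Vale.Agent.P159.TM.Spec (V)
open Vale.Agent.P159.TM.SpecC (wT)

noncomputable section

variable {N : ℕ} [NeZero N] {b t : ℝ}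

lemma Ex_sq_wt (hb : 0 ≤ b) (ht : 0 < t) :
    Ex (wt N b t) 0 (fun h => qf (1 : Matrix (V N) (V N) ℝ) (re h)) = (N : ℝ) ^ 2 * Gt N b t 0 := by
  have hE : EM (wt N b t) := H864.em_wt hb ht
  have h1 : (fun h : V N → ℤ => qf (1 : Matrix (V N) (V N) ℝ) (re h)) =
      fun h => ∑ x, (h x : ℝ) * (h x : ℝ) := by
    funext h
    rw [H864.qf_one]
    exact Finset.sum_congr rfl fun x _ => by rw [sq]; rfl
  have hc : ∀ x : V N, Gr fun h : V N → ℤ => (h x : ℝ) := fun x => H864.gr_coord x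
  rw [h1, H864.Ex_sum hE _ fun x _ => (hc x).mul (hc x)]
  have h2 : ∀ x : V N, Ex (wt N b t) 0 (fun h => (h x : ℝ) * (h x : ℝ)) = Gt N b t 0 := by
    intro x
    have h3 : Gm (wt N b t) x x = Gt N b t 0 := by
      have := (H864.ti_Gm (H864.tinv_wt (N := N) (b := b) t)).diag x
      rw [this]
      rfl
    have h4 : Ex (wt N b t) 0 (fun h => (h x : ℝ)) = 0 := by
      have := H114.Ex_li_zero (H864.ev_wt (N := N) (b := b) t) (Pi.single x 1)
      have e : (li (Pi.single x 1) : (V N → ℤ) → ℝ) = fun h => (h x : ℝ) := by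
        funext h
        unfold li
        rw [Finset.sum_eq_single x]
        · simp
        · intro y _ hy
          rw [Pi.single_eq_of_ne hy]
          simp
        · intro h; exact absurd (Finset.mem_univ x) h
      rwa [e] at this
    have h5 : Gm (wt N b t) x x = Ex (wt N b t) 0 (fun h => (h x : ℝ) * (h x : ℝ)) -
        Ex (wt N b t) 0 (fun h => (h x : ℝ)) * Ex (wt N b t) 0 (fun h => (h x : ℝ)) := rfl
    rw [← h3, h5, h4]
    ring
  simp only [h2, Finset.sum_const, Finset.card_univ, nsmul_eq_mul]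
  rw [TM.H764.card_V]

/-- derivative of the free energy in the mass -/
theorem hasDerivAt_Lg_wt (hb : 0 ≤ b) (ht : 0 < t) :
    HasDerivAt (fun τ : ℝ => Lg (wt N b τ) 0) (-((N : ℝ) ^ 2 / 2 * Gt N b t 0)) t := by
  have hnn : H447.Nn (1 : Matrix (V N) (V N) ℝ) := fun u => by
    rw [H864.qf_one]
    exact Finset.sum_nonneg fun _ _ => sq_nonneg _
  have h1 := H447.hasDerivAt_Lg' (μ := wT b N) (S := (1 : Matrix (V N) (V N) ℝ)) (a := t / 2)
    (H864.wT_nonneg hb) hnn (H864.em_wt hb (by positivity : 0 < t / 2)) 0 (by linarith : t / 2 < t)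
  have h2 := Ex_sq_wt (N := N) hb ht
  have h3 : Ex (wM (wT b N) (t • (1 : Matrix (V N) (V N) ℝ))) 0
      (fun h => qf (1 : Matrix (V N) (V N) ℝ) (re h)) = (N : ℝ) ^ 2 * Gt N b t 0 := h2
  rw [h3] at h1
  have h4 : -((N : ℝ) ^ 2 / 2 * Gt N b t 0) = -(1 / 2) * ((N : ℝ) ^ 2 * Gt N b t 0) := by ring
  rw [h4]
  exact h1

/-! ### large mass -/

lemma wI_zero_pos (hb : 0 ≤ b) : 0 < Vale.Agent.P159.H353.wI b 0 := H353.wI_zero_pos hb

lemma wT_zero (N : ℕ) [NeZero N] (b : ℝ) :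
    wT b N 0 = Vale.Agent.P159.H353.wI b 0 ^ (2 * N ^ 2) := by
  unfold wT
  simp only [Pi.zero_apply, sub_self]
  rw [Finset.prod_const, Finset.card_univ, ← sq, ← pow_mul]
  congr 1
  have : Fintype.card (V N) = N ^ 2 := by
    show Fintype.card (ZMod N × ZMod N) = N ^ 2
    rw [Fintype.card_prod, ZMod.card, sq]
  rw [this]

lemma Zs_wt_ge (hb : 0 ≤ b) (ht : 0 < t) : wT b N 0 ≤ Zs (wt N b t) 0 := by
  have hE : EM (wt N b t) := H864.em_wt hb ht
  unfold Zs TM.H104.T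
  have h1 := (hE.summ (Gr.const 1) (0 : V N → ℝ)).le_tsum 0 fun h _ =>
    mul_nonneg (mul_nonneg zero_le_one (hE.nn h)) (Real.exp_pos _).le
  refine le_trans (le_of_eq ?_) h1
  rw [TM.H104.li_zero, Real.exp_zero, mul_one, one_mul]
  unfold wt wM
  have : qf (t • (1 : Matrix (V N) (V N) ℝ)) (re 0) = 0 := by
    have e : re (0 : V N → ℤ) = 0 := by funext x; simp [re]
    rw [e, qf_zero_vec]
  rw [this]
  simp

lemma Zs_wt_le (hb : 0 ≤ b) (ht : 0 < t) {T : ℝ} (hT : t ≤ T) :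
    Zs (wt N b T) 0 ≤ wT b N 0 + Real.exp (-((T - t) / 2)) * Zs (wt N b t) 0 := by
  have hE : EM (wt N b t) := H864.em_wt hb ht
  have hET : EM (wt N b T) := H864.em_wt hb (ht.trans_le hT)
  unfold Zs TM.H104.T
  have hs := hE.summ (Gr.const 1) (0 : V N → ℝ)
  have hsT := hET.summ (Gr.const 1) (0 : V N → ℝ)
  have h0 : Summable fun h : V N → ℤ => if h = 0 then wT b N 0 else 0 :=
    (hasSum_ite_eq (0 : V N → ℤ) (wT b N 0)).summable
  have h1 : ∑' h : V N → ℤ, (if h = 0 then wT b N 0 else 0) = wT b N 0 :=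
    (hasSum_ite_eq (0 : V N → ℤ) (wT b N 0)).tsum_eq
  rw [← h1, ← tsum_mul_left, ← h0.tsum_add (hs.mul_left _)]
  refine hsT.tsum_le_tsum (fun h => ?_) (h0.add (hs.mul_left _))
  rw [TM.H104.li_zero, Real.exp_zero, mul_one, one_mul, mul_one, one_mul]
  have e1 : ∀ s : ℝ, wt N b s h = wT b N h * Real.exp (-(s * ∑ x, (h x : ℝ) ^ 2 / 2)) := by
    intro s
    unfold wt wM
    rw [qf_smul_one]
    congr 2
    rw [← Finset.sum_div]
    simp only [re]
    ring
  rw [e1, e1]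
  have hw := H864.wT_nonneg (N := N) hb h
  by_cases hh : h = 0
  · rw [if_pos hh, hh]
    simp only [Pi.zero_apply, Int.cast_zero]
    have : 0 ≤ Real.exp (-((T - t) / 2)) * (wT b N 0 * Real.exp (-(t * ∑ x : V N, (0 : ℝ) ^ 2 / 2))) := by
      have := H864.wT_nonneg (N := N) hb 0
      positivity
    simpa using this
  · rw [if_neg hh, zero_add]
    obtain ⟨x, hx⟩ := Function.ne_iff.1 hh
    have hx1 : (1 : ℝ) ≤ (h x : ℝ) ^ 2 := by
      have h2 : (h x) ≠ 0 := hx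
      have h3 : 1 ≤ |h x| := Int.one_le_abs h2
      have h4 : (1 : ℤ) ≤ (h x) ^ 2 := by nlinarith [sq_abs (h x), abs_nonneg (h x)]
      exact_mod_cast h4
    have h2 : (1 : ℝ) ≤ ∑ x, (h x : ℝ) ^ 2 := hx1.trans
      (Finset.single_le_sum (f := fun x => (h x : ℝ) ^ 2) (fun _ _ => sq_nonneg _)
        (Finset.mem_univ x))
    rw [mul_left_comm, ← Real.exp_add]
    refine mul_le_mul_of_nonneg_left (Real.exp_le_exp.2 ?_) hw
    rw [← Finset.sum_div]
    nlinarith

/-- the free energy at large mass -/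
theorem tendsto_Lg_wt (N : ℕ) [NeZero N] (hb : 0 ≤ b) :
    Filter.Tendsto (fun T : ℝ => Lg (wt N b T) 0) Filter.atTop
      (nhds ((N : ℝ) ^ 2 * (2 * Real.log (Vale.Agent.P159.H353.wI b 0)))) := by
  have hw0 : 0 < wT b N 0 := by
    rw [wT_zero]
    exact pow_pos (wI_zero_pos hb) _
  have h1 : Filter.Tendsto (fun T : ℝ => Zs (wt N b T) 0) Filter.atTop (nhds (wT b N 0)) := by
    have h2 : Filter.Tendsto (fun T : ℝ => wT b N 0 + Real.exp (-((T - 1) / 2)) * Zs (wt N b 1) 0)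
        Filter.atTop (nhds (wT b N 0 + 0 * Zs (wt N b 1) 0)) := by
      refine tendsto_const_nhds.add (Filter.Tendsto.mul_const _ ?_)
      refine Real.tendsto_exp_neg_atTop_nhds_zero.comp ?_
      exact Filter.Tendsto.atTop_div_const (by norm_num)
        (Filter.tendsto_atTop_add_const_right _ _ Filter.tendsto_id)
    rw [zero_mul, add_zero] at h2
    refine tendsto_of_tendsto_of_tendsto_of_le_of_le' tendsto_const_nhds h2 ?_ ?_
    · filter_upwards [Filter.eventually_ge_atTop (1 : ℝ)] with T hT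
      exact Zs_wt_ge hb (by linarith)
    · filter_upwards [Filter.eventually_ge_atTop (1 : ℝ)] with T hT
      exact Zs_wt_le hb one_pos hT
  have h3 := (Real.continuousAt_log hw0.ne').tendsto.comp h1
  have h4 : Real.log (wT b N 0) = (N : ℝ) ^ 2 * (2 * Real.log (Vale.Agent.P159.H353.wI b 0)) := by
    rw [wT_zero, Real.log_pow]
    push_cast
    ring
  rw [h4] at h3
  exact h3

/-! ### the volume term -/

/-- **the volume term of the chessboard** from a bound on the difference of the two variances: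
`E` is any nonnegative primitive of the bound -/
theorem deltaZ_le (hb : 0 ≤ b) (ht : 0 < t) {m n : ℕ} (hN : N = m * n) [NeZero (2 * m)]
    {E e : ℝ → ℝ} (hE0 : ∀ τ, t ≤ τ → 0 ≤ E τ) (hE : ∀ τ, t ≤ τ → HasDerivAt E (-e τ) τ)
    (he : ∀ τ, t ≤ τ → Gt (2 * m) b τ 0 - Gt N b τ 0 ≤ e τ) :
    (n : ℝ) ^ 2 / 4 * Lg (wt (2 * m) b t) 0 - Lg (wt N b t) 0 ≤ (N : ℝ) ^ 2 / 2 * E t := by
  set f : ℝ → ℝ := fun τ => (n : ℝ) ^ 2 / 4 * Lg (wt (2 * m) b τ) 0 - Lg (wt N b τ) 0 with hf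
  have hNr : (N : ℝ) = m * n := by exact_mod_cast hN
  have hd : ∀ τ, t ≤ τ → HasDerivAt (fun τ => f τ - (N : ℝ) ^ 2 / 2 * E τ)
      (-((N : ℝ) ^ 2 / 2 * (Gt (2 * m) b τ 0 - Gt N b τ 0 - e τ))) τ := by
    intro τ hτ
    have hτ0 : 0 < τ := ht.trans_le hτ
    have h1 := ((hasDerivAt_Lg_wt (N := 2 * m) hb hτ0).const_mul ((n : ℝ) ^ 2 / 4)).sub
      (hasDerivAt_Lg_wt (N := N) hb hτ0)
    have h2 := h1.sub ((hE τ hτ).const_mul ((N : ℝ) ^ 2 / 2))
    refine h2.congr_deriv ?_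
    push_cast
    rw [hNr]
    ring
  have hmono : MonotoneOn (fun τ => f τ - (N : ℝ) ^ 2 / 2 * E τ) (Set.Ici t) := by
    refine monotoneOn_of_deriv_nonneg (convex_Ici t)
      (fun τ hτ => (hd τ hτ).continuousAt.continuousWithinAt)
      (fun τ hτ => (hd τ (interior_subset hτ)).differentiableAt.differentiableWithinAt) ?_
    intro τ hτ
    rw [(hd τ (interior_subset hτ)).deriv, neg_nonneg]
    have h3 := he τ (interior_subset hτ)
    exact mul_nonpos_of_nonneg_of_nonpos (by positivity) (by linarith)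
  have hlim : Filter.Tendsto f Filter.atTop (nhds 0) := by
    have h1 := ((tendsto_Lg_wt (2 * m) hb).const_mul ((n : ℝ) ^ 2 / 4)).sub (tendsto_Lg_wt N hb)
    have h2 : (n : ℝ) ^ 2 / 4 * (((2 * m : ℕ) : ℝ) ^ 2 *
        (2 * Real.log (Vale.Agent.P159.H353.wI b 0))) -
        (N : ℝ) ^ 2 * (2 * Real.log (Vale.Agent.P159.H353.wI b 0)) = 0 := by
      push_cast
      rw [hNr]
      ring
    rw [h2] at h1
    exact h1
  have hle : ∀ T, t ≤ T → f t - (N : ℝ) ^ 2 / 2 * E t ≤ f T := by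
    intro T hT
    have h1 := hmono (Set.mem_Ici.2 le_rfl) (Set.mem_Ici.2 hT) hT
    simp only at h1
    have h2 : 0 ≤ (N : ℝ) ^ 2 / 2 * E T := mul_nonneg (by positivity) (hE0 T hT)
    linarith
  have h5 := ge_of_tendsto hlim (Filter.eventually_atTop.2 ⟨t, hle⟩)
  have h6 : f t = (n : ℝ) ^ 2 / 4 * Lg (wt (2 * m) b t) 0 - Lg (wt N b t) 0 := rfl
  linarith

end

end Vale.Agent.P159.H963.Chess
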