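import Vale.Agent.P159.H552.Ln2
import Vale.Agent.P159.H817.St14

/-!
P159 / S list (S7) (helper963): **the a priori bound near a core** (field `core` of helper817's
`Sys`, argument `core` of `sys_rh`) from numbers at the zero background: the parallelogram
inequality on the group of dislocations and real fields, no upper bound at any background.
-/

set_option linter.unusedSectionVars false

namespace Vale.Agent.P159.H963.Core

open Finset Matrix
open Vale.Agent.P159.TM.Spec (V)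
open Vale.Agent.P159.TM.H764 (EE EE_nonneg EE_zero)
open Vale.Agent.P159.TM.SpecC (wT)
open Vale.Agent.P159.H37 (qf bf re Zn ZM Rs)
open Vale.Agent.P159.H770 (wTD Ed)
open Vale.Agent.P159.H864 (TI sym lapM ti_lapM sym_lapM mlt ti_mlt sym_mlt hsq hsq_nonneg)
open Vale.Agent.P159.H963 (Pin Ank Anm nwt)
open Vale.Agent.P159.H552.Ln (PK EB EW pk_EB Par par_qf)
open Vale.Agent.P159.H817 (gr nrm eF EG EZ ZE ZE_eF zero_eF bD cfg dec Qf Bq GB KK Dec Far SuppD sz rh
  Pt EZ_gr kap0 Db FM)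

noncomputable section

/-! ### abstract -/

section pk

variable {A : Type*} [AddCommGroup A] {E : A → ℝ}

/-- **change of the energy along `h = 2k` at the background `D + F`** by energies at small
backgrounds: `F` enters only through `E(F + k)` and `E(2F)` -/
theorem core_pk (hE : PK E) (D F k : A) :
    E (D + F + (k + k)) - E (D + F) ≤ 2 * (E D - E (D - k)) + (4 * E D - E (D + D)) / 2 +
      (4 * E k + 2 * E (F + k) - E (F + F) / 2) := by
  have h1 := hE.par (D + k) (F + k)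
  have h2 := hE.par (D + F) (D - F)
  have h3 := hE.par D k
  have e1 : D + k + (F + k) = D + F + (k + k) := by abel
  have e2 : D + k - (F + k) = D - F := by abel
  have e3 : D + F + (D - F) = D + D := by abel
  have e4 : D + F - (D - F) = F + F := by abel
  rw [e1, e2] at h1
  rw [e3, e4] at h2
  linarith

end pk

/-! ### the energy of edge fields -/

section ez

variable {N : ℕ} [NeZero N] {b t a η : ℝ} {n : ℕ}

/-- the energy on the group -/
lemma EZ_EB (hb : 0 < b) (η : V N × Bool → ℤ) (F : V N → ℝ) :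
    EZ N b t (eF η F) = EB (wTD N b) (t • (1 : Matrix (V N) (V N) ℝ)) (η, F) := by
  unfold H817.EZ EB H552.Ln.EW
  rw [zero_eF, ZE_eF hb, ZE_eF hb]

lemma eF_addX (η η' : V N × Bool → ℤ) (F F' : V N → ℝ) :
    (fun e => eF η F e + eF η' F' e) = eF (η + η') (F + F') := by
  funext ⟨x, c⟩
  unfold H817.eF
  rw [H817.gr_eq, H817.gr_eq, H817.gr_eq]
  simp only [Pi.add_apply]
  push_cast
  ring

lemma eF_subX (η η' : V N × Bool → ℤ) (F F' : V N → ℝ) :
    (fun e => eF η F e - eF η' F' e) = eF (η - η') (F - F') := by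
  funext ⟨x, c⟩
  unfold H817.eF
  rw [H817.gr_eq, H817.gr_eq, H817.gr_eq]
  simp only [Pi.sub_apply]
  push_cast
  ring

/-- **the parallelogram inequality** for edge fields -/
theorem EZ_par (hb : 0 < b) (ht : 0 < t) {β γ : V N × Bool → ℝ} (hβ : EG β) (hγ : EG γ) :
    EZ N b t (fun e => β e + γ e) + EZ N b t (fun e => β e - γ e) ≤
      2 * EZ N b t β + 2 * EZ N b t γ := by
  obtain ⟨η, F, rfl⟩ := hβ
  obtain ⟨η', F', rfl⟩ := hγ
  rw [eF_addX, eF_subX, EZ_EB hb, EZ_EB hb, EZ_EB hb, EZ_EB hb]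
  exact (pk_EB (H770.gwf_wTD hb) (H883.mf_scalar ht)).par (η, F) (η', F')

/-- change of the energy along a real field at a real background -/
theorem core_EZ (hb : 0 < b) (ht : 0 < t) {β : V N × Bool → ℝ} (hβ : EG β) (F k : V N → ℝ) :
    EZ N b t (fun e => β e + gr (F + (k + k)) e) - EZ N b t (fun e => β e + gr F e) ≤
      2 * (EZ N b t β - EZ N b t (fun e => β e + gr (-k) e)) +
        (4 * EZ N b t β - EZ N b t (fun e => β e + β e)) / 2 +
      (4 * EZ N b t (gr k) + 2 * EZ N b t (gr (F + k)) - EZ N b t (gr (F + F)) / 2) := by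
  obtain ⟨η, φ, rfl⟩ := hβ
  have hE := pk_EB (W := wTD N b) (M := t • (1 : Matrix (V N) (V N) ℝ)) (H770.gwf_wTD hb)
    (H883.mf_scalar ht)
  have h := core_pk hE (η, φ) ((0 : V N × Bool → ℤ), F) ((0 : V N × Bool → ℤ), k)
  have e0 : ∀ G : V N → ℝ, (fun e => eF η φ e + gr G e) = eF η (φ + G) := fun G => by
    have := eF_addX η 0 φ G
    rw [add_zero] at this
    rw [← this]
    funext e
    rw [H817.gr_eF]
  have e1 : ∀ G : V N → ℝ, gr G = eF (0 : V N × Bool → ℤ) G := fun G => H817.gr_eF G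
  have e2 : (fun e => eF η φ e + eF η φ e) = eF (η + η) (φ + φ) := eF_addX η η φ φ
  rw [e0, e0, e0, e1 k, e1 (F + k), e1 (F + F), e2]
  simp only [EZ_EB hb]
  simp only [Prod.mk_add_mk, Prod.mk_sub_mk, add_zero, sub_zero] at h
  have e3 : φ + F + (k + k) = φ + (F + (k + k)) := by abel
  have e4 : φ - k = φ + -k := by abel
  rw [e3, e4] at h
  exact h

/-- **the same with the quadratic form of the real model**: `Q = qf (Anm N b t)` -/
theorem core_Q (hb : 0 < b) (ht : 0 < t) {β : V N × Bool → ℝ} (hβ : EG β) (F h : V N → ℝ)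
    {T A0 r0 : ℝ} (hT : 4 * EZ N b t β - EZ N b t (fun e => β e + β e) ≤ T)
    (hA : EZ N b t β - EZ N b t (fun e => β e + gr (-((1 / 2 : ℝ) • h)) e) ≤ A0)
    (hR : Rs (nwt N b t 0) (Pt t (F + F)) ≤ r0) :
    EZ N b t (fun e => β e + gr (F + h) e) - EZ N b t (fun e => β e + gr F e) ≤
      (qf (Anm N b t) (F + h) - qf (Anm N b t) F) / 2 +
        (2 * A0 + qf (Anm N b t) h / 4 + (T + r0) / 2) := by
  set k : V N → ℝ := (1 / 2 : ℝ) • h with hk
  have hkk : k + k = h := by
    rw [hk, ← add_smul]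
    norm_num
  have h1 := core_EZ (N := N) hb ht hβ F k
  rw [hkk] at h1
  have hQ : Par (qf (Anm N b t)) := par_qf _
  have g1 := EZ_gr (N := N) hb ht k
  have g2 := EZ_gr (N := N) hb ht (F + k)
  have g3 := EZ_gr (N := N) hb ht (F + F)
  have r1 := H817.Rs_nwt_nonneg (N := N) hb ht (Pt t k)
  have r2 := H817.Rs_nwt_nonneg (N := N) hb ht (Pt t (F + k))
  -- the quadratic form
  have q1 := hQ.par F F
  have z1 : qf (Anm N b t) (0 : V N → ℝ) = 0 := by unfold H37.qf; simp
  rw [sub_self, z1] at q1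
  have q2 := hQ.par k k
  rw [sub_self, z1, hkk] at q2
  have q3 := hQ.par (F + k) k
  have e1 : F + k + k = F + h := by rw [add_assoc, hkk]
  have e2 : F + k - k = F := by abel
  rw [e1, e2] at q3
  linarith

end ez

/-! ### the flat form at a rough background -/

section flat

variable {N : ℕ} [NeZero N] {b t a η c0 : ℝ} {n : ℕ}

lemma qf_lap_nonneg (u : V N → ℝ) : 0 ≤ qf lapM u :=
  (H864.psd_iff ti_lapM).2 (fun k => by rw [sym_lapM]; exact EE_nonneg k) u

/-- Cauchy-Schwarz for a nonnegative form -/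
lemma bf_sq_le {L : Matrix (V N) (V N) ℝ} (hL : Lᵀ = L) (h0 : ∀ u, 0 ≤ qf L u) (u v : V N → ℝ) :
    bf L u v ^ 2 ≤ qf L u * qf L v := by
  have h : ∀ s : ℝ, 0 ≤ qf L v * (s * s) + 2 * bf L u v * s + qf L u := by
    intro s
    have h1 := h0 (u + s • v)
    rw [H37.qf_add_vec hL, H37.qf_smul, H37.bf_smul_right] at h1
    nlinarith
  have h2 := discrim_le_zero h
  unfold discrim at h2
  nlinarith

/-- the symbol of the smoothing -/
def sS (a t : ℝ) (k : V N) : ℝ := t / (t + a * EE k)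

lemma sS_neg (a t : ℝ) (k : V N) : sS a t (-k) = sS a t k := by
  unfold sS
  rw [H864.EE_neg]

/-- **Dirichlet energy of the smoothed field** `(t + a E)⁻¹ t F` -/
def nS (a t : ℝ) (F : V N → ℝ) : ℝ := qf lapM (mlt (sS a t) *ᵥ F)

lemma nS_eq (a t : ℝ) (F : V N → ℝ) : nS a t F = nrm (gr (mlt (sS a t) *ᵥ F)) :=
  H817.qf_lap _

lemma nS_nonneg (a t : ℝ) (F : V N → ℝ) : 0 ≤ nS a t F := qf_lap_nonneg _

/-- the relative flatness error -/
def kap1 (c0 a t η : ℝ) (n : ℕ) : ℝ := η * (1 + 1 / c0) + 2 * a / Db n (t / a)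

lemma kap1_nonneg (hc : 0 < c0) (ha : 0 < a) (ht : 0 < t) (hη : 0 ≤ η) (hn : 1 ≤ n) :
    0 ≤ kap1 c0 a t η n := by
  have hD := H817.Db_pos hn (by positivity : 0 < t / a)
  unfold kap1
  positivity

/-- **symbols**: the error of the flat form carries the smoothing factor -/
theorem flat_sym1 (hb : 0 < b) (ht : 0 < t) (ha : 0 < a) (hη : 0 ≤ η) (hn : 1 ≤ n) (hc : 0 < c0)
    (hP : ∀ k : V N, k ≠ 0 → |Pin N b t k - a * EE k| ≤ η * EE k * (1 + EE k / t))
    (hC : ∀ k : V N, k ≠ 0 → c0 * EE k ≤ Pin N b t k) (k : V N) :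
    |Ank N b t k - a * (EE k * (H817.wb n (t / a)).eval (EE k))| ≤
      kap1 c0 a t η n * (sS a t k * EE k) := by
  have hm : 0 < t / a := by positivity
  have hD := H817.Db_pos hn hm
  by_cases hk : k = 0
  · rw [hk, EE_zero, H963.Ank, if_pos rfl]
    simp
  have hE := EE_nonneg k
  have hE8 := H817.EE_le8 k
  have hPn := H963.Pin_nonneg (N := N) hb ht hk
  have hCk := hC k hk
  rw [H963.Ank_eq hb ht hk]
  have hw := H817.wb_eval hn hm (EE k)
  have hR := H817.Rb_abs hn hm hE hE8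
  have h1 := hP k hk
  unfold sS
  set E := EE k with hEdef
  set Q := Pin N b t k with hQ
  set w := (H817.wb n (t / a)).eval E
  set R := (H817.Rb n (t / a)).eval E
  have hw' : w = (t + a * R) / (t + a * E) := by
    rw [eq_div_iff (by positivity)]
    have : a * (t / a) = t := by field_simp
    linear_combination a * hw + this - this * w
  have d1 : 0 < t + Q := by linarith
  have d2 : 0 < t + a * E := by positivity
  have e1 : t * Q / (t + Q) - a * (E * w) =
      t / (t + a * E) * (t * (Q - a * E) / (t + Q) - a ^ 2 * E * R / t) := by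
    rw [hw']
    field_simp
    ring
  rw [e1, abs_mul, abs_of_pos (by positivity : 0 < t / (t + a * E))]
  have b1 : |t * (Q - a * E) / (t + Q)| ≤ η * (1 + 1 / c0) * E := by
    rw [abs_div, abs_mul, abs_of_pos d1, abs_of_pos ht, div_le_iff₀ d1]
    calc t * |Q - a * E| ≤ t * (η * E * (1 + E / t)) := mul_le_mul_of_nonneg_left h1 ht.le
      _ = η * E * (t + E) := by field_simp
      _ ≤ η * E * ((1 + 1 / c0) * (t + Q)) := by
          refine mul_le_mul_of_nonneg_left ?_ (by positivity)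
          have c1 : (1 + 1 / c0) * (t + c0 * E) = t + E + t / c0 + c0 * E := by
            field_simp
            ring
          have c2 : (1 + 1 / c0) * (t + c0 * E) ≤ (1 + 1 / c0) * (t + Q) :=
            mul_le_mul_of_nonneg_left (by linarith) (by positivity)
          have c3 : 0 ≤ t / c0 + c0 * E := by positivity
          linarith
      _ = _ := by ring
  have b2 : |a ^ 2 * E * R / t| ≤ 2 * a / Db n (t / a) * E := by
    rw [abs_div, abs_of_pos ht, abs_mul, abs_of_nonneg (by positivity : 0 ≤ a ^ 2 * E),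
      div_le_iff₀ ht]
    calc a ^ 2 * E * |R| ≤ a ^ 2 * E * (2 / Db n (t / a) * (t / a)) :=
          mul_le_mul_of_nonneg_left hR (by positivity)
      _ = 2 * a / Db n (t / a) * E * t := by field_simp
  unfold kap1
  have h3 : |t * (Q - a * E) / (t + Q) - a ^ 2 * E * R / t| ≤
      (η * (1 + 1 / c0) + 2 * a / Db n (t / a)) * E := by
    refine (abs_sub _ _).trans ((add_le_add b1 b2).trans (le_of_eq ?_))
    ring
  calc t / (t + a * E) * |t * (Q - a * E) / (t + Q) - a ^ 2 * E * R / t|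
      ≤ t / (t + a * E) * ((η * (1 + 1 / c0) + 2 * a / Db n (t / a)) * E) :=
        mul_le_mul_of_nonneg_left h3 (by positivity)
    _ = _ := by ring

/-- **cross term of the flat form between a rough and a smooth field** -/
theorem flat_cross (hb : 0 < b) (ht : 0 < t) (ha : 0 < a) (hη : 0 ≤ η) (hn : 1 ≤ n) (hc : 0 < c0)
    (hP : ∀ k : V N, k ≠ 0 → |Pin N b t k - a * EE k| ≤ η * EE k * (1 + EE k / t))
    (hC : ∀ k : V N, k ≠ 0 → c0 * EE k ≤ Pin N b t k) (F h : V N → ℝ) :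
    |bf (Anm N b t - FM a (t / a) n) F h| ≤
      kap1 c0 a t η n * √(nS a t F * nrm (gr h)) := by
  set Δ : Matrix (V N) (V N) ℝ := Anm N b t - FM a (t / a) n with hΔ
  have hκ := kap1_nonneg hc ha ht hη hn
  set κ := kap1 c0 a t η n with hκd
  have tA := H963.ti_Anm (N := N) hb.le ht
  have tF := H817.ti_FM (N := N) (a := a) (m := t / a) (n := n)
  have tΔ : TI Δ := tA.sub tF
  have hm : 0 < t / a := by positivity
  have hsym : ∀ k, sym Δ k = Ank N b t k - a * (EE k * (H817.wb n (t / a)).eval (EE k)) := by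
    intro k
    rw [hΔ, H864.sym_sub, H963.sym_Anm, H817.sym_FM hn hm]
  have hs0 : ∀ k : V N, 0 < sS a t k := fun k => by
    unfold sS
    have := EE_nonneg k
    positivity
  -- the factorisation
  set ψ : V N → ℝ := fun k => if EE k = 0 then 0 else sym Δ k / (sS a t k * EE k) with hψ
  have hψn : ∀ k, ψ (-k) = ψ k := by
    intro k
    simp only [hψ]
    rw [H864.EE_neg, sS_neg, H864.sym_neg_arg]
  have hψk : ∀ k, sS a t k * (EE k * ψ k) = sym Δ k := by
    intro k
    simp only [hψ]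
    split_ifs with h0
    · have h1 := flat_sym1 hb ht ha hη hn hc hP hC k
      rw [← hsym, h0, mul_zero, mul_zero] at h1
      rw [abs_nonpos_iff.1 h1, h0]
      ring
    · have := (hs0 k).ne'
      field_simp
  have hψb : ∀ k, ψ k ^ 2 ≤ κ ^ 2 := by
    intro k
    simp only [hψ]
    split_ifs with h0
    · rw [zero_pow (by norm_num)]
      positivity
    · have h1 := flat_sym1 hb ht ha hη hn hc hP hC k
      rw [← hsym] at h1
      have hE : 0 < EE k := lt_of_le_of_ne (EE_nonneg k) (Ne.symm h0)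
      have h2 : |sym Δ k / (sS a t k * EE k)| ≤ κ := by
        rw [abs_div, abs_of_pos (mul_pos (hs0 k) hE), div_le_iff₀ (mul_pos (hs0 k) hE)]
        exact h1
      have h3 := pow_le_pow_left₀ (abs_nonneg _) h2 2
      rwa [sq_abs] at h3
  set S : Matrix (V N) (V N) ℝ := mlt (sS a t) with hS
  set P : Matrix (V N) (V N) ℝ := mlt ψ with hPd
  have tS : TI S := ti_mlt _
  have tP : TI P := ti_mlt _
  have hfac : Δ = S * (lapM * P) := by
    refine H864.sym_inj tΔ (tS.mul (ti_lapM.mul tP)) fun k => ?_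
    rw [H864.sym_mul tS (ti_lapM.mul tP), H864.sym_mul ti_lapM tP, hS, hPd,
      sym_mlt _ (sS_neg a t), sym_lapM, sym_mlt _ hψn]
    exact (hψk k).symm
  have h1 : bf Δ F h = bf lapM (S *ᵥ F) (P *ᵥ h) := by
    rw [H37.bf_eq, H37.bf_eq, hfac, ← mulVec_mulVec, ← mulVec_mulVec, dotProduct_mulVec,
      ← mulVec_transpose, tS.transpose]
  have h2 := bf_sq_le (ti_lapM (N := N)).transpose qf_lap_nonneg (S *ᵥ F) (P *ᵥ h)
  -- the second factor
  have h3 : qf lapM (P *ᵥ h) ≤ κ ^ 2 * nrm (gr h) := by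
    rw [← H817.qf_lap, ← H864.qf_smul_mat]
    have e : qf lapM (P *ᵥ h) = qf (P * (lapM * P)) h := by
      rw [H37.qf_eq, H37.qf_eq, ← mulVec_mulVec, ← mulVec_mulVec,
        dotProduct_mulVec h P, ← mulVec_transpose, tP.transpose]
    rw [e]
    refine (H864.qf_le_iff (tP.mul (ti_lapM.mul tP)) (ti_lapM.smul _)).2 (fun k => ?_) h
    rw [H864.sym_mul tP (ti_lapM.mul tP), H864.sym_mul ti_lapM tP, H864.sym_smul, hPd,
      sym_mlt _ hψn, sym_lapM]
    have hE := EE_nonneg k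
    nlinarith [hψb k, mul_le_mul_of_nonneg_right (hψb k) hE]
  have h4 : bf Δ F h ^ 2 ≤ κ ^ 2 * (nS a t F * nrm (gr h)) := by
    rw [h1]
    refine h2.trans ?_
    calc qf lapM (S *ᵥ F) * qf lapM (P *ᵥ h) ≤ nS a t F * (κ ^ 2 * nrm (gr h)) :=
          mul_le_mul_of_nonneg_left h3 (nS_nonneg a t F)
      _ = _ := by ring
  have h5 : |bf Δ F h| ≤ √(κ ^ 2 * (nS a t F * nrm (gr h))) := Real.abs_le_sqrt h4
  rwa [Real.sqrt_mul (sq_nonneg κ), Real.sqrt_sq hκ] at h5

end flat

/-! ### the a priori bound near a core -/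

section core

variable {N : ℕ} [NeZero N] {b t a η c0 : ℝ} {n : ℕ}

/-- the real field of a configuration -/
def cF (F0 F1 : ℤ → ℤ → ℝ) (p q : V N) (g : V N → ℝ) : V N → ℝ :=
  fun x => dec F0 p x + dec F1 q x + g x

lemma cfg_cF (F0 F1 : ℤ → ℤ → ℝ) (p q : V N) (g : V N → ℝ) :
    cfg F0 F1 p q g = fun e => bD p q e + gr (cF F0 F1 p q g) e := by
  funext e
  unfold H817.cfg cF
  rw [H817.gr_add (fun x => dec F0 p x + dec F1 q x) g, H817.gr_add (dec F0 p) (dec F1 q)]
  ring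

/-- **one step, any background**: `rh (β + grad (F + h)) - rh (β + grad F)` for a divergence free
dislocated field `β` -/
theorem rh_step (hb : 0 < b) (ht : 0 < t) (ha : 0 < a) (hη : 0 ≤ η) (hn : 1 ≤ n) (hc : 0 < c0)
    (hP : ∀ k : V N, k ≠ 0 → |Pin N b t k - a * EE k| ≤ η * EE k * (1 + EE k / t))
    (hC : ∀ k : V N, k ≠ 0 → c0 * EE k ≤ Pin N b t k) {β : V N × Bool → ℝ} (hβ : EG β)
    (hdv : ∀ x, H817.dv β x = 0) (F h : V N → ℝ) {T A0 r0 B G : ℝ}
    (hT : 4 * EZ N b t β - EZ N b t (fun e => β e + β e) ≤ T)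
    (hA : EZ N b t β - EZ N b t (fun e => β e + gr (-((1 / 2 : ℝ) • h)) e) ≤ A0)
    (hR : Rs (nwt N b t 0) (Pt t (F + F)) ≤ r0) (hF : nS a t F ≤ B) (hG : nrm (gr h) ≤ G) :
    rh N b t a n (fun e => β e + gr (F + h) e) - rh N b t a n (fun e => β e + gr F e) ≤
      2 * A0 + (T + r0) / 2 + (a * (1 + 2 / Db n (t / a)) + kap0 a t η n) * G / 4 +
        kap1 c0 a t η n * √(B * G) + kap0 a t η n * G / 2 := by
  have hm : 0 < t / a := by positivity
  have hD := H817.Db_pos hn hm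
  have hκ0 : 0 ≤ kap0 a t η n := by unfold H817.kap0; positivity
  have hκ1 := kap1_nonneg hc ha ht hη hn
  have hG0 : 0 ≤ nrm (gr h) := by
    unfold H817.nrm
    exact Finset.sum_nonneg fun _ _ => sq_nonneg _
  have h1 := core_Q (N := N) hb ht hβ F h hT hA hR
  -- the flat form
  have q1 := H817.Qf_div (a := a) (m := t / a) (n := n) hdv (F + h)
  have q2 := H817.Qf_div (a := a) (m := t / a) (n := n) hdv F
  have f1 := H817.flat_qf hb ht ha hη hn hP h
  have f2 := H817.Qf_gr_le ha hm hn h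
  have f3 := flat_cross hb ht ha hη hn hc hP hC F h
  -- the difference of the forms
  have s1 : (Anm N b t - FM a (t / a) n)ᵀ = Anm N b t - FM a (t / a) n :=
    ((H963.ti_Anm (N := N) hb.le ht).sub H817.ti_FM).transpose
  have s2 := H37.qf_add_vec s1 F h
  rw [H864.qf_sub_mat, H864.qf_sub_mat, H864.qf_sub_mat, ← H817.Qf_gr, ← H817.Qf_gr,
    ← H817.Qf_gr] at s2
  have g1 : qf (Anm N b t) h ≤ (a * (1 + 2 / Db n (t / a)) + kap0 a t η n) * G := by
    have h2 := (abs_le.1 f1).2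
    have h3 : 0 ≤ a * (1 + 2 / Db n (t / a)) + kap0 a t η n := by positivity
    have h4 := mul_le_mul_of_nonneg_left hG h3
    nlinarith
  have g2 : |qf (Anm N b t) h - Qf a (t / a) n (gr h)| ≤ kap0 a t η n * G :=
    f1.trans (mul_le_mul_of_nonneg_left hG hκ0)
  have g3 : |bf (Anm N b t - FM a (t / a) n) F h| ≤ kap1 c0 a t η n * √(B * G) := by
    refine f3.trans (mul_le_mul_of_nonneg_left (Real.sqrt_le_sqrt ?_) hκ1)
    exact mul_le_mul hF hG hG0 ((nS_nonneg a t F).trans hF)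
  have g2' := (abs_le.1 g2).2
  have g3' := (abs_le.1 g3).2
  unfold H817.rh
  rw [q1, q2]
  linarith

/-- **(CORE)**: the argument `core` of `sys_rh` (helper817) from the numbers
`4 E(bD) - E(2 bD) ≤ T`, `E(bD) - E(bD + grad v) ≤ A0`, `R(2F) ≤ r0` and the Dirichlet energy of
the smoothed decorations -/
theorem core_rh {l r : ℕ} {Λ T A0 r0 B ε₁ : ℝ} {D0 D1 : Dec} (hb : 0 < b) (ht : 0 < t)
    (ha : 0 < a) (hη : 0 ≤ η) (hn : 1 ≤ n) (hl : 1 ≤ l) (hc : 0 < c0)
    (hP : ∀ k : V N, k ≠ 0 → |Pin N b t k - a * EE k| ≤ η * EE k * (1 + EE k / t))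
    (hC : ∀ k : V N, k ≠ 0 → c0 * EE k ≤ Pin N b t k)
    (hT : ∀ p q : V N, Far r p q →
      4 * EZ N b t (bD p q) - EZ N b t (fun e => bD p q e + bD p q e) ≤ T)
    (hA : ∀ p q : V N, Far r p q → ∀ v : V N → ℝ,
      EZ N b t (bD p q) - EZ N b t (fun e => bD p q e + gr v e) ≤ A0)
    (hR : ∀ F0 ∈ D0, ∀ F1 ∈ D1, ∀ (p q : V N) (g : V N → ℝ), Far r p q → GB (Λ / l) g →
      Rs (nwt N b t 0) (Pt t (cF F0 F1 p q g + cF F0 F1 p q g)) ≤ r0)
    (hS : ∀ F0 ∈ D0, ∀ F1 ∈ D1, ∀ (p q : V N) (g : V N → ℝ), Far r p q → GB (Λ / l) g →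
      nS a t (cF F0 F1 p q g) ≤ B)
    (hε : 2 * A0 + (T + r0) / 2 +
      (a * (1 + 2 / Db n (t / a)) + kap0 a t η n) * (14112 * Λ ^ 2) / 4 +
        kap1 c0 a t η n * √(B * (14112 * Λ ^ 2)) + kap0 a t η n * (14112 * Λ ^ 2) / 2 ≤ ε₁) :
    ∀ F0 ∈ D0, ∀ F1 ∈ D1, ∀ (p q : V N) (g h : V N → ℝ), Far r p q → GB (Λ / l) g →
      GB (Λ / l) (fun x => g x + h x) → (∀ x, |h x| ≤ 1) →
      ((∀ x, 20 * l ≤ sz (x - p) → h x = 0) ∨ (∀ x, 20 * l ≤ sz (x - q) → h x = 0)) →
      |rh N b t a n (cfg F0 F1 p q fun x => g x + h x) - rh N b t a n (cfg F0 F1 p q g)| ≤ ε₁ := by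
  intro F0 h0 F1 h1 p q g h hpq hg hgh _ hsupp
  have hdv : ∀ x, H817.dv (bD p q) x = 0 := fun x => H817.dv_bD p q x
  have hEG : EG (bD p q) := H817.EG.bD p q
  -- the gradient of `h`
  have hGB : GB (2 * Λ / l) h := by
    have h2 := hgh.sub hg
    have e : (fun x => (g x + h x) - g x) = h := by funext x; ring
    rw [e] at h2
    refine h2.mono (le_of_eq ?_)
    ring
  have hnrm : nrm (gr h) ≤ 14112 * Λ ^ 2 := by
    have e : 3528 * (2 * Λ) ^ 2 = 14112 * Λ ^ 2 := by ring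
    rcases hsupp with hs | hs
    · exact (H817.nrm_local hl hGB hs).trans (le_of_eq e)
    · exact (H817.nrm_local hl hGB hs).trans (le_of_eq e)
  have hnrm' : nrm (gr (-h)) ≤ 14112 * Λ ^ 2 := by
    have e : nrm (gr (-h)) = nrm (gr h) := by
      unfold H817.nrm
      refine Finset.sum_congr rfl fun e _ => ?_
      have : gr (-h) e = -gr h e := H817.gr_neg h e
      rw [this]
      ring
    rw [e]
    exact hnrm
  set F := cF F0 F1 p q g with hF
  set F' := cF F0 F1 p q (fun x => g x + h x) with hF'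
  have e1 : F' = F + h := by
    funext x
    simp only [hF, hF', cF, Pi.add_apply]
    ring
  have e2 : F = F' + -h := by rw [e1]; abel
  have s1 := rh_step hb ht ha hη hn hc hP hC hEG hdv F h (hT p q hpq) (hA p q hpq _)
    (hR F0 h0 F1 h1 p q g hpq hg) (hS F0 h0 F1 h1 p q g hpq hg) hnrm
  have s2 := rh_step hb ht ha hη hn hc hP hC hEG hdv F' (-h) (hT p q hpq) (hA p q hpq _)
    (hR F0 h0 F1 h1 p q _ hpq hgh) (hS F0 h0 F1 h1 p q _ hpq hgh) hnrm'
  rw [← e2] at s2
  rw [← e1] at s1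
  rw [cfg_cF, cfg_cF, ← hF, ← hF', abs_le]
  constructor <;> linarith

end core

end

end Vale.Agent.P159.H963.Core
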