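import Vale.Agent.P159.H817.Id1

/-!
P159 / module STATG-IDEAL (helper963): **plateau** in the letters of helper817's Id1: two ideal fields
of the same pair give the same value (an ideal core does not respond to a shift). The symmetry
relations of the response are helper817's (St5), without a priori bound near the core.
-/

set_option linter.unusedSectionVars false

namespace Vale.Agent.P159.H963.Idp

open Finset
open Vale.Agent.P159.TM.Spec (V)
open Vale.Agent.P159.H817

noncomputable section

section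

variable {N : ℕ} [NeZero N] {l r : ℕ} {Λ ε₂ ε₃ : ℝ} {D0 D1 : Dec} {ρ : (V N × Bool → ℝ) → ℝ}

/-- **neutrality**: shifting `q` by `c` is shifting `p` by `-c` -/
theorem rsp_swap (H : SysI N l r Λ ε₂ ε₃ D0 D1 ρ) {F0 F1 : ℤ → ℤ → ℝ} (h0 : F0 ∈ D0)
    (h1 : F1 ∈ D1) {p q : V N} (hf : Far r p q) {g : V N → ℝ} {L C c : ℝ} (hL : 0 ≤ L)
    (hg : GB (L / l) g) (hc : |c| ≤ C) (hΛ : 100000 * (1 + CG + L + C) ≤ Λ) :
    |rsp ρ l F0 F1 p q g c -
      rsp ρ l (fun i j => -F1 i j) (fun i j => -F0 i j) q p (fun x => -g x) c| ≤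
      eB N l ε₂ ε₃ := by
  have hC := CG_pos
  have hl4 := H.hl
  have hl0 : 0 < l := by omega
  have hlr := H.hlr
  have hl' : (0 : ℝ) < l := by exact_mod_cast hl0
  have hC0 : 0 ≤ C := (abs_nonneg c).trans hc
  have hg1 : GB (L / l) g := hg
  have e1 : ρ (cfg (fun i j => -F1 i j) (fun i j => -F0 i j) q p (fun x => -g x)) =
      ρ (cfg F0 F1 p q g) :=
    H.ev h0 h1 hf (hg1.mono (div_le_div_of_nonneg_right (by nlinarith) hl'.le))
  set g1 : V N → ℝ := fun x => g x + (-c) * U (10 * l) l (x - p) with hg1d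
  have hg1GB : GB ((L + C) / l) g1 := by
    rw [add_div]
    exact hg1.add (U_cGB (10 * l) hl0 p (by rwa [abs_neg]))
  have e2 : ρ (cfg (fun i j => -F1 i j) (fun i j => -F0 i j) q p
      (fun x => -g x + c * U (10 * l) l (x - p))) = ρ (cfg F0 F1 p q g1) := by
    rw [← H.ev h0 h1 hf (hg1GB.mono (div_le_div_of_nonneg_right (by nlinarith) hl'.le))]
    congr 2
    funext x
    rw [hg1d]
    ring
  set h : V N → ℝ := fun x => c * U (10 * l) l (x - p) + c * U (10 * l) l (x - q) + (-c) with hh
  have hGB : GB (2 * C / l) h := by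
    have h2 := ((U_cGB (10 * l) hl0 p hc).add (U_cGB (10 * l) hl0 q hc)).add
      (GB.const (N := N) (s := 0) le_rfl (-c))
    refine h2.mono (le_of_eq ?_)
    ring
  have hb : ∀ x, |h x| ≤ 3 * C := by
    intro x
    rw [hh]
    have a1 := abs_U (10 * l) l (x - p)
    have a2 := abs_U (10 * l) l (x - q)
    have b1 : |c * U (10 * l) l (x - p)| ≤ C := by
      rw [abs_mul]
      calc _ ≤ C * 1 := mul_le_mul hc a1 (abs_nonneg _) hC0
        _ = C := mul_one C
    have b2 : |c * U (10 * l) l (x - q)| ≤ C := by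
      rw [abs_mul]
      calc _ ≤ C * 1 := mul_le_mul hc a2 (abs_nonneg _) hC0
        _ = C := mul_one C
    refine (abs_add_le _ _).trans ?_
    rw [abs_neg]
    have := abs_add_le (c * U (10 * l) l (x - p)) (c * U (10 * l) l (x - q))
    linarith
  have hbump := H.bumps h0 h1 hf (g := g1) (h := h) (s := L + C) (t := 2 * C) (B := 3 * C)
    (by positivity) (by positivity) (by positivity) hg1GB hGB hb
    (fun x hx => by
      have h3 := H.sep hf (x := x) (by omega)
      rw [hh]
      simp only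
      rw [U_one hl0 (show sz (x - p) ≤ 10 * l by omega), U_zero (by omega)]
      ring)
    (fun x hx => by
      have h3 := H.sep hf.symm (x := x) (by omega)
      rw [hh]
      simp only
      rw [U_one hl0 (show sz (x - q) ≤ 10 * l by omega), U_zero (by omega)]
      ring)
    (by nlinarith)
  have e3 : (fun x => g1 x + h x) = fun x => (g x + c * U (10 * l) l (x - q)) + (-c) := by
    funext x
    rw [hg1d, hh]
    ring
  rw [e3, cfg_const] at hbump
  unfold rsp
  rw [e1, e2]
  unfold eB
  have e4 : ∀ a b d : ℝ, (a - b) - (d - b) = a - d := by intros; ring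
  rw [e4]
  exact hbump

/-- **oddness of the response** -/
theorem rsp_odd (H : SysI N l r Λ ε₂ ε₃ D0 D1 ρ) {F0 F1 : ℤ → ℤ → ℝ} (h0 : F0 ∈ D0)
    (h1 : F1 ∈ D1) {p q : V N} (hf : Far r p q) {g : V N → ℝ} {L C c : ℝ} (hL : 0 ≤ L)
    (hg : GB (L / l) g) (hc : |c| ≤ C) (hΛ : 100000 * (1 + CG + L + C) ≤ Λ) :
    |rsp ρ l F0 F1 p q g c + rsp ρ l F0 F1 p q g (-c)| ≤ 2 * eB N l ε₂ ε₃ + ε₃ := by
  have hC := CG_pos
  have hl4 := H.hl
  have hl0 : 0 < l := by omega
  have hlr := H.hlr
  have hl' : (0 : ℝ) < l := by exact_mod_cast hl0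
  have hC0 : 0 ≤ C := (abs_nonneg c).trans hc
  have hc' : |-c| ≤ C := by rwa [abs_neg]
  have hg1 : GB (L / l) g := hg
  set u : V N → ℝ := fun x => c * U (10 * l) l (x - q) with hu
  set u' : V N → ℝ := fun x => (-c) * U (13 * l) l (x - q) with hu'
  set v : V N → ℝ := fun x => (-c) * U (10 * l) l (x - q) with hv
  have huGB : GB (C / l) u := U_cGB (10 * l) hl0 q hc
  have huGB' : GB (C / l) u' := U_cGB (13 * l) hl0 q hc'
  have hvGB : GB (C / l) v := U_cGB (10 * l) hl0 q hc'
  set h : V N → ℝ := fun x => u x + u' x with hh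
  have hGB : GB (2 * C / l) h := (huGB.add huGB').mono (le_of_eq (by ring))
  have hb : ∀ x, |h x| ≤ 2 * C := by
    intro x
    have a1 := abs_U (10 * l) l (x - q)
    have a2 := abs_U (13 * l) l (x - q)
    have b1 : |u x| ≤ C := by
      rw [hu]
      simp only
      rw [abs_mul]
      calc _ ≤ C * 1 := mul_le_mul hc a1 (abs_nonneg _) hC0
        _ = C := mul_one C
    have b2 : |u' x| ≤ C := by
      rw [hu']
      simp only
      rw [abs_mul]
      calc _ ≤ C * 1 := mul_le_mul hc' a2 (abs_nonneg _) hC0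
        _ = C := mul_one C
    rw [hh]
    refine (abs_add_le _ _).trans ?_
    linarith
  have hz1 : ∀ x, sz (x - p) ≤ 9 * l → h x = 0 := by
    intro x hx
    have h3 := H.sep hf (x := x) (by omega)
    rw [hh, hu, hu']
    simp only
    rw [U_zero (by omega), U_zero (by omega)]
    ring
  have hz2 : ∀ x, sz (x - q) ≤ 9 * l → h x = 0 := by
    intro x hx
    rw [hh, hu, hu']
    simp only
    rw [U_one hl0 (by omega), U_one hl0 (by omega)]
    ring
  have b1 := H.bumps h0 h1 hf (g := g) (h := h) (s := L) (t := 2 * C) (B := 2 * C)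
    hL (by positivity) (by positivity) hg1 hGB hb hz1 hz2 (by nlinarith)
  -- locality
  set B : V N × Bool → ℝ := cfg F0 F1 p q g with hB
  have kB : KK l r Λ D0 D1 B := KK.core' h0 h1 hf hg1 (by nlinarith)
  have eP : (fun e => B e + gr u e) = cfg F0 F1 p q (fun x => g x + u x) := by
    funext e
    rw [hB, ← cfg_add]
  have kP : KK l r Λ D0 D1 (fun e => B e + gr u e) := by
    rw [eP]
    refine KK.core' h0 h1 hf (s := L + C) ?_ (by nlinarith)
    rw [add_div]
    exact hg1.add huGB
  have eW : (fun e => B e + gr u' e) = cfg F0 F1 p q (fun x => g x + u' x) := by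
    funext e
    rw [hB, ← cfg_add]
  have kW : KK l r Λ D0 D1 (fun e => B e + gr u' e) := by
    rw [eW]
    refine KK.core' h0 h1 hf (s := L + C) ?_ (by nlinarith)
    rw [add_div]
    exact hg1.add huGB'
  have ePW : (fun e => B e + gr u e + gr u' e) = cfg F0 F1 p q (fun x => g x + h x) := by
    funext e
    rw [cfg_add, hh, gr_add, hB]
    ring
  have kPW : KK l r Λ D0 D1 (fun e => B e + gr u e + gr u' e) := by
    rw [ePW]
    refine KK.core' h0 h1 hf (s := L + 2 * C) ?_ (by nlinarith)
    rw [add_div]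
    exact hg1.add hGB
  have hPs : ∀ e : V N × Bool, gr u e ≠ 0 → sz (e.1 - q) ≤ 11 * l := by
    rintro ⟨x, b⟩ hx
    by_contra h4
    refine hx ?_
    simp only at h4
    have h5 := (sz_step (x - q) b).1
    have h8 : 10 * l + l ≤ sz (x + eb b - q) := by rw [add_sub_right_comm]; omega
    rw [gr_eq]
    simp only [hu]
    rw [U_zero h8, U_zero (show 10 * l + l ≤ sz (x - q) by omega)]
    ring
  have hWs : ∀ e : V N × Bool, gr u' e ≠ 0 → 11 * l + l ≤ sz (e.1 - q) := by
    rintro ⟨y, b'⟩ hy
    by_contra h4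
    refine hy ?_
    simp only at h4
    have h5 := (sz_step (y - q) b').2
    have h8 : sz (y + eb b' - q) ≤ 13 * l := by rw [add_sub_right_comm]; omega
    rw [gr_eq]
    simp only [hu']
    rw [U_one hl0 h8, U_one hl0 (show sz (y - q) ≤ 13 * l by omega)]
    ring
  have hloc := H.loc q (11 * l) B (gr u) (gr u') (by omega) kB kP kW kPW hPs hWs
  rw [ePW, eW, eP] at hloc
  unfold rsp
  unfold eB
  -- the bump from `u'` to `v`
  have b4 := H.bumps h0 h1 hf (g := fun x => g x + v x) (h := fun x => h x) (s := L + C)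
    (t := 2 * C) (B := 2 * C) (by positivity) (by positivity) (by positivity)
    (by rw [add_div]; exact hg1.add hvGB) hGB hb hz1 hz2 (by nlinarith)
  have e6 : (fun x => (g x + v x) + h x) = fun x => g x + u' x := by
    funext x
    rw [hh, hu, hv]
    ring
  rw [e6] at b4
  rw [abs_le] at hloc b1 b4 ⊢
  constructor <;> linarith


/-- **reflection of the response** -/
theorem rsp_refl (H : SysI N l r Λ ε₂ ε₃ D0 D1 ρ) {F0 F1 : ℤ → ℤ → ℝ} (h0 : F0 ∈ D0)
    (h1 : F1 ∈ D1) {p q : V N} (hf : Far r p q) {g : V N → ℝ} {L C c : ℝ} (hL : 0 ≤ L)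
    (hg : GB (L / l) g) (hc : |c| ≤ C) (hΛ : 100000 * (1 + CG + L + C) ≤ Λ) :
    |rsp ρ l F0 F1 p q g c -
      rsp ρ l (fun i j => -rfl2 F0 i j) (fun i j => -rfl2 F1 i j) (sF p) (sF q)
        (fun x => -g (sR x)) (-c)| ≤ eB N l ε₂ ε₃ := by
  have hC := CG_pos
  have hl4 := H.hl
  have hl0 : 0 < l := by omega
  have hlr := H.hlr
  have hl' : (0 : ℝ) < l := by exact_mod_cast hl0
  have hC0 : 0 ≤ C := (abs_nonneg c).trans hc
  have hc' : |-c| ≤ C := by rwa [abs_neg]
  have hg1 : GB (L / l) g := hg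
  have ha1 := H.rf h0 h1 hf (hg1.mono (div_le_div_of_nonneg_right (by nlinarith) hl'.le))
  have ha2 := H.rf h0 h1 hf (g := fun x => g x + c * U (10 * l) l (x - q))
    ((hg1.add (U_cGB (10 * l) hl0 q hc)).mono (by
      rw [← add_div]
      exact div_le_div_of_nonneg_right (by nlinarith) hl'.le))
  unfold rsp
  rw [ha1, ← ha2]
  have e3 : ∀ x : V N, U (10 * l) l (sR x - q) = U (10 * l) l (x - sR q) := by
    intro x
    have : sR x - q = sR (x - sR q) := by rw [sR_sub, sR_sR]
    rw [this]
    unfold U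
    rw [sz_sR]
  set g1 : V N → ℝ := fun x => -g (sR x) + (-c) * U (10 * l) l (x - sF q) with hg1d
  have hg1GB : GB ((L + C) / l) g1 := by
    rw [add_div]
    exact hg1.sR.neg.add (U_cGB (10 * l) hl0 (sF q) hc')
  set h : V N → ℝ := fun x => (-c) * U (10 * l) l (x - sR q) - (-c) * U (10 * l) l (x - sF q)
    with hh
  have hGB : GB (2 * C / l) h := by
    refine ((U_cGB (10 * l) hl0 (sR q) hc').sub (U_cGB (10 * l) hl0 (sF q) hc')).mono (le_of_eq ?_)
    ring
  have hb : ∀ x, |h x| ≤ 2 * C := by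
    intro x
    have a1 := abs_U (10 * l) l (x - sR q)
    have a2 := abs_U (10 * l) l (x - sF q)
    have b1 : |(-c) * U (10 * l) l (x - sR q)| ≤ C := by
      rw [abs_mul]
      calc _ ≤ C * 1 := mul_le_mul hc' a1 (abs_nonneg _) hC0
        _ = C := mul_one C
    have b2 : |(-c) * U (10 * l) l (x - sF q)| ≤ C := by
      rw [abs_mul]
      calc _ ≤ C * 1 := mul_le_mul hc' a2 (abs_nonneg _) hC0
        _ = C := mul_one C
    rw [hh]
    refine (abs_sub _ _).trans ?_
    linarith
  have hse : ∀ x, sz (x - sR q) ≤ sz (x - sF q) + 1 ∧ sz (x - sF q) ≤ sz (x - sR q) + 1 := by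
    intro x
    have := sz_step (x - sR q) true
    have e : x - sR q + eb true = x - sF q := by
      show x - sR q + e2 = x - sF q
      unfold sF
      abel
    rw [e] at this
    exact ⟨this.1, this.2⟩
  have hbump := H.bumps (H.rfl0 h0) (H.rfl1 _ h1) hf.sF (g := g1) (h := h) (s := L + C)
    (t := 2 * C) (B := 2 * C) (by positivity) (by positivity) (by positivity) hg1GB hGB hb
    (fun x hx => by
      have h3 := H.sep hf.sF (x := x) (by omega)
      have h4 := hse x
      rw [hh]
      simp only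
      rw [U_zero (by omega), U_zero (by omega)]
      ring)
    (fun x hx => by
      have h4 := hse x
      rw [hh]
      simp only
      rw [U_one hl0 (by omega), U_one hl0 (by omega)]
      ring)
    (by nlinarith)
  have e4 : (fun x => g1 x + h x) =
      fun x => -(g (sR x) + c * U (10 * l) l (sR x - q)) := by
    funext x
    rw [e3, hg1d, hh]
    ring
  rw [e4] at hbump
  unfold eB
  have e5 : ∀ a b d : ℝ, (a - b) - (d - b) = a - d := by intros; ring
  rw [e5]
  exact hbump

lemma rsp_tr (H : SysI N l r Λ ε₂ ε₃ D0 D1 ρ) {F0 F1 : ℤ → ℤ → ℝ} (h0 : F0 ∈ D0)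
    (h1 : F1 ∈ D1) {p q : V N} (hf : Far r p q) {g : V N → ℝ} {L C c : ℝ} (hL : 0 ≤ L)
    (hg : GB (L / l) g) (hc : |c| ≤ C) (hΛ : 100000 * (1 + CG + L + C) ≤ Λ) (a : V N) :
    rsp ρ l F0 F1 (p + a) (q + a) (fun y => g (y - a)) c = rsp ρ l F0 F1 p q g c := by
  have hC := CG_pos
  have hl4 := H.hl
  have hl0 : 0 < l := by omega
  have hlr := H.hlr
  have hl' : (0 : ℝ) < l := by exact_mod_cast hl0
  have hC0 : 0 ≤ C := (abs_nonneg c).trans hc
  have hg1 : GB (L / l) g := hg
  have e1 := H.tr h0 h1 hf (hg1.mono (div_le_div_of_nonneg_right (by nlinarith) hl'.le)) a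
  have e2 := H.tr h0 h1 hf (g := fun x => g x + c * U (10 * l) l (x - q))
    ((hg1.add (U_cGB (10 * l) hl0 q hc)).mono (by
      rw [← add_div]
      exact div_le_div_of_nonneg_right (by nlinarith) hl'.le)) a
  unfold rsp
  rw [e1, ← e2]
  congr 4
  funext y
  congr 3
  abel

end

/-- pointwise form of `Idl` -/
def IdG {N : ℕ} [NeZero N] (b0 : ℤ → ℤ → Bool → ℝ) (m : ℕ) (p q : V N) (g : V N → ℝ) : Prop :=
  (∀ x b, sz (x - p) ≤ m →
    bD p q (x, b) + gr g (x, b) = b0 (x - p).1.valMinAbs (x - p).2.valMinAbs b) ∧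
  (∀ x b, sz (x - q) ≤ m →
    bD p q (x, b) + gr g (x, b) = -b0 (x - q).1.valMinAbs (x - q).2.valMinAbs b)

lemma idl_iff {N : ℕ} [NeZero N] {b0 : ℤ → ℤ → Bool → ℝ} {m : ℕ} {p q : V N} {g : V N → ℝ} :
    Idl b0 m p q g ↔ IdG b0 m p q g :=
  ⟨fun h => ⟨fun x b hx => h.at0 (x, b) hx, fun x b hx => h.at1 (x, b) hx⟩,
    fun h => ⟨fun e he => h.1 e.1 e.2 he, fun e he => h.2 e.1 e.2 he⟩⟩

section

variable {N : ℕ} [NeZero N] {b0 : ℤ → ℤ → Bool → ℝ} {m : ℕ} {p q : V N} {g : V N → ℝ}

lemma IdG.mono (h : IdG b0 m p q g) {m' : ℕ} (hm : m' ≤ m) : IdG b0 m' p q g :=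
  ⟨fun x b hx => h.1 x b (hx.trans hm), fun x b hx => h.2 x b (hx.trans hm)⟩

lemma IdG.swap (h : IdG b0 m p q g) (hf : 2 * sz (q - p) < N) : IdG b0 m q p (fun x => -g x) := by
  constructor
  · intro x b hx
    have h1 := h.2 x b hx
    rw [gr_neg]
    have h2 := bD_neg hf (x, b)
    linarith
  · intro x b hx
    have h1 := h.1 x b hx
    rw [gr_neg]
    have h2 := bD_neg hf (x, b)
    linarith

lemma IdG.tr (h : IdG b0 m p q g) (a : V N) : IdG b0 m (p + a) (q + a) (fun y => g (y - a)) := by
  constructor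
  · intro x b hx
    have e : x - (p + a) = x - a - p := by abel
    rw [e] at hx ⊢
    have h1 := h.1 (x - a) b hx
    have h2 := bD_shift p q a (x - a) b
    have h3 := gr_shift g a (x - a) b
    rw [sub_add_cancel] at h2 h3
    rw [h2, h3]
    exact h1
  · intro x b hx
    have e : x - (q + a) = x - a - q := by abel
    rw [e] at hx ⊢
    have h1 := h.2 (x - a) b hx
    have h2 := bD_shift p q a (x - a) b
    have h3 := gr_shift g a (x - a) b
    rw [sub_add_cancel] at h2 h3
    rw [h2, h3]
    exact h1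

lemma one_sub_vma {a : ZMod N} (h : 2 * (a.valMinAbs.natAbs + 1) < N) :
    (-a + 1).valMinAbs = 1 - a.valMinAbs := by
  have h1 : (1 : ZMod N).valMinAbs = 1 := by
    have h3 : (((1 : ℤ)) : ZMod N).valMinAbs = 1 := vma_XX (by simp; omega)
    simpa using h3
  have h2 := vma_neg (a := a) (by omega)
  have h3 := vma_add (a := -a) (b := 1) (by rw [h1, h2]; simp; omega)
  rw [h3, h1, h2]
  ring

lemma IdG.sF {l : ℕ} (h : IdG b0 (m + 1) p q g) (hf : 2 * sz (q - p) < N)
    (hx : ∀ i j : ℤ, i.natAbs ≤ 21 * l → j.natAbs ≤ 21 * l → b0 i (1 - j) false = -b0 i j false)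
    (hy : ∀ i j : ℤ, i.natAbs ≤ 21 * l → j.natAbs ≤ 21 * l → b0 i (-j) true = b0 i j true)
    (hml : m ≤ 21 * l) (hmN : 2 * (m + 1) < N) :
    IdG b0 m (H817.sF p) (H817.sF q) (fun x => -g (sR x)) := by
  -- the reflected field
  have key : ∀ (c : V N) (σ : ℝ), (∀ x b, sz (x - c) ≤ m + 1 →
      bD p q (x, b) + gr g (x, b) = σ * b0 (x - c).1.valMinAbs (x - c).2.valMinAbs b) →
      ∀ x b, sz (x - H817.sF c) ≤ m → bD (H817.sF p) (H817.sF q) (x, b) + gr (fun x => -g (sR x)) (x, b) =
        σ * b0 (x - H817.sF c).1.valMinAbs (x - H817.sF c).2.valMinAbs b := by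
    intro c σ hc x b hxc
    have h1 := Rf_bD hf (x, b)
    have h2 := Rf_gr g (x, b)
    have h3 : gr (fun x => -g (sR x)) (x, b) = -gr (fun x => g (sR x)) (x, b) := gr_neg _ _
    set z := x - H817.sF c with hz
    have hzn : z.1.valMinAbs.natAbs ≤ m ∧ z.2.valMinAbs.natAbs ≤ m := by
      have := natAbs_le_sz z
      omega
    have e1 : sR x - c = sR z + e2 := by
      rw [hz]
      unfold H817.sF
      rw [sR_sub, sR_sub, sR_sR, sR_e2]
      abel
    have e2' : sR x - e2 - c = sR z := by
      have : sR x - e2 - c = (sR x - c) - e2 := by abel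
      rw [this, e1, add_sub_cancel_right]
    rw [h3, ← h2]
    cases b
    · rw [Rf_false] at h1 h2 ⊢
      have h4 := hc (sR x) false (by
        rw [e1]
        have := (sz_step (sR z) true).2
        rw [sz_sR] at this
        exact this.trans (by omega))
      rw [e1] at h4
      have c1 : (sR z + e2).1 = z.1 := by
        show z.1 + 0 = z.1
        rw [add_zero]
      have c2 : (sR z + e2).2 = -z.2 + 1 := rfl
      rw [c1, c2, one_sub_vma (by omega), hx _ _ (by omega) (by omega)] at h4
      linarith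
    · rw [Rf_true] at h1 h2 ⊢
      have h4 := hc (sR x - e2) true (by
        rw [e2', sz_sR]
        omega)
      rw [e2'] at h4
      have c1 : (sR z).1 = z.1 := rfl
      have c2 : (sR z).2 = -z.2 := rfl
      rw [c1, c2, vma_neg (by omega), hy _ _ (by omega) (by omega)] at h4
      linarith
  constructor
  · intro x b hxp
    have := key p 1 (fun x b hx => by rw [one_mul]; exact h.1 x b hx) x b hxp
    rw [one_mul] at this
    exact this
  · intro x b hxq
    have := key q (-1) (fun x b hx => by rw [h.2 x b hx]; ring) x b hxq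
    rw [this]
    ring

/-- a function without differences on a box is constant there -/
lemma box_const {f : V N → ℝ} {w : V N} {m : ℕ} (hm : 2 * (m + 1) < N)
    (hf : ∀ x b, sz (x - w) ≤ m → gr f (x, b) = 0) : ∀ x, sz (x - w) ≤ m → f x = f w := by
  have key : ∀ n : ℕ, ∀ x : V N, l1 (x - w) = n → sz (x - w) ≤ m → f x = f w := by
    have h1 : (1 : ZMod N).valMinAbs = 1 := by
      have h3 : (((1 : ℤ)) : ZMod N).valMinAbs = 1 := vma_XX (by simp; omega)
      simpa using h3
    have h1' : (-1 : ZMod N).valMinAbs = -1 := by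
      rw [vma_neg (by rw [h1]; simp; omega), h1]
    have hadd : ∀ a : ZMod N, a.valMinAbs.natAbs ≤ m → (a + 1).valMinAbs = a.valMinAbs + 1 := by
      intro a ha
      rw [vma_add (by rw [h1]; simp; omega), h1]
    have hsub : ∀ a : ZMod N, a.valMinAbs.natAbs ≤ m → (a - 1).valMinAbs = a.valMinAbs - 1 := by
      intro a ha
      rw [sub_eq_add_neg, vma_add (by rw [h1']; simp; omega), h1']
      ring
    intro n
    induction n with
    | zero =>
      intro x hx _
      unfold l1 at hx
      have h2 : (x - w).1.valMinAbs = 0 := by omega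
      have h3 : (x - w).2.valMinAbs = 0 := by omega
      have h4 : x - w = 0 := by
        ext
        · have := ZMod.coe_valMinAbs (x - w).1
          rw [h2] at this
          simpa using this.symm
        · have := ZMod.coe_valMinAbs (x - w).2
          rw [h3] at this
          simpa using this.symm
      rw [sub_eq_zero.1 h4]
    | succ n ih =>
      intro x hx hs
      have hz := natAbs_le_sz (x - w)
      by_cases c1 : (x - w).1.valMinAbs = 0
      · -- second coordinate
        by_cases c2 : 0 < (x - w).2.valMinAbs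
        · have e : (x - e2 - w) = (x - w) - e2 := by abel
          have v1 : (x - e2 - w).1 = (x - w).1 := by
            rw [e]
            show (x - w).1 - 0 = _
            rw [sub_zero]
          have v2 : (x - e2 - w).2 = (x - w).2 - 1 := by
            rw [e]
            rfl
          have hv := hsub (x - w).2 (by omega)
          have hsz : sz (x - e2 - w) ≤ m := by
            unfold sz
            rw [v1, v2, hv]
            unfold sz at hs
            omega
          have hl1 : l1 (x - e2 - w) = n := by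
            unfold l1 at hx ⊢
            rw [v1, v2, hv]
            omega
          have h5 := hf (x - e2) true hsz
          rw [gr_true, sub_add_cancel] at h5
          rw [← ih _ hl1 hsz]
          linarith
        · have e : (x + e2 - w) = (x - w) + e2 := by abel
          have v1 : (x + e2 - w).1 = (x - w).1 := by
            rw [e]
            show (x - w).1 + 0 = _
            rw [add_zero]
          have v2 : (x + e2 - w).2 = (x - w).2 + 1 := by
            rw [e]
            rfl
          have hv := hadd (x - w).2 (by omega)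
          have c3 : (x - w).2.valMinAbs < 0 := by
            unfold l1 at hx
            omega
          have hsz : sz (x + e2 - w) ≤ m := by
            unfold sz
            rw [v1, v2, hv]
            unfold sz at hs
            omega
          have hl1 : l1 (x + e2 - w) = n := by
            unfold l1 at hx ⊢
            rw [v1, v2, hv]
            omega
          have h5 := hf x true hs
          rw [gr_true] at h5
          rw [← ih _ hl1 hsz]
          linarith
      · by_cases c2 : 0 < (x - w).1.valMinAbs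
        · have e : (x - e1 - w) = (x - w) - e1 := by abel
          have v1 : (x - e1 - w).1 = (x - w).1 - 1 := by
            rw [e]
            rfl
          have v2 : (x - e1 - w).2 = (x - w).2 := by
            rw [e]
            show (x - w).2 - 0 = _
            rw [sub_zero]
          have hv := hsub (x - w).1 (by omega)
          have hsz : sz (x - e1 - w) ≤ m := by
            unfold sz
            rw [v1, v2, hv]
            unfold sz at hs
            omega
          have hl1 : l1 (x - e1 - w) = n := by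
            unfold l1 at hx ⊢
            rw [v1, v2, hv]
            omega
          have h5 := hf (x - e1) false hsz
          rw [gr_false, sub_add_cancel] at h5
          rw [← ih _ hl1 hsz]
          linarith
        · have e : (x + e1 - w) = (x - w) + e1 := by abel
          have v1 : (x + e1 - w).1 = (x - w).1 + 1 := by
            rw [e]
            rfl
          have v2 : (x + e1 - w).2 = (x - w).2 := by
            rw [e]
            show (x - w).2 + 0 = _
            rw [add_zero]
          have hv := hadd (x - w).1 (by omega)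
          have hsz : sz (x + e1 - w) ≤ m := by
            unfold sz
            rw [v1, v2, hv]
            unfold sz at hs
            omega
          have hl1 : l1 (x + e1 - w) = n := by
            unfold l1 at hx ⊢
            rw [v1, v2, hv]
            omega
          have h5 := hf x false hs
          rw [gr_false] at h5
          rw [← ih _ hl1 hsz]
          linarith
  exact fun x hx => key _ x rfl hx

end

section

variable {N : ℕ} [NeZero N] {l r : ℕ} {Λ ε₂ ε₃ : ℝ} {D0 D1 : Dec} {ρ : (V N × Bool → ℝ) → ℝ}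

/-- **locality of the response**, for fields which agree near the core -/
theorem rsp_loc (H : SysI N l r Λ ε₂ ε₃ D0 D1 ρ) {F0 F0' F1 : ℤ → ℤ → ℝ} (h0 : F0 ∈ D0)
    (h0' : F0' ∈ D0) (h1 : F1 ∈ D1) {p p' q : V N} (hf : Far r p q) (hf' : Far r p' q)
    {g g' : V N → ℝ} {L C c : ℝ} (hL : 0 ≤ L) (hg : GB (L / l) g) (hg' : GB (L / l) g')
    (hc : |c| ≤ C) (hΛ : 100000 * (1 + CG + L + C) ≤ Λ)
    (he : ∀ x b, sz (x - q) ≤ 12 * l →
      bD p q (x, b) + gr g (x, b) = bD p' q (x, b) + gr g' (x, b)) :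
    |rsp ρ l F0 F1 p q g c - rsp ρ l F0' F1 p' q g' c| ≤ ε₃ := by
  have hC := CG_pos
  have hl4 := H.hl
  have hl0 : 0 < l := by omega
  have hlr := H.hlr
  have hrN := H.hrN
  have hl' : (0 : ℝ) < l := by exact_mod_cast hl0
  have hC0 : 0 ≤ C := (abs_nonneg c).trans hc
  have hdp : ∀ x, sz (x - q) ≤ 15 * l → r ≤ 4 * sz (x - p) := by
    intro x hx
    have h3 := sz_add_le (p - x) (x - q)
    rw [sub_add_sub_cancel, sz_sub_comm p x, sz_sub_comm p q] at h3
    have := hf.1
    omega
  have hdp' : ∀ x, sz (x - q) ≤ 15 * l → r ≤ 4 * sz (x - p') := by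
    intro x hx
    have h3 := sz_add_le (p' - x) (x - q)
    rw [sub_add_sub_cancel, sz_sub_comm p' x, sz_sub_comm p' q] at h3
    have := hf'.1
    omega
  set u : V N → ℝ := fun x => c * U (10 * l) l (x - q) with hu
  have huGB : GB (C / l) u := U_cGB (10 * l) hl0 q hc
  set B : V N × Bool → ℝ := cfg F0 F1 p q g with hB
  set W : V N × Bool → ℝ := fun e => cfg F0' F1 p' q g' e - B e with hW
  have kB : KK l r Λ D0 D1 B := KK.core' h0 h1 hf hg (by nlinarith)
  have eP : (fun e => B e + gr u e) = cfg F0 F1 p q (fun x => g x + u x) := by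
    funext e
    rw [hB, ← cfg_add]
  have kP : KK l r Λ D0 D1 (fun e => B e + gr u e) := by
    rw [eP]
    refine KK.core' h0 h1 hf (s := L + C) ?_ (by nlinarith)
    rw [add_div]
    exact hg.add huGB
  have eW : (fun e => B e + W e) = cfg F0' F1 p' q g' := by
    funext e
    rw [hW]
    ring
  have kW : KK l r Λ D0 D1 (fun e => B e + W e) := by
    rw [eW]
    exact KK.core' h0' h1 hf' hg' (by nlinarith)
  have ePW : (fun e => B e + gr u e + W e) = cfg F0' F1 p' q (fun x => g' x + u x) := by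
    funext e
    rw [cfg_add, hW]
    ring
  have kPW : KK l r Λ D0 D1 (fun e => B e + gr u e + W e) := by
    rw [ePW]
    refine KK.core' h0' h1 hf' (s := L + C) ?_ (by nlinarith)
    rw [add_div]
    exact hg'.add huGB
  have hPs : ∀ e : V N × Bool, gr u e ≠ 0 → sz (e.1 - q) ≤ 11 * l := by
    rintro ⟨x, b⟩ hx
    by_contra h4
    refine hx ?_
    simp only at h4
    have h5 := (sz_step (x - q) b).1
    have h8 : 10 * l + l ≤ sz (x + eb b - q) := by rw [add_sub_right_comm]; omega
    rw [gr_eq]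
    simp only [hu]
    rw [U_zero h8, U_zero (show 10 * l + l ≤ sz (x - q) by omega)]
    ring
  have hWs : ∀ e : V N × Bool, W e ≠ 0 → 11 * l + l ≤ sz (e.1 - q) := by
    rintro ⟨y, b'⟩ hy
    by_contra h4
    refine hy ?_
    simp only at h4
    have d1 := hdp y (by omega)
    have d2 := hdp' y (by omega)
    have h5 := he y b' (by omega)
    simp only [hW, hB]
    unfold cfg
    rw [gr_dec_zero (H.supp0 F0 h0) b' (by omega), gr_dec_zero (H.supp0 F0' h0') b' (by omega)]
    linarith
  have hloc := H.loc q (11 * l) B (gr u) W (by omega) kB kP kW kPW hPs hWs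
  rw [ePW, eW, eP] at hloc
  unfold rsp
  rw [abs_le] at hloc ⊢
  constructor <;> linarith

/-- **plateau**: an ideal core does not respond to a shift -/
theorem plateau (H : SysI N l r Λ ε₂ ε₃ D0 D1 ρ) {b0 : ℤ → ℤ → Bool → ℝ}
    (hx : ∀ i j : ℤ, i.natAbs ≤ 21 * l → j.natAbs ≤ 21 * l → b0 i (1 - j) false = -b0 i j false)
    (hy : ∀ i j : ℤ, i.natAbs ≤ 21 * l → j.natAbs ≤ 21 * l → b0 i (-j) true = b0 i j true)
    {F0 F1 : ℤ → ℤ → ℝ} (h0 : F0 ∈ D0) (h1 : F1 ∈ D1) {p q : V N} (hf : Far r p q)
    {g : V N → ℝ} {L C c : ℝ} (hL : 0 ≤ L) (hg : GB (L / l) g) (hid : IdG b0 (20 * l) p q g)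
    (hc : |c| ≤ C) (hΛ : 100000 * (1 + CG + L + C) ≤ Λ) :
    |rsp ρ l F0 F1 p q g c| ≤ 5 * eB N l ε₂ ε₃ := by
  have hC := CG_pos
  have hl4 := H.hl
  have hlr := H.hlr
  have hrN := H.hrN
  have hC0 : 0 ≤ C := (abs_nonneg c).trans hc
  have hc' : |-c| ≤ C := by rwa [abs_neg]
  have hΛ0 : 0 ≤ Λ := by nlinarith
  have he3 := (H.eB_ge hΛ0).1
  -- reflection
  have s1 := rsp_refl H h0 h1 hf hL hg hc hΛ
  set R0 : ℤ → ℤ → ℝ := fun i j => -rfl2 F0 i j with hR0
  set R1 : ℤ → ℤ → ℝ := fun i j => -rfl2 F1 i j with hR1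
  have m0 : R0 ∈ D0 := H.rfl0 h0
  have m1 : R1 ∈ D1 := H.rfl1 _ h1
  -- translation
  set a : V N := q - H817.sF q with ha
  set g1 : V N → ℝ := fun x => -g (sR x) with hg1
  have hg1GB : GB (L / l) g1 := hg.sR.neg
  have i1 : IdG b0 (19 * l) (H817.sF p) (H817.sF q) g1 :=
    IdG.sF (hid.mono (by omega)) (H.far_lt hf) hx hy (by omega) (by omega)
  have s2 := rsp_tr H m0 m1 hf.sF hL hg1GB hc' hΛ a
  have i2 := i1.tr a
  have ea : H817.sF q + a = q := by rw [ha]; abel
  rw [ea] at s2 i2
  set p2 : V N := H817.sF p + a with hp2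
  set g2 : V N → ℝ := fun y => g1 (y - a) with hg2
  have hg2GB : GB (L / l) g2 := hg1GB.shift a
  have hf2 : Far r p2 q := by
    rw [← ea, hp2]
    have := hf.sF
    unfold Far at this ⊢
    rw [add_sub_add_right_eq_sub]
    exact this
  -- swap, change the decoration, swap back
  have s3 := rsp_swap H m0 m1 hf2 hL hg2GB hc' hΛ
  have s4 := rsp_loc H (H.neg10 _ m1) (H.neg10 _ h1) (H.neg01 _ m0) hf2.symm hf2.symm hL
    hg2GB.neg hg2GB.neg hc' hΛ (fun _ _ _ => rfl)
  have s5 := rsp_swap H m0 h1 hf2 hL hg2GB hc' hΛ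
  -- back to the first configuration
  have s6 := rsp_loc H m0 h0 h1 hf2 hf hL hg2GB hg hc' hΛ (fun x b hx => by
    rw [i2.2 x b (by omega), hid.2 x b (by omega)])
  have s7 := rsp_odd H h0 h1 hf hL hg hc hΛ
  rw [← s2] at s1
  rw [abs_le] at s1 s3 s4 s5 s6 s7 ⊢
  constructor <;> linarith

/-- **two ideal fields of the same pair give the same value** -/
theorem same (H : SysI N l r Λ ε₂ ε₃ D0 D1 ρ) {b0 : ℤ → ℤ → Bool → ℝ}
    (hx : ∀ i j : ℤ, i.natAbs ≤ 21 * l → j.natAbs ≤ 21 * l → b0 i (1 - j) false = -b0 i j false)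
    (hy : ∀ i j : ℤ, i.natAbs ≤ 21 * l → j.natAbs ≤ 21 * l → b0 i (-j) true = b0 i j true)
    {F0 F1 : ℤ → ℤ → ℝ} (h0 : F0 ∈ D0) (h1 : F1 ∈ D1) {p q : V N} (hf : Far r p q)
    {g g' : V N → ℝ} {L C : ℝ} (hL : 0 ≤ L) (hg : GB (L / l) g) (hg' : GB (L / l) g')
    (hid : IdG b0 (20 * l) p q g) (hid' : IdG b0 (20 * l) p q g') (hb : ∀ x, |g x| ≤ C)
    (hb' : ∀ x, |g' x| ≤ C) (hΛ : 1000000 * (1 + CG + L + C) ≤ Λ) :
    |ρ (cfg F0 F1 p q g') - ρ (cfg F0 F1 p q g)| ≤ 6 * eB N l ε₂ ε₃ := by
  have hC := CG_pos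
  have hl4 := H.hl
  have hl0 : 0 < l := by omega
  have hlr := H.hlr
  have hrN := H.hrN
  have hl' : (0 : ℝ) < l := by exact_mod_cast hl0
  have hC0 : 0 ≤ C := (abs_nonneg _).trans (hb 0)
  set f : V N → ℝ := fun x => g' x - g x with hfd
  have fb : ∀ x, |f x| ≤ 2 * C := fun x => by
    rw [hfd]
    refine (abs_sub _ _).trans ?_
    have := hb x
    have := hb' x
    linarith
  have fp : ∀ x, sz (x - p) ≤ 20 * l → f x = f p := box_const (by omega) fun x b hx => by
    rw [hfd, gr_sub]
    have := hid.1 x b hx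
    have := hid'.1 x b hx
    linarith
  have fq : ∀ x, sz (x - q) ≤ 20 * l → f x = f q := box_const (by omega) fun x b hx => by
    rw [hfd, gr_sub]
    have := hid.2 x b hx
    have := hid'.2 x b hx
    linarith
  have fGB : GB (2 * L / l) f := (hg'.sub hg).mono (le_of_eq (by ring))
  set c : ℝ := f q - f p with hc
  have hcb : |c| ≤ 4 * C := by
    refine (abs_sub _ _).trans ?_
    have := fb p
    have := fb q
    linarith
  have t3 := plateau H hx hy h0 h1 hf hL hg hid hcb (by nlinarith)
  unfold rsp at t3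
  set u : V N → ℝ := fun x => c * U (10 * l) l (x - q) with hu
  have huGB : GB (4 * C / l) u := U_cGB (10 * l) hl0 q hcb
  set h : V N → ℝ := fun x => (f x - u x) + (-f p) with hh
  have hGB : GB ((2 * L + 4 * C) / l) h := by
    refine ((fGB.sub huGB).add (GB.const (N := N) (s := 0) le_rfl (-f p))).mono (le_of_eq ?_)
    ring
  have hhb : ∀ x, |h x| ≤ 8 * C := by
    intro x
    have a1 := fb x
    have a4 := fb p
    have a5 : |u x| ≤ 4 * C := by
      rw [hu]
      simp only
      rw [abs_mul]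
      calc _ ≤ 4 * C * 1 := mul_le_mul hcb (abs_U _ _ _) (abs_nonneg _) (by positivity)
        _ = _ := mul_one _
    simp only [hh]
    rw [abs_le] at a1 a4 a5 ⊢
    constructor <;> linarith
  have t4 := H.bumps h0 h1 hf (g := fun x => g x + u x) (h := h) (s := L + 4 * C)
    (t := 2 * L + 4 * C) (B := 8 * C) (by positivity) (by positivity) (by positivity)
    (by rw [add_div]; exact hg.add huGB) hGB hhb
    (fun x hx => by
      have h3 := H.sep hf (x := x) (by omega)
      simp only [hh, hu]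
      rw [U_zero (by omega), fp x (by omega)]
      ring)
    (fun x hx => by
      simp only [hh, hu]
      rw [U_one hl0 (show sz (x - q) ≤ 10 * l by omega), fq x (by omega), hc]
      ring)
    (by nlinarith)
  have e4 : (fun x => (g x + u x) + h x) = fun x => g' x + (-f p) := by
    funext x
    simp only [hh, hfd]
    ring
  rw [e4, cfg_const] at t4
  have e5 : 8 * ((N : ℝ) / l) ^ 2 * (3 * ε₂ + ε₃) = eB N l ε₂ ε₃ := rfl
  rw [e5] at t4
  rw [abs_le] at t3 t4 ⊢
  constructor <;> linarith

/-- **PLATEAU**: two ideal fields of the same pair give the same value (arbitrary constants near the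
two cores) -/
theorem plat (H : SysI N l r Λ ε₂ ε₃ D0 D1 ρ) {b0 : ℤ → ℤ → Bool → ℝ} (hR : RefB b0 (21 * l))
    {F0 F1 : ℤ → ℤ → ℝ} (h0 : F0 ∈ D0) (h1 : F1 ∈ D1) {p q : V N} (hf : Far r p q)
    {g g' : V N → ℝ} {s B : ℝ} (hs : 0 ≤ s) (hg : GB (s / l) g) (hg' : GB (s / l) g')
    (hid : Idl b0 (20 * l) p q g) (hid' : Idl b0 (20 * l) p q g') (hb : ∀ x, |g x| ≤ B)
    (hb' : ∀ x, |g' x| ≤ B) (hΛ : 1000000 * (1 + CG + s + B) ≤ Λ) :
    |ρ (cfg F0 F1 p q g') - ρ (cfg F0 F1 p q g)| ≤ 6 * eB N l ε₂ ε₃ :=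
  same H (fun i j hi hj => by rw [(hR i j hi hj).1, neg_neg])
    (fun i j hi hj => (hR i j hi hj).2.symm) h0 h1 hf hs hg hg' (idl_iff.1 hid) (idl_iff.1 hid')
    hb hb' hΛ

end

end

end Vale.Agent.P159.H963.Idp
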