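import Vale.Agent.P159.H963.Link

/-!
P159, module LINK, lower half (helper963): the typical mean of a state as an equality up to the
deviation, and lower bounds of the torus numbers by the carried activity (request of 316).
-/

namespace Vale.Agent.P159.LNK

open Finset Matrix MeasureTheory Filter Topology
open Vale.Agent.P159.TM.H104 (EM Ex Cv Lg li nh Gr)
open Vale.Agent.P159.H37 (qf bf qf_eq Un Zn ZM wM gau Gm Cm cellP Ev PK)
open Vale.Agent.P159.TM.Spec (V)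
open Vale.Agent.P159.TM.SpecC (Tor wT)
open Vale.Agent.P159.H864 (TI sym fc MC cl cobV)
open Vale.Agent.P159.H363 (pin Nf lf lf_eq acl Rcl Ch ee mainf)
open Vale.Agent.P159.H896 (WM Ph om Avg Hv cK av avg_Ph avg_Zn_int norm_Ph_le wm_t wm_wT)
open Vale.Agent.P159.H963 (Neu cardV N_eq nM nMC eq2 eq2_pos MF GW gw_wT mf_smul)

set_option linter.unusedSectionVars false

noncomputable section

section state

variable {n : ℕ} [NeZero n] {A : Matrix (V n) (V n) ℝ} {ν : ℝ}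

/-- **the typical mean of a state**, equality up to the deviation -/
theorem mean_state_eq (hA : Nf A) {Ψ : (V n → ℝ) → ℂ} {ψ : V n → (V n → ℝ) → ℂ}
    (h : H889.Dif Ψ ψ) (hc : Ch Ψ) {z : ℂ} {d : ℝ} (hd : H889.Den A ν z d ψ) :
    ‖∫ g, Ψ (pin A *ᵥ g) ∂(gau (V n)) -
      ((n : ℝ) ^ 2 : ℝ) * (z * ((Real.exp (-(2 * Real.pi ^ 2 * vT ν A)) : ℝ) : ℂ))‖
      ≤ (n : ℝ) ^ 2 * d := by
  obtain ⟨K, hK0, hK⟩ := h.bdx'
  set S : Matrix (V n) (V n) ℝ := 1 - ν⁻¹ • A with hS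
  set M0 : ℝ := ∑ x, ∑ w, |S x w| with hM0
  have hmb : ∀ x F, ‖mainf S x F‖ ≤ M0 := fun x F =>
    (H363.norm_mainf_le S x F).trans (Finset.single_le_sum (f := fun x => ∑ w, |S x w|)
      (fun i _ => Finset.sum_nonneg fun w _ => abs_nonneg _) (Finset.mem_univ x))
  have hmu : ∀ x, Measurable fun F => ψ x F - z * mainf S x F := fun x =>
    (hd.m x).sub ((H363.measurable_mainf S x).const_mul z)
  have hbu : ∀ x F, ‖ψ x F - z * mainf S x F‖ ≤ K + ‖z‖ * M0 := fun x F => by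
    refine (norm_sub_le _ _).trans (add_le_add (hK x F) ?_)
    rw [norm_mul]
    exact mul_le_mul_of_nonneg_left (hmb x F) (norm_nonneg _)
  have hiu : ∀ x, Integrable (fun g => ψ x (pin A *ᵥ g) - z * mainf S x (pin A *ᵥ g))
      (gau (V n)) := fun x =>
    Integrable.of_bound (C := K + ‖z‖ * M0)
      ((hmu x).comp (continuous_pinv A).measurable).aestronglyMeasurable
      (Filter.Eventually.of_forall fun g => hbu x _)
  have hie : ∀ w, Integrable (fun g => ee ((S *ᵥ (pin A *ᵥ g)) w)) (gau (V n)) := fun w => by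
    refine Integrable.of_bound (C := 1) ?_ (Filter.Eventually.of_forall fun g => (H363.norm_ee _).le)
    refine (H363.measurable_ee.comp ?_).aestronglyMeasurable
    exact (measurable_pi_apply w).comp ((H363.measurable_mulVec S).comp
      (continuous_pinv A).measurable)
  have e1 : ∀ g, Ψ (pin A *ᵥ g) = ∑ x, (ψ x (pin A *ᵥ g) - z * mainf S x (pin A *ᵥ g))
      + z * ∑ w, ee ((S *ᵥ (pin A *ᵥ g)) w) := by
    intro g
    rw [dif_euler h hc, Finset.sum_sub_distrib, ← Finset.mul_sum, sum_mainf hA]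
    ring
  simp only [e1]
  rw [integral_add (integrable_finsetSum _ fun x _ => hiu x)
    ((integrable_finsetSum _ fun w _ => hie w).const_mul z), integral_finsetSum _ fun x _ => hiu x,
    integral_const_mul, integral_finsetSum _ fun w _ => hie w]
  have hee : ∀ w, ∫ g, ee ((S *ᵥ (pin A *ᵥ g)) w) ∂(gau (V n))
      = ((Real.exp (-(2 * Real.pi ^ 2 * vT ν A)) : ℝ) : ℂ) := fun w => int_ee hA w
  rw [Finset.sum_congr rfl fun w _ => hee w, Finset.sum_const, Finset.card_univ, nsmul_eq_mul]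
  have hcard : (Fintype.card (V n) : ℝ) = (n : ℝ) ^ 2 := cardV n
  have hcard' : (Fintype.card (V n) : ℂ) = (((n : ℝ) ^ 2 : ℝ) : ℂ) := by
    rw [← hcard, Complex.ofReal_natCast]
  rw [hcard']
  have e2 : ∀ a u : ℂ, a + z * ((((n : ℝ) ^ 2 : ℝ) : ℂ) * u) - (((n : ℝ) ^ 2 : ℝ) : ℂ) * (z * u)
      = a := fun a u => by ring
  rw [e2]
  refine (norm_sum_le _ _).trans ?_
  refine (Finset.sum_le_sum fun x _ => (norm_int_le (hmu x) (hbu x) A).trans (hd.dev x)).trans ?_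
  rw [Finset.sum_const, Finset.card_univ, nsmul_eq_mul, hcard]

/-- **the typical mean of a state**, lower bound -/
theorem mean_state_ge (hA : Nf A) {Ψ : (V n → ℝ) → ℂ} {ψ : V n → (V n → ℝ) → ℂ}
    (h : H889.Dif Ψ ψ) (hc : Ch Ψ) {z : ℂ} {d : ℝ} (hd : H889.Den A ν z d ψ) :
    (n : ℝ) ^ 2 * (‖z‖ * Real.exp (-(2 * Real.pi ^ 2 * vT ν A)) - d)
      ≤ ‖∫ g, Ψ (pin A *ᵥ g) ∂(gau (V n))‖ := by
  have h1 := mean_state_eq hA h hc hd
  set I := ∫ g, Ψ (pin A *ᵥ g) ∂(gau (V n))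
  set M := (((n : ℝ) ^ 2 : ℝ) : ℂ) * (z * ((Real.exp (-(2 * Real.pi ^ 2 * vT ν A)) : ℝ) : ℂ))
    with hM
  have h2 : ‖M‖ = (n : ℝ) ^ 2 * (‖z‖ * Real.exp (-(2 * Real.pi ^ 2 * vT ν A))) := by
    rw [hM, norm_mul, norm_mul, Complex.norm_real, Complex.norm_real, Real.norm_eq_abs,
      Real.norm_eq_abs, abs_of_pos (Real.exp_pos _), abs_of_nonneg (by positivity)]
  have h3 : ‖M‖ ≤ ‖I‖ + ‖I - M‖ := by
    have : M = I - (I - M) := by ring
    calc ‖M‖ = ‖I - (I - M)‖ := by rw [← this]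
      _ ≤ _ := norm_sub_le _ _
  rw [h2] at h3
  linarith

end state

variable {N l : ℕ} [NeZero N] [NeZero (N / l)] {b t s : ℝ} {A : Matrix (V (N / l)) (V (N / l)) ℝ}

/-- the typical mean is at most the activity at mass `t` -/
theorem norm_TM0_le (hb : 0 ≤ b) (ht : 0 < t) (A : Matrix (V (N / l)) (V (N / l)) ℝ) (q : ℤ) :
    ‖TM0 N l b t A q‖ ≤ om (wT b N) (t • (1 : Matrix (V N) (V N) ℝ)) q := by
  have hw := wm_t (N := N) hb ht
  unfold TM0
  refine (norm_integral_le_of_norm_le_const (C := om (wT b N) (t • (1 : Matrix (V N) (V N) ℝ)) q)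
    (Filter.Eventually.of_forall fun g => norm_Ph_le hw q _)).trans ?_
  simp

/-- the typical mean is close to the mean of the state -/
theorem TM0_state (hb : 0 ≤ b) (ht : 0 < t) {Ψ : (V (N / l) → ℝ) → ℂ}
    {ψ : V (N / l) → (V (N / l) → ℝ) → ℂ} (h : H889.Dif Ψ ψ) {e : ℝ}
    (he : H889.tn2 A (fun F => Ph (wT b N) (t • (1 : Matrix (V N) (V N) ℝ)) 1 (lf N l F) - Ψ F)
      ≤ e) :
    ‖TM0 N l b t A 1 - ∫ g, Ψ (pin A *ᵥ g) ∂(gau (V (N / l)))‖ ≤ e := by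
  obtain ⟨K, hK0, hK⟩ := h.bd'
  have hw := wm_t (N := N) hb ht
  have hmP : Measurable fun F => Ph (wT b N) (t • (1 : Matrix (V N) (V N) ℝ)) 1 (lf N l F) :=
    (meas_Ph hb ht 1).comp H363.measurable_lf
  have hbP : ∀ F, ‖Ph (wT b N) (t • (1 : Matrix (V N) (V N) ℝ)) 1 (lf N l F)‖
      ≤ om (wT b N) (t • (1 : Matrix (V N) (V N) ℝ)) 1 := fun F => norm_Ph_le hw 1 _
  have i1 : Integrable (fun g => Ph (wT b N) (t • (1 : Matrix (V N) (V N) ℝ)) 1
      (lf N l (pin A *ᵥ g))) (gau (V (N / l))) :=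
    Integrable.of_bound (C := om (wT b N) (t • (1 : Matrix (V N) (V N) ℝ)) 1)
      (hmP.comp (continuous_pinv A).measurable).aestronglyMeasurable
      (Filter.Eventually.of_forall fun g => hbP _)
  have i2 : Integrable (fun g => Ψ (pin A *ᵥ g)) (gau (V (N / l))) :=
    Integrable.of_bound (C := K) (h.m.comp (continuous_pinv A).measurable).aestronglyMeasurable
      (Filter.Eventually.of_forall fun g => hK _)
  have h4 : TM0 N l b t A 1 - ∫ g, Ψ (pin A *ᵥ g) ∂(gau (V (N / l)))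
      = ∫ g, (Ph (wT b N) (t • (1 : Matrix (V N) (V N) ℝ)) 1
        (lf N l (pin A *ᵥ g)) - Ψ (pin A *ᵥ g)) ∂(gau (V (N / l))) := by
    rw [integral_sub i1 i2]
    rfl
  rw [h4]
  exact (norm_int_le (hmP.sub h.m) (K := om (wT b N) (t • (1 : Matrix (V N) (V N) ℝ)) 1 + K)
      (fun F => (norm_sub_le _ _).trans (add_le_add (hbP F) (hK F))) A).trans he

/-- **the typical charge mean of the V state**: equality up to the errors -/
theorem TM0_eq (hb : 0 ≤ b) (ht : 0 < t) (hA : Nf A) {ν : ℝ} {Ψ : (V (N / l) → ℝ) → ℂ}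
    {ψ : V (N / l) → (V (N / l) → ℝ) → ℂ} (h : H889.Dif Ψ ψ) (hc : Ch Ψ) {z : ℂ} {d e : ℝ}
    (hd : H889.Den A ν z d ψ)
    (he : H889.tn2 A (fun F => Ph (wT b N) (t • (1 : Matrix (V N) (V N) ℝ)) 1 (lf N l F) - Ψ F)
      ≤ e) :
    ‖TM0 N l b t A 1 - ((((N / l : ℕ) : ℝ) ^ 2 : ℝ) : ℂ) *
      (z * ((Real.exp (-(2 * Real.pi ^ 2 * vT ν A)) : ℝ) : ℂ))‖
      ≤ ((N / l : ℕ) : ℝ) ^ 2 * d + e := by
  have h1 := mean_state_eq hA h hc hd
  have h2 := TM0_state (N := N) (l := l) hb ht h he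
  have h3 := norm_add_le (TM0 N l b t A 1 - ∫ g, Ψ (pin A *ᵥ g) ∂(gau (V (N / l))))
    (∫ g, Ψ (pin A *ᵥ g) ∂(gau (V (N / l))) - ((((N / l : ℕ) : ℝ) ^ 2 : ℝ) : ℂ) *
      (z * ((Real.exp (-(2 * Real.pi ^ 2 * vT ν A)) : ℝ) : ℂ)))
  rw [sub_add_sub_cancel] at h3
  linarith

/-- **lower half of LINK, activity at mass `t`** -/
theorem link_ge_om (hb : 0 ≤ b) (ht : 0 < t) (hA : Nf A) {ν : ℝ} {Ψ : (V (N / l) → ℝ) → ℂ}
    {ψ : V (N / l) → (V (N / l) → ℝ) → ℂ} (h : H889.Dif Ψ ψ) (hc : Ch Ψ) {z : ℂ} {d e : ℝ}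
    (hd : H889.Den A ν z d ψ)
    (he : H889.tn2 A (fun F => Ph (wT b N) (t • (1 : Matrix (V N) (V N) ℝ)) 1 (lf N l F) - Ψ F)
      ≤ e) :
    ((N / l : ℕ) : ℝ) ^ 2 * (‖z‖ * Real.exp (-(2 * Real.pi ^ 2 * vT ν A)) - d)
      ≤ om (wT b N) (t • (1 : Matrix (V N) (V N) ℝ)) 1 + e := by
  have h1 := mean_state_ge hA h hc hd
  have h2 := TM0_state (N := N) (l := l) hb ht h he
  have h3 := norm_TM0_le (N := N) (l := l) hb ht A 1
  have h4 : ‖∫ g, Ψ (pin A *ᵥ g) ∂(gau (V (N / l)))‖ ≤ ‖TM0 N l b t A 1‖ + e := by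
    have e1 : ∫ g, Ψ (pin A *ᵥ g) ∂(gau (V (N / l))) = TM0 N l b t A 1 -
      (TM0 N l b t A 1 - ∫ g, Ψ (pin A *ᵥ g) ∂(gau (V (N / l)))) := by ring
    calc _ = ‖TM0 N l b t A 1 -
      (TM0 N l b t A 1 - ∫ g, Ψ (pin A *ᵥ g) ∂(gau (V (N / l))))‖ := by rw [← e1]
      _ ≤ _ := norm_sub_le _ _
      _ ≤ _ := by linarith
  linarith

/-- **the typical mean below the activity with small mass on the cells** -/
theorem typ_le_om (hb : 0 ≤ b) (hl : l ∣ N) (ht : 0 < t) (hs : 0 < s) (hA : Nf A)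
    (hle : ∀ k, sym A k ≤ t * (l : ℝ) ^ 2) (q : ℤ) {η : ℝ}
    (h1 : ∀ F, 1 ≤ WL N l b t A F)
    (hW : Integrable (fun g => WL N l b t A (pin A *ᵥ g)) (gau (V (N / l))))
    (hη : ∫ g, WL N l b t A (pin A *ᵥ g) ∂(gau (V (N / l))) ≤ 1 + η) :
    ‖TM0 N l b t A q‖ ≤ om (wT b N) (ML N l t s) q * (1 + η)
      + om (wT b N) (t • (1 : Matrix (V N) (V N) ℝ)) q * (η + (1 - cD A s)) := by
  obtain ⟨hi, he⟩ := om_typ hb hl ht hs hA hle q
  have hw := wm_t (N := N) hb ht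
  have hw' := wm_ML (N := N) (l := l) hb hl ht hs
  set P : (V (N / l) → ℝ) → ℂ := fun g =>
    Ph (wT b N) (t • (1 : Matrix (V N) (V N) ℝ)) q (lf N l (pin A *ᵥ g)) with hP
  set W : (V (N / l) → ℝ) → ℝ := fun g => WL N l b t A (pin A *ᵥ g) with hWd
  set D : (V (N / l) → ℝ) → ℝ := fun g => dmp s (pin A *ᵥ g) with hD
  set o := om (wT b N) (t • (1 : Matrix (V N) (V N) ℝ)) q with ho
  have hPo : ∀ g, ‖P g‖ ≤ o := fun g => norm_Ph_le hw q _
  have hPm : Measurable P := by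
    exact (meas_Ph hb ht q).comp (H363.measurable_lf.comp (continuous_pinv A).measurable)
  have hPi : Integrable P (gau (V (N / l))) :=
    Integrable.of_bound (C := o) hPm.aestronglyMeasurable (Filter.Eventually.of_forall hPo)
  have ho0 : 0 ≤ o := (norm_nonneg _).trans (hPo 0)
  have hDi : Integrable D (gau (V (N / l))) := int_dmp A hs
  have hWD : ∀ g, D g ≤ W g * D g := fun g => by
    have := h1 (pin A *ᵥ g)
    have h2 := (dmp_pos s (pin A *ᵥ g)).le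
    exact le_mul_of_one_le_left h2 this
  have hden : cD A s ≤ ∫ g, W g * D g ∂(gau (V (N / l))) := integral_mono hDi hi hWD
  have hdp : 0 < ∫ g, W g * D g ∂(gau (V (N / l))) := (cD_pos A hs).trans_le hden
  have hup : ∫ g, W g * D g ∂(gau (V (N / l))) ≤ 1 + η := by
    refine (integral_mono hi hW fun g => ?_).trans hη
    have h2 : 0 ≤ W g := le_trans zero_le_one (h1 (pin A *ᵥ g))
    exact mul_le_of_le_one_right h2 (dmp_le hs _)
  have hPWi : Integrable (fun g => P g * ((W g * D g : ℝ) : ℂ)) (gau (V (N / l))) := by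
    refine (hi.ofReal (𝕜 := ℂ)).bdd_mul (c := o) hPm.aestronglyMeasurable
      (Filter.Eventually.of_forall hPo)
  have hnum : ‖TM0 N l b t A q‖ ≤ ‖∫ g, P g * ((W g * D g : ℝ) : ℂ) ∂(gau (V (N / l)))‖
      + o * (η + (1 - cD A s)) := by
    have e1 : TM0 N l b t A q = ∫ g, P g * ((W g * D g : ℝ) : ℂ) ∂(gau (V (N / l)))
        - ∫ g, P g * ((W g * D g - 1 : ℝ) : ℂ) ∂(gau (V (N / l))) := by
      have e2 : ∫ g, P g * ((W g * D g - 1 : ℝ) : ℂ) ∂(gau (V (N / l)))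
          = ∫ g, P g * ((W g * D g : ℝ) : ℂ) ∂(gau (V (N / l))) - TM0 N l b t A q := by
        unfold TM0
        rw [← integral_sub hPWi hPi]
        refine integral_congr_ae (Filter.Eventually.of_forall fun g => ?_)
        simp only
        push_cast
        ring
      rw [e2]
      ring
    rw [e1]
    refine (norm_sub_le _ _).trans (add_le_add le_rfl ?_)
    have h3 : ∀ g, ‖P g * ((W g * D g - 1 : ℝ) : ℂ)‖ ≤ o * ((W g - 1) + (1 - D g)) := by
      intro g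
      rw [norm_mul, Complex.norm_real, Real.norm_eq_abs]
      refine mul_le_mul (hPo g) ?_ (abs_nonneg _) ho0
      have hd := dmp_pos s (pin A *ᵥ g)
      have hd1 := dmp_le hs (pin A *ᵥ g)
      have hw1 := h1 (pin A *ᵥ g)
      rw [abs_le]
      constructor <;> simp only [hWd, hD] <;> nlinarith
    have i1 : Integrable (fun g => W g - 1) (gau (V (N / l))) := hW.sub (integrable_const 1)
    have i2 : Integrable (fun g => 1 - D g) (gau (V (N / l))) := (integrable_const 1).sub hDi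
    have i3 : Integrable (fun g => o * ((W g - 1) + (1 - D g))) (gau (V (N / l))) :=
      (i1.add i2).const_mul o
    refine (norm_integral_le_of_norm_le i3 (Filter.Eventually.of_forall h3)).trans ?_
    rw [integral_const_mul]
    refine mul_le_mul_of_nonneg_left ?_ ho0
    have e2 : ∫ g, ((W g - 1) + (1 - D g)) ∂(gau (V (N / l)))
        = (∫ g, W g ∂(gau (V (N / l))) - 1) + (1 - cD A s) := by
      rw [integral_add i1 i2, integral_sub hW (integrable_const 1),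
        integral_sub (integrable_const 1) hDi]
      simp [cD, hD]
    rw [e2]
    linarith
  have h5 : om (wT b N) (ML N l t s) q * ∫ g, W g * D g ∂(gau (V (N / l)))
      = ‖∫ g, P g * ((W g * D g : ℝ) : ℂ) ∂(gau (V (N / l)))‖ := by
    have h6 := congrArg norm he
    rw [norm_div, Complex.norm_real, Complex.norm_real, Real.norm_eq_abs, Real.norm_eq_abs,
      abs_of_pos hdp, abs_of_nonneg (H896.om_nonneg hw' q), eq_div_iff hdp.ne'] at h6
    exact h6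
  have h6 : om (wT b N) (ML N l t s) q * ∫ g, W g * D g ∂(gau (V (N / l)))
      ≤ om (wT b N) (ML N l t s) q * (1 + η) :=
    mul_le_mul_of_nonneg_left hup (H896.om_nonneg hw' q)
  linarith

/-- **the typical mean below the values with small mass on the neutral cell fields**: `Y` is any
number above the values of the models with cell mass `a`, for all small `a` -/
theorem typ_le_Y (hb : 0 ≤ b) (hl : l ∣ N) (ht : 0 < t) (hA : Nf A)
    (hle : ∀ k, sym A k ≤ t * (l : ℝ) ^ 2) (q : ℤ) {η Y a0 : ℝ} (x₀ : V N) (ha0 : 0 < a0)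
    (hη0 : 0 ≤ η) (hY : ∀ a, 0 < a → a ≤ a0 → Ex (nMC N l b t a x₀) 0 (H963.cq q 0) ≤ Y)
    (h1 : ∀ F, 1 ≤ WL N l b t A F)
    (hW : Integrable (fun g => WL N l b t A (pin A *ᵥ g)) (gau (V (N / l))))
    (hη : ∫ g, WL N l b t A (pin A *ᵥ g) ∂(gau (V (N / l))) ≤ 1 + η) :
    ‖TM0 N l b t A q‖ ≤ eq2 (V N) t q * Y * (1 + η)
      + om (wT b N) (t • (1 : Matrix (V N) (V N) ℝ)) q * η := by
  set o := om (wT b N) (t • (1 : Matrix (V N) (V N) ℝ)) q with ho
  have he := eq2_pos (V := V N) t q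
  have hlp := lpos hl
  set s0 : ℝ := (t / a0) / (t * (l : ℝ) ^ 2) with hs0
  have hs0p : 0 < s0 := by positivity
  have key : ∀ s : ℝ, s0 < s → ‖TM0 N l b t A q‖ ≤ eq2 (V N) t q * Y * (1 + η)
      + o * (η + (1 - cD A s)) := by
    intro s hs
    have hsp : 0 < s := hs0p.trans hs
    have h2 := typ_le_om hb hl ht hsp hA hle q h1 hW hη
    rw [om_ML hb hl ht hsp x₀ q] at h2
    refine h2.trans (add_le_add (mul_le_mul_of_nonneg_right
      (mul_le_mul_of_nonneg_left (hY _ (aS_pos ht hsp) ?_) he.le) (by linarith)) le_rfl)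
    unfold aS
    have h3 : t / a0 < s * (t * (l : ℝ) ^ 2) := by
      rwa [hs0, div_lt_iff₀ (by positivity)] at hs
    have h4 : t < (s * (t * (l : ℝ) ^ 2)) * a0 := by rwa [div_lt_iff₀ ha0] at h3
    rw [div_le_iff₀ (by positivity)]
    nlinarith
  have hR : Tendsto (fun s : ℝ => eq2 (V N) t q * Y * (1 + η) + o * (η + (1 - cD A s))) atTop
      (𝓝 (eq2 (V N) t q * Y * (1 + η) + o * (η + (1 - 1)))) :=
    ((((tendsto_cD A).const_sub 1).const_add η).const_mul o).const_add _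
  have h3 := ge_of_tendsto hR ((eventually_gt_atTop s0).mono fun s hs => key s hs)
  rwa [sub_self, add_zero] at h3

/-- **lower half of LINK**: the carried activity is below the values with small mass on the cells -/
theorem link_ge (hb : 0 ≤ b) (hl : l ∣ N) (ht : 0 < t) (hA : Nf A)
    (hle : ∀ k, sym A k ≤ t * (l : ℝ) ^ 2) {η Y a0 : ℝ} (x₀ : V N) (ha0 : 0 < a0)
    (hη0 : 0 ≤ η) (hY : ∀ a, 0 < a → a ≤ a0 → Ex (nMC N l b t a x₀) 0 (H963.cq 1 0) ≤ Y)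
    (h1 : ∀ F, 1 ≤ WL N l b t A F)
    (hW : Integrable (fun g => WL N l b t A (pin A *ᵥ g)) (gau (V (N / l))))
    (hη : ∫ g, WL N l b t A (pin A *ᵥ g) ∂(gau (V (N / l))) ≤ 1 + η)
    {ν : ℝ} {Ψ : (V (N / l) → ℝ) → ℂ} {ψ : V (N / l) → (V (N / l) → ℝ) → ℂ}
    (h : H889.Dif Ψ ψ) (hc : Ch Ψ) {z : ℂ} {d e : ℝ} (hd : H889.Den A ν z d ψ)
    (he : H889.tn2 A (fun F => Ph (wT b N) (t • (1 : Matrix (V N) (V N) ℝ)) 1 (lf N l F) - Ψ F)
      ≤ e) :
    ((N / l : ℕ) : ℝ) ^ 2 * (‖z‖ * Real.exp (-(2 * Real.pi ^ 2 * vT ν A)) - d)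
      ≤ Real.exp (-(2 * Real.pi ^ 2 / (t * (N : ℝ) ^ 2))) * Y * (1 + η)
        + om (wT b N) (t • (1 : Matrix (V N) (V N) ℝ)) 1 * η + e := by
  have h2 := typ_le_Y hb hl ht hA hle 1 x₀ ha0 hη0 hY h1 hW hη
  have h3 : eq2 (V N) t 1 = Real.exp (-(2 * Real.pi ^ 2 / (t * (N : ℝ) ^ 2))) := by
    unfold eq2
    rw [cardV]
    congr 2
    push_cast
    ring
  rw [h3] at h2
  have h4 := mean_state_ge hA h hc hd
  have h5 := TM0_state (N := N) (l := l) hb ht h he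
  have h6 : ‖∫ g, Ψ (pin A *ᵥ g) ∂(gau (V (N / l)))‖ ≤ ‖TM0 N l b t A 1‖ + e := by
    have e1 : ∫ g, Ψ (pin A *ᵥ g) ∂(gau (V (N / l))) = TM0 N l b t A 1 -
      (TM0 N l b t A 1 - ∫ g, Ψ (pin A *ᵥ g) ∂(gau (V (N / l)))) := by ring
    calc _ = ‖TM0 N l b t A 1 -
      (TM0 N l b t A 1 - ∫ g, Ψ (pin A *ᵥ g) ∂(gau (V (N / l))))‖ := by rw [← e1]
      _ ≤ _ := norm_sub_le _ _
      _ ≤ _ := by linarith
  linarith

/-- **lower half of LINK in the letters of the V state** -/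
theorem link_ge_acl (hb : 0 ≤ b) (hl : l ∣ N) (ht : 0 < t) (hA : Nf (acl N l b t t))
    {η Y a0 : ℝ} (x₀ : V N) (ha0 : 0 < a0) (hη0 : 0 ≤ η)
    (hY : ∀ a, 0 < a → a ≤ a0 → Ex (nMC N l b t a x₀) 0 (H963.cq 1 0) ≤ Y)
    (hW : Integrable (fun g => Real.exp (Rcl N l b t t (pin (acl N l b t t) *ᵥ g)))
      (gau (V (N / l))))
    (hη : ∫ g, Real.exp (Rcl N l b t t (pin (acl N l b t t) *ᵥ g)) ∂(gau (V (N / l))) ≤ 1 + η)
    {ν : ℝ} {Ψ : (V (N / l) → ℝ) → ℂ} {ψ : V (N / l) → (V (N / l) → ℝ) → ℂ}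
    (h : H889.Dif Ψ ψ) (hc : Ch Ψ) {z : ℂ} {d e : ℝ} (hd : H889.Den (acl N l b t t) ν z d ψ)
    (he : H889.tn2 (acl N l b t t)
      (fun F => Ph (wT b N) (t • (1 : Matrix (V N) (V N) ℝ)) 1 (lf N l F) - Ψ F) ≤ e) :
    ((N / l : ℕ) : ℝ) ^ 2 * (‖z‖ * Real.exp (-(2 * Real.pi ^ 2 * vT ν (acl N l b t t))) - d)
      ≤ Real.exp (-(2 * Real.pi ^ 2 / (t * (N : ℝ) ^ 2))) * Y * (1 + η)
        + om (wT b N) (t • (1 : Matrix (V N) (V N) ℝ)) 1 * η + e := by
  refine link_ge hb hl ht hA (fun k => ?_) x₀ ha0 hη0 hY (fun F => ?_) ?_ ?_ h hc hd he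
  · exact H363.sym_acl_le hb hl ht le_rfl k
  · rw [WL_acl hb hl ht, ← Real.exp_zero]
    exact Real.exp_le_exp.2 (H363.Rcl_nonneg hb hl ht le_rfl F)
  · simp only [WL_acl hb hl ht]
    exact hW
  · simp only [WL_acl hb hl ht]
    exact hη

end

end Vale.Agent.P159.LNK
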