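import Vale.Agent.P159.H663.Sgq
import Vale.Agent.P159.H363.Vb8

/-!
P159 / H963 (889 row 5007, LEMMA MAXL): the maximum of finitely many Gaussian variables in `L²`,
with the logarithm of their number: `|max|_2 ≤ 2 σ √(log (2 #B))`.
-/

namespace Vale.Agent.P159.H963.MaxL

open MeasureTheory ProbabilityTheory Finset Matrix
open Vale.Agent.P159.H37 (gau qf)
open Vale.Agent.P159.H363
open scoped Real

noncomputable section

variable {I Λ : Type*} [Fintype I]

/-- `Σ_v exp ((M g)_v² / (4 σ²))` -/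
def ssx (B : Finset Λ) (M : Matrix Λ I ℝ) (σ : ℝ) (g : I → ℝ) : ℝ :=
  ∑ v ∈ B, Real.exp ((M v ⬝ᵥ g) ^ 2 / (4 * σ ^ 2))

/-- soft maximum of the Gaussian variables `(M g)_v`, `v ∈ B` -/
def mxl (B : Finset Λ) (M : Matrix Λ I ℝ) (σ : ℝ) (g : I → ℝ) : ℝ :=
  2 * σ * √(Real.log (ssx B M σ g))

lemma mxl_nonneg (B : Finset Λ) (M : Matrix Λ I ℝ) {σ : ℝ} (hσ : 0 ≤ σ) (g : I → ℝ) :
    0 ≤ mxl B M σ g := by
  unfold mxl
  positivity

lemma one_le_ssx {B : Finset Λ} (M : Matrix Λ I ℝ) (σ : ℝ) (g : I → ℝ) {v : Λ} (hv : v ∈ B) :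
    Real.exp ((M v ⬝ᵥ g) ^ 2 / (4 * σ ^ 2)) ≤ ssx B M σ g := by
  unfold ssx
  exact Finset.single_le_sum (f := fun v => Real.exp ((M v ⬝ᵥ g) ^ 2 / (4 * σ ^ 2)))
    (fun v _ => (Real.exp_pos _).le) hv

/-- every variable is below the soft maximum -/
lemma le_mxl {B : Finset Λ} {M : Matrix Λ I ℝ} {σ : ℝ} (hσ0 : 0 ≤ σ)
    (hσ : ∀ v ∈ B, ∑ i, M v i ^ 2 ≤ σ ^ 2) (g : I → ℝ) {v : Λ} (hv : v ∈ B) :
    |M v ⬝ᵥ g| ≤ mxl B M σ g := by
  rcases eq_or_lt_of_le hσ0 with h0 | h0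
  · have h1 := hσ v hv
    rw [← h0] at h1
    have h2 : ∀ i, M v i = 0 := by
      intro i
      have h3 : ∑ i, M v i ^ 2 = 0 := le_antisymm (h1.trans (by norm_num))
        (Finset.sum_nonneg fun _ _ => sq_nonneg _)
      have h4 := (Finset.sum_eq_zero_iff_of_nonneg fun i _ => sq_nonneg (M v i)).1 h3 i
        (Finset.mem_univ i)
      simpa using h4
    have h5 : M v ⬝ᵥ g = 0 := by
      unfold dotProduct
      exact Finset.sum_eq_zero fun i _ => by rw [h2 i, zero_mul]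
    rw [h5, abs_zero]
    exact mxl_nonneg B M hσ0 g
  · have h1 := one_le_ssx M σ g hv
    have h2 : (M v ⬝ᵥ g) ^ 2 / (4 * σ ^ 2) ≤ Real.log (ssx B M σ g) := by
      have := Real.log_le_log (Real.exp_pos _) h1
      rwa [Real.log_exp] at this
    unfold mxl
    rw [show |M v ⬝ᵥ g| = 2 * σ * √((M v ⬝ᵥ g) ^ 2 / (4 * σ ^ 2)) by
      rw [show (M v ⬝ᵥ g) ^ 2 / (4 * σ ^ 2) = (|M v ⬝ᵥ g| / (2 * σ)) ^ 2 by
        rw [div_pow, sq_abs]
        ring, Real.sqrt_sq (by positivity)]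
      field_simp]
    exact mul_le_mul_of_nonneg_left (Real.sqrt_le_sqrt h2) (by positivity)

lemma measurable_ssx (B : Finset Λ) (M : Matrix Λ I ℝ) (σ : ℝ) :
    Measurable (ssx B M σ : (I → ℝ) → ℝ) := by
  unfold ssx
  refine Finset.measurable_fun_sum _ fun v _ => ?_
  exact (((measurable_dot _).pow_const 2).div_const _).exp

lemma measurable_mxl (B : Finset Λ) (M : Matrix Λ I ℝ) (σ : ℝ) :
    Measurable (mxl B M σ : (I → ℝ) → ℝ) := by
  unfold mxl
  exact ((Real.measurable_log.comp (measurable_ssx B M σ)).sqrt).const_mul _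

lemma qf_vv (u : I → ℝ) (r : ℝ) (g : I → ℝ) :
    qf (r • vecMulVec u u) g = r * (u ⬝ᵥ g) ^ 2 := by
  unfold H37.qf dotProduct
  rw [sq, Finset.sum_mul_sum, Finset.mul_sum]
  refine Finset.sum_congr rfl fun i _ => ?_
  rw [Finset.mul_sum]
  refine Finset.sum_congr rfl fun j _ => ?_
  rw [Matrix.smul_apply, vecMulVec_apply, smul_eq_mul]
  ring

/-- one variable -/
lemma one_exp {u : I → ℝ} {σ : ℝ} (hσ0 : 0 < σ) (hσ : ∑ i, u i ^ 2 ≤ σ ^ 2) :
    Integrable (fun g : I → ℝ => Real.exp ((u ⬝ᵥ g) ^ 2 / (4 * σ ^ 2))) (gau I) ∧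
      ∫ g : I → ℝ, Real.exp ((u ⬝ᵥ g) ^ 2 / (4 * σ ^ 2)) ∂(gau I) ≤ 2 := by
  classical
  set r : ℝ := 1 / (2 * σ ^ 2) with hr
  have hr0 : 0 ≤ r := by positivity
  have hT : (r • vecMulVec u u)ᵀ = r • vecMulVec u u := by
    rw [transpose_smul]
    congr 1
    ext i j
    rw [transpose_apply, vecMulVec_apply, vecMulVec_apply, mul_comm]
  have e : ∀ g : I → ℝ, Real.exp (qf (r • vecMulVec u u) g / 2)
      = Real.exp ((u ⬝ᵥ g) ^ 2 / (4 * σ ^ 2)) := fun g => by
    rw [qf_vv, hr]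
    congr 1
    field_simp
    ring
  obtain ⟨h1, h2⟩ := H663.gau_qexp (K := r • vecMulVec u u) hT
    (fun x => by rw [qf_vv]; positivity) (fun x => by
      rw [qf_vv]
      have h3 : (u ⬝ᵥ x) ^ 2 ≤ (∑ i, u i ^ 2) * ∑ i, x i ^ 2 := by
        unfold dotProduct
        exact Finset.sum_mul_sq_le_sq_mul_sq univ u x
      have h4 : 0 ≤ ∑ i, x i ^ 2 := Finset.sum_nonneg fun _ _ => sq_nonneg _
      have h5 : (u ⬝ᵥ x) ^ 2 ≤ σ ^ 2 * ∑ i, x i ^ 2 :=
        h3.trans (mul_le_mul_of_nonneg_right hσ h4)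
      calc r * (u ⬝ᵥ x) ^ 2 ≤ r * (σ ^ 2 * ∑ i, x i ^ 2) := mul_le_mul_of_nonneg_left h5 hr0
        _ = 1 / 2 * ∑ i, x i ^ 2 := by
            rw [hr]
            field_simp)
  simp only [e] at h1 h2
  refine ⟨h1, h2.trans ?_⟩
  have h3 : trace (r • vecMulVec u u) ≤ 1 / 2 := by
    rw [trace_smul, smul_eq_mul]
    have : trace (vecMulVec u u) = ∑ i, u i ^ 2 := by
      unfold trace
      refine Finset.sum_congr rfl fun i _ => ?_
      rw [diag_apply, vecMulVec_apply, sq]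
    rw [this]
    calc r * ∑ i, u i ^ 2 ≤ r * σ ^ 2 := mul_le_mul_of_nonneg_left hσ hr0
      _ = 1 / 2 := by
          rw [hr]
          field_simp
  refine (Real.exp_le_exp.2 h3).trans ?_
  have h4 : Real.exp (1 / 2) ^ 2 ≤ 2 ^ 2 := by
    rw [← Real.exp_nat_mul]
    have := Real.exp_one_lt_d9
    norm_num
    linarith
  exact le_of_sq_le_sq h4 (by norm_num)

/-- the second moment of the soft maximum -/
lemma int_mxl {B : Finset Λ} {M : Matrix Λ I ℝ} {σ : ℝ} (hσ0 : 0 ≤ σ)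
    (hσ : ∀ v ∈ B, ∑ i, M v i ^ 2 ≤ σ ^ 2) :
    MemLp (fun g : I → ℝ => ((mxl B M σ g : ℝ) : ℂ)) 2 (gau I) ∧
      ∫ g : I → ℝ, mxl B M σ g ^ 2 ∂(gau I) ≤ 4 * σ ^ 2 * Real.log (2 * (B.card : ℝ)) := by
  have mm : AEStronglyMeasurable (fun g : I → ℝ => ((mxl B M σ g : ℝ) : ℂ)) (gau I) :=
    (Complex.measurable_ofReal.comp (measurable_mxl B M σ)).aestronglyMeasurable
  have hn : ∀ g, ‖((mxl B M σ g : ℝ) : ℂ)‖ ^ 2 = mxl B M σ g ^ 2 := fun g => by
    rw [Complex.norm_real, Real.norm_eq_abs, sq_abs]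
  rcases eq_or_lt_of_le hσ0 with h0 | h0
  · have e : ∀ g : I → ℝ, mxl B M σ g = 0 := fun g => by
      unfold mxl
      rw [← h0]
      ring
    simp only [e]
    refine ⟨?_, ?_⟩
    · rw [Complex.ofReal_zero]
      exact memLp_const _
    · rw [← h0]
      simp
  rcases B.eq_empty_or_nonempty with hB | hB
  · have e : ∀ g : I → ℝ, mxl B M σ g = 0 := fun g => by
      unfold mxl ssx
      rw [hB, Finset.sum_empty, Real.log_zero, Real.sqrt_zero, mul_zero]
    simp only [e]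
    refine ⟨?_, ?_⟩
    · rw [Complex.ofReal_zero]
      exact memLp_const _
    · rw [hB]
      simp
  · obtain ⟨v0, hv0⟩ := hB
    have hcard : (1 : ℝ) ≤ B.card := by
      exact_mod_cast Finset.card_pos.2 ⟨v0, hv0⟩
    have s1 : ∀ g, 1 ≤ ssx B M σ g := fun g =>
      (Real.one_le_exp (by positivity)).trans (one_le_ssx M σ g hv0)
    have iS : Integrable (ssx B M σ) (gau I) := by
      unfold ssx
      exact integrable_finsetSum _ fun v hv => (one_exp h0 (hσ v hv)).1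
    have bS : ∫ g, ssx B M σ g ∂(gau I) ≤ 2 * (B.card : ℝ) := by
      have e0 : ∫ g, ssx B M σ g ∂(gau I)
          = ∑ v ∈ B, ∫ g : I → ℝ, Real.exp ((M v ⬝ᵥ g) ^ 2 / (4 * σ ^ 2)) ∂(gau I) :=
        integral_finsetSum _ fun v hv => (one_exp h0 (hσ v hv)).1
      rw [e0]
      refine (Finset.sum_le_card_nsmul _ _ 2 fun v hv => (one_exp h0 (hσ v hv)).2).trans
        (le_of_eq ?_)
      rw [nsmul_eq_mul]
      ring
    set m : ℝ := 2 * (B.card : ℝ) with hm
    have hm0 : 0 < m := by positivity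
    have hsq : ∀ g, mxl B M σ g ^ 2 = 4 * σ ^ 2 * Real.log (ssx B M σ g) := fun g => by
      unfold mxl
      rw [mul_pow, Real.sq_sqrt (Real.log_nonneg (s1 g))]
      ring
    have hle : ∀ g, mxl B M σ g ^ 2
        ≤ 4 * σ ^ 2 * (ssx B M σ g / m - 1 + Real.log m) := fun g => by
      rw [hsq g]
      refine mul_le_mul_of_nonneg_left ?_ (by positivity)
      have hs0 : 0 < ssx B M σ g := lt_of_lt_of_le one_pos (s1 g)
      have h3 := Real.log_le_sub_one_of_pos (div_pos hs0 hm0)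
      rw [Real.log_div hs0.ne' hm0.ne'] at h3
      linarith
    have iR : Integrable (fun g => 4 * σ ^ 2 * (ssx B M σ g / m - 1 + Real.log m)) (gau I) :=
      (((iS.div_const m).sub (integrable_const _)).add (integrable_const _)).const_mul _
    have iL : Integrable (fun g => mxl B M σ g ^ 2) (gau I) := by
      refine iR.mono' ((measurable_mxl B M σ).pow_const 2).aestronglyMeasurable
        (Filter.Eventually.of_forall fun g => ?_)
      rw [Real.norm_eq_abs, abs_of_nonneg (sq_nonneg _)]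
      exact hle g
    refine ⟨?_, ?_⟩
    · rw [memLp_two_iff_integrable_sq_norm mm]
      simp only [hn]
      exact iL
    · refine (integral_mono iL iR hle).trans ?_
      have e1 : ∫ g, (ssx B M σ g / m - 1 + Real.log m) ∂(gau I)
          = (∫ g, ssx B M σ g ∂(gau I)) / m - 1 + Real.log m := by
        have i1 : Integrable (fun g => ssx B M σ g / m) (gau I) := iS.div_const m
        have i2 : Integrable (fun g => ssx B M σ g / m - 1) (gau I) := i1.sub (integrable_const _)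
        rw [integral_add i2 (integrable_const _), integral_sub i1 (integrable_const _),
          integral_div]
        simp only [integral_const, probReal_univ, smul_eq_mul, one_mul]
      rw [integral_const_mul, e1]
      refine mul_le_mul_of_nonneg_left ?_ (by positivity)
      have h5 : (∫ g, ssx B M σ g ∂(gau I)) / m ≤ 1 := (div_le_one hm0).2 bS
      linarith

/-- **MAXL: `|max|_2 ≤ 2 σ √(log (2 #B))`** -/
theorem n2_mxl {B : Finset Λ} {M : Matrix Λ I ℝ} {σ : ℝ} (hσ0 : 0 ≤ σ)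
    (hσ : ∀ v ∈ B, ∑ i, M v i ^ 2 ≤ σ ^ 2) :
    n2 (gau I) (fun g : I → ℝ => ((mxl B M σ g : ℝ) : ℂ)) ≤
      2 * σ * √(Real.log (2 * (B.card : ℝ))) := by
  obtain ⟨h1, h2⟩ := int_mxl hσ0 hσ
  rw [n2_le h1 (by positivity)]
  have e : ∀ g : I → ℝ, ‖((mxl B M σ g : ℝ) : ℂ)‖ ^ 2 = mxl B M σ g ^ 2 := fun g => by
    rw [Complex.norm_real, Real.norm_eq_abs, sq_abs]
  simp only [e]
  refine h2.trans ?_
  rw [mul_pow]
  rcases Nat.eq_zero_or_pos B.card with h0 | h0
  · rw [h0]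
    simp
  · have : 0 ≤ Real.log (2 * (B.card : ℝ)) := by
      refine Real.log_nonneg ?_
      have : (1 : ℝ) ≤ B.card := by exact_mod_cast h0
      linarith
    rw [Real.sq_sqrt this]
    refine le_of_eq ?_
    ring

end

end Vale.Agent.P159.H963.MaxL
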