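import Vale.Agent.P159.H114.AE1

/-!
P159, module NEU (helper963), part 1: heights modulo constants.

For a weight `μ` which is invariant under the addition of integer constants (`GrI μ`) the neutral
model is the weight `pin μ x₀` (`h x₀ = 0`); for neutral sources and gradient observables nothing
depends on `x₀`.
-/

namespace Vale.Agent.P159.H963

open Finset Matrix MeasureTheory
open Vale.Agent.P159.TM.H104 (EM Ex Cv K3 Lg li nh Gr)
open Vale.Agent.P159.H37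

set_option linter.unusedSectionVars false

noncomputable section

section defs

variable {V : Type*} [Fintype V]

/-- functions of the gradient: invariant under the addition of integer constants -/
def GrI {α : Type*} (F : (V → ℤ) → α) : Prop := ∀ (h : V → ℤ) (n : ℤ), F (fun x => h x + n) = F h

/-- the weight pinned at `x₀` (heights modulo constants) -/
def pin [DecidableEq V] (μ : (V → ℤ) → ℝ) (x₀ : V) (h : V → ℤ) : ℝ := if h x₀ = 0 then μ h else 0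

/-- sources without total charge -/
def Neu (J : V → ℝ) : Prop := ∑ x, J x = 0

end defs

section basic

variable {V : Type*} [Fintype V]

lemma Neu.zero : Neu (0 : V → ℝ) := by simp [Neu]

lemma Neu.add {J J' : V → ℝ} (h : Neu J) (h' : Neu J') : Neu (J + J') := by
  unfold Neu at *
  simp only [Pi.add_apply, Finset.sum_add_distrib, h, h', add_zero]

lemma Neu.neg {J : V → ℝ} (h : Neu J) : Neu (-J) := by
  unfold Neu at *
  simp only [Pi.neg_apply, Finset.sum_neg_distrib, h, neg_zero]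

lemma Neu.sub {J J' : V → ℝ} (h : Neu J) (h' : Neu J') : Neu (J - J') := by
  rw [sub_eq_add_neg]; exact h.add h'.neg

lemma Neu.smul (c : ℝ) {J : V → ℝ} (h : Neu J) : Neu (c • J) := by
  unfold Neu at *
  simp only [Pi.smul_apply, smul_eq_mul, ← Finset.mul_sum, h, mul_zero]

lemma Neu.mulVec {M : Matrix V V ℝ} (hM : ∀ y, ∑ x, M x y = 0) (F : V → ℝ) : Neu (M *ᵥ F) := by
  unfold Neu
  simp only [Matrix.mulVec, dotProduct]
  rw [Finset.sum_comm]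
  refine Finset.sum_eq_zero fun y _ => ?_
  rw [← Finset.sum_mul, hM, zero_mul]

/-- the source produced by observations of gradients -/
lemma Neu.obs {I : Type*} [Fintype I] {P : Matrix I V ℝ} (hP : ∀ i, ∑ x, P i x = 0) (g : I → ℝ) :
    Neu (Pᵀ *ᵥ g) := by
  unfold Neu
  simp only [Matrix.mulVec, dotProduct, transpose_apply]
  rw [Finset.sum_comm]
  refine Finset.sum_eq_zero fun i _ => ?_
  rw [← Finset.sum_mul, hP, zero_mul]

lemma li_addc (u : V → ℝ) (h : V → ℤ) (n : ℤ) :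
    li u (fun x => h x + n) = li u h + n * ∑ x, u x := by
  unfold li
  rw [Finset.mul_sum, ← Finset.sum_add_distrib]
  refine Finset.sum_congr rfl fun x _ => ?_
  push_cast
  ring

lemma grI_li {u : V → ℝ} (hu : Neu u) : GrI (li u) := by
  intro h n
  rw [li_addc, hu, mul_zero, add_zero]

lemma GrI.mul {F G : (V → ℤ) → ℝ} (hF : GrI F) (hG : GrI G) : GrI fun h => F h * G h := by
  intro h n
  simp only [hF h n, hG h n]

lemma GrI.add {F G : (V → ℤ) → ℝ} (hF : GrI F) (hG : GrI G) : GrI fun h => F h + G h := by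
  intro h n
  simp only [hF h n, hG h n]

lemma GrI.sub {F G : (V → ℤ) → ℝ} (hF : GrI F) (hG : GrI G) : GrI fun h => F h - G h := by
  intro h n
  simp only [hF h n, hG h n]

lemma GrI.const {α : Type*} (c : α) : GrI fun _ : V → ℤ => c := fun _ _ => rfl

lemma GrI.comp {α β : Type*} {F : (V → ℤ) → α} (hF : GrI F) (f : α → β) : GrI fun h => f (F h) := by
  intro h n
  simp only [hF h n]

lemma GrI.pow {F : (V → ℤ) → ℝ} (hF : GrI F) (k : ℕ) : GrI fun h => F h ^ k :=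
  hF.comp fun a => a ^ k

/-- a mass form with vanishing row sums does not see constants -/
lemma qf_addc {M : Matrix V V ℝ} (hM : Mᵀ = M) (h1 : ∀ x, ∑ y, M x y = 0) (u : V → ℝ) (c : ℝ) :
    qf M (fun x => u x + c) = qf M u := by
  have e : (fun x => u x + c) = u + (fun _ => c) := rfl
  have e1 : M *ᵥ (fun _ => c) = 0 := by
    funext x
    simp only [Matrix.mulVec, dotProduct, Pi.zero_apply]
    rw [← Finset.sum_mul, h1, zero_mul]
  rw [e, qf_add_vec hM, bf_eq, e1, dotProduct_zero, qf_eq, qf_eq M (fun _ => c), e1,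
    dotProduct_zero]
  ring

lemma re_addc (h : V → ℤ) (n : ℤ) : re (fun x => h x + n) = fun x => re h x + (n : ℝ) := by
  funext x
  simp [re]

lemma grI_wM {w : (V → ℤ) → ℝ} (hw : GrI w) {M : Matrix V V ℝ} (hM : Mᵀ = M)
    (h1 : ∀ x, ∑ y, M x y = 0) : GrI (wM w M) := by
  intro h n
  unfold wM
  rw [hw h n, re_addc, qf_addc hM h1]

lemma grI_post {I : Type*} [Fintype I] {μ : (V → ℤ) → ℝ} (hμ : GrI μ) {P : Matrix I V ℝ}
    (hP : ∀ i, ∑ x, P i x = 0) : GrI (post μ P) := by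
  intro h n
  unfold post
  have e : P *ᵥ re (fun x => h x + n) = P *ᵥ re h := by
    rw [re_addc]
    funext i
    simp only [Matrix.mulVec, dotProduct, mul_add, Finset.sum_add_distrib]
    rw [← Finset.sum_mul, hP, zero_mul, add_zero]
  rw [hμ h n, e]

end basic

section pinned

variable {V : Type*} [Fintype V] [DecidableEq V]

omit [Fintype V] in
lemma pin_of_zero {μ : (V → ℤ) → ℝ} {x₀ : V} {h : V → ℤ} (h0 : h x₀ = 0) : pin μ x₀ h = μ h := by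
  simp [pin, h0]

omit [Fintype V] in
lemma pin_of_ne {μ : (V → ℤ) → ℝ} {x₀ : V} {h : V → ℤ} (h0 : h x₀ ≠ 0) : pin μ x₀ h = 0 := by
  simp [pin, h0]

omit [Fintype V] in
lemma pin_nonneg {μ : (V → ℤ) → ℝ} (hμ : ∀ h, 0 ≤ μ h) (x₀ : V) (h : V → ℤ) : 0 ≤ pin μ x₀ h := by
  unfold pin
  split_ifs
  · exact hμ h
  · exact le_rfl

omit [Fintype V] in
lemma pin_le {μ : (V → ℤ) → ℝ} (hμ : ∀ h, 0 ≤ μ h) (x₀ : V) (h : V → ℤ) : pin μ x₀ h ≤ μ h := by
  unfold pin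
  split_ifs
  · exact le_rfl
  · exact hμ h

omit [Fintype V] in
lemma ev_pin {μ : (V → ℤ) → ℝ} (hμ : Ev μ) (x₀ : V) : Ev (pin μ x₀) := by
  intro h
  unfold pin
  rw [hμ h]
  by_cases h0 : h x₀ = 0
  · simp [h0]
  · simp [h0]

omit [Fintype V] in
lemma pin_pin (μ : (V → ℤ) → ℝ) (x₀ : V) : pin (pin μ x₀) x₀ = pin μ x₀ := by
  funext h
  unfold pin
  split_ifs <;> rfl

/-- pinning commutes with observations -/
lemma post_pin {I : Type*} [Fintype I] (μ : (V → ℤ) → ℝ) (x₀ : V) (P : Matrix I V ℝ) :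
    post (pin μ x₀) P = pin (post μ P) x₀ := by
  funext h
  unfold post pin
  split_ifs
  · rfl
  · rw [zero_mul]

/-- pinning commutes with mass forms -/
lemma wM_pin (w : (V → ℤ) → ℝ) (x₀ : V) (M : Matrix V V ℝ) :
    wM (pin w x₀) M = pin (wM w M) x₀ := by
  funext h
  unfold wM pin
  split_ifs
  · rfl
  · rw [zero_mul]

/-- the bijection between the fields pinned at `x₀` and the fields pinned at `x₁` -/
def swp (x₀ x₁ : V) : (V → ℤ) ≃ (V → ℤ) where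
  toFun h := fun x => h x + (h x₀ - h x₁)
  invFun h := fun x => h x + (h x₁ - h x₀)
  left_inv h := by
    funext x
    simp only
    ring
  right_inv h := by
    funext x
    simp only
    ring

omit [Fintype V] in
lemma pin_swp {μ : (V → ℤ) → ℝ} (hμ : GrI μ) (x₀ x₁ : V) (h : V → ℤ) :
    pin μ x₁ (swp x₀ x₁ h) = pin μ x₀ h := by
  have e : swp x₀ x₁ h = fun x => h x + (h x₀ - h x₁) := rfl
  unfold pin
  rw [e, hμ h (h x₀ - h x₁)]
  have e1 : h x₁ + (h x₀ - h x₁) = h x₀ := by ring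
  simp only [e1]

/-- **(N2)** nothing depends on the pin: tilted sums -/
theorem T_pin {μ : (V → ℤ) → ℝ} (hμ : GrI μ) {J : V → ℝ} (hJ : Neu J) {F : (V → ℤ) → ℝ}
    (hF : GrI F) (x₀ x₁ : V) : TM.H104.T (pin μ x₀) J F = TM.H104.T (pin μ x₁) J F := by
  unfold TM.H104.T
  rw [← (swp x₁ x₀).tsum_eq]
  refine tsum_congr fun h => ?_
  rw [pin_swp hμ]
  have e : swp x₁ x₀ h = fun x => h x + (h x₁ - h x₀) := rfl
  rw [e, hF h, grI_li hJ h]

theorem Zs_pin {μ : (V → ℤ) → ℝ} (hμ : GrI μ) {J : V → ℝ} (hJ : Neu J) (x₀ x₁ : V) :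
    Zs (pin μ x₀) J = Zs (pin μ x₁) J := T_pin hμ hJ (GrI.const 1) x₀ x₁

theorem Lg_pin {μ : (V → ℤ) → ℝ} (hμ : GrI μ) {J : V → ℝ} (hJ : Neu J) (x₀ x₁ : V) :
    Lg (pin μ x₀) J = Lg (pin μ x₁) J := by
  unfold TM.H104.Lg
  rw [T_pin hμ hJ (GrI.const 1) x₀ x₁]

theorem Ex_pin {μ : (V → ℤ) → ℝ} (hμ : GrI μ) {J : V → ℝ} (hJ : Neu J) {F : (V → ℤ) → ℝ}
    (hF : GrI F) (x₀ x₁ : V) : Ex (pin μ x₀) J F = Ex (pin μ x₁) J F := by
  unfold TM.H104.Ex
  rw [T_pin hμ hJ hF x₀ x₁, T_pin hμ hJ (GrI.const 1) x₀ x₁]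

theorem Cv_pin {μ : (V → ℤ) → ℝ} (hμ : GrI μ) {J : V → ℝ} (hJ : Neu J) {F G : (V → ℤ) → ℝ}
    (hF : GrI F) (hG : GrI G) (x₀ x₁ : V) : Cv (pin μ x₀) J F G = Cv (pin μ x₁) J F G := by
  unfold TM.H104.Cv
  rw [Ex_pin hμ hJ (hF.mul hG) x₀ x₁, Ex_pin hμ hJ hF x₀ x₁, Ex_pin hμ hJ hG x₀ x₁]

theorem K3_pin {μ : (V → ℤ) → ℝ} (hμ : GrI μ) {J : V → ℝ} (hJ : Neu J) {F G H : (V → ℤ) → ℝ}
    (hF : GrI F) (hG : GrI G) (hH : GrI H) (x₀ x₁ : V) :
    K3 (pin μ x₀) J F G H = K3 (pin μ x₁) J F G H := by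
  unfold TM.H104.K3
  rw [Ex_pin hμ hJ ((hF.mul hG).mul hH) x₀ x₁, Ex_pin hμ hJ (hF.mul hG) x₀ x₁,
    Ex_pin hμ hJ (hF.mul hH) x₀ x₁, Ex_pin hμ hJ (hG.mul hH) x₀ x₁, Ex_pin hμ hJ hF x₀ x₁,
    Ex_pin hμ hJ hG x₀ x₁, Ex_pin hμ hJ hH x₀ x₁]

theorem K4_pin {μ : (V → ℤ) → ℝ} (hμ : GrI μ) {a b c d : V → ℝ} (ha : Neu a) (hb : Neu b)
    (hc : Neu c) (hd : Neu d) (x₀ x₁ : V) :
    K4 (pin μ x₀) a b c d = K4 (pin μ x₁) a b c d := by
  have ga := grI_li ha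
  have gb := grI_li hb
  have gc := grI_li hc
  have gd := grI_li hd
  unfold K4
  rw [Ex_pin hμ Neu.zero (((ga.mul gb).mul gc).mul gd) x₀ x₁,
    Ex_pin hμ Neu.zero (ga.mul gb) x₀ x₁, Ex_pin hμ Neu.zero (gc.mul gd) x₀ x₁,
    Ex_pin hμ Neu.zero (ga.mul gc) x₀ x₁, Ex_pin hμ Neu.zero (gb.mul gd) x₀ x₁,
    Ex_pin hμ Neu.zero (ga.mul gd) x₀ x₁, Ex_pin hμ Neu.zero (gb.mul gc) x₀ x₁]

theorem Tq_pin {μ : (V → ℤ) → ℝ} (hμ : GrI μ) {J : V → ℝ} (hJ : Neu J) (x₀ x₁ : V) :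
    Tq (pin μ x₀) J = Tq (pin μ x₁) J := by
  unfold Tq
  rw [Lg_pin hμ (hJ.smul 2) x₀ x₁, Lg_pin hμ hJ x₀ x₁, Lg_pin hμ Neu.zero x₀ x₁]

theorem Ker_pin {μ : (V → ℤ) → ℝ} (hμ : GrI μ) {a c : V → ℝ} (ha : Neu a) (hc : Neu c)
    (x₀ x₁ : V) : Ker (pin μ x₀) a c = Ker (pin μ x₁) a c := by
  unfold Ker
  rw [Zs_pin hμ (ha.add hc) x₀ x₁, Zs_pin hμ (ha.sub hc) x₀ x₁]

/-- the covariance form on neutral vectors does not depend on the pin -/
theorem bf_Cm_pin {μ : (V → ℤ) → ℝ} (hμ : GrI μ) (hE : ∀ x, EM (pin μ x)) {J u v : V → ℝ}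
    (hJ : Neu J) (hu : Neu u) (hv : Neu v) (x₀ x₁ : V) :
    bf (Cm (pin μ x₀) J) u v = bf (Cm (pin μ x₁) J) u v := by
  rw [H114.bf_Cm (hE x₀), H114.bf_Cm (hE x₁), Cv_pin hμ hJ (grI_li hu) (grI_li hv) x₀ x₁]

theorem qf_Cm_pin {μ : (V → ℤ) → ℝ} (hμ : GrI μ) (hE : ∀ x, EM (pin μ x)) {J u : V → ℝ}
    (hJ : Neu J) (hu : Neu u) (x₀ x₁ : V) :
    qf (Cm (pin μ x₀) J) u = qf (Cm (pin μ x₁) J) u := by
  rw [← bf_self, ← bf_self, bf_Cm_pin hμ hE hJ hu hu x₀ x₁]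

theorem Rs_pin {μ : (V → ℤ) → ℝ} (hμ : GrI μ) (hE : ∀ x, EM (pin μ x)) {J : V → ℝ}
    (hJ : Neu J) (x₀ x₁ : V) : Rs (pin μ x₀) J = Rs (pin μ x₁) J := by
  unfold Rs Gm
  rw [Lg_pin hμ hJ x₀ x₁, Lg_pin hμ Neu.zero x₀ x₁, qf_Cm_pin hμ hE Neu.zero hJ x₀ x₁]

/-- the channel of the neutral model does not depend on the pin -/
theorem Ech_pin {I : Type*} [Fintype I] {μ' : (V → ℤ) → ℝ} (hμ : GrI μ') {J₁ : V → ℝ}
    (hJ : Neu J₁) {P : Matrix I V ℝ} (hP : ∀ i, ∑ x, P i x = 0) (Φ : (V → ℝ) → ℝ) (x₀ x₁ : V) :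
    Ech (pin μ' x₀) J₁ P Φ = Ech (pin μ' x₁) J₁ P Φ := by
  have h1 : ∀ g : I → ℝ, Zs (post (pin μ' x₀) P) (J₁ + Pᵀ *ᵥ g) =
      Zs (post (pin μ' x₁) P) (J₁ + Pᵀ *ᵥ g) := by
    intro g
    rw [post_pin, post_pin]
    exact Zs_pin (grI_post hμ hP) (hJ.add (Neu.obs hP g)) x₀ x₁
  unfold Ech
  simp only [h1]

end pinned

/-! ### exponential moments -/

section em

variable {V : Type*} [Fintype V] [DecidableEq V]

/-- a form which is coercive modulo constants gives a pinned weight with all exponential moments -/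
theorem em_pin_wM {w : (V → ℤ) → ℝ} {Wb : ℝ} (hw0 : ∀ h, 0 ≤ w h) (hwb : ∀ h, w h ≤ Wb)
    {x₀ : V} (hp : ∃ h, h x₀ = 0 ∧ 0 < w h) {M : Matrix V V ℝ} {m0 : ℝ} (hm0 : 0 < m0)
    (hM : ∀ u : V → ℝ, m0 * ∑ x, (u x - u x₀) ^ 2 ≤ qf M u) : EM (pin (wM w M) x₀) := by
  obtain ⟨h, hh0, hh⟩ := hp
  have h1 : EM (TM.H104.bw w fun _ : V => m0) := TM.H104.em_bw (fun _ => hm0) hw0 hwb ⟨h, hh⟩
  refine em_of_le h1 (pin_nonneg (fun h => mul_nonneg (hw0 h) (Real.exp_pos _).le) x₀)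
    (fun h => ?_) ⟨h, ?_⟩
  · by_cases h0 : h x₀ = 0
    · rw [pin_of_zero h0]
      unfold wM TM.H104.bw
      refine mul_le_mul_of_nonneg_left ?_ (hw0 h)
      unfold TM.H870.gr
      refine Real.exp_le_exp.2 (neg_le_neg ?_)
      have h2 := hM (re h)
      have h3 : ∑ x, m0 / 2 * ((h x : ℝ) - (0 : V → ℝ) x) ^ 2 =
          m0 * (∑ x, (re h x - re h x₀) ^ 2) / 2 := by
        rw [Finset.mul_sum, Finset.sum_div]
        refine Finset.sum_congr rfl fun x _ => ?_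
        simp only [Pi.zero_apply, sub_zero, re, h0, Int.cast_zero]
        ring
      rw [h3]
      linarith
    · rw [pin_of_ne h0]
      exact h1.nn h
  · rw [pin_of_zero hh0]
    exact mul_pos hh (Real.exp_pos _)

/-- coercivity modulo constants from a spectral gap on neutral vectors -/
lemma gap_pin {M : Matrix V V ℝ} {c : ℝ} (hc : 0 ≤ c)
    (hM : ∀ u : V → ℝ, c * ∑ x, (u x - (∑ y, u y) / Fintype.card V) ^ 2 ≤ qf M u) (x₀ : V)
    (u : V → ℝ) : c / (2 * (1 + Fintype.card V)) * ∑ x, (u x - u x₀) ^ 2 ≤ qf M u := by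
  set a : ℝ := (∑ y, u y) / Fintype.card V with ha
  have hN : (0 : ℝ) ≤ Fintype.card V := Nat.cast_nonneg _
  have h1 : ∑ x, (u x - u x₀) ^ 2 ≤ 2 * ∑ x, (u x - a) ^ 2 + 2 * Fintype.card V * (u x₀ - a) ^ 2 := by
    calc ∑ x, (u x - u x₀) ^ 2 ≤ ∑ x, (2 * (u x - a) ^ 2 + 2 * (u x₀ - a) ^ 2) := by
          refine Finset.sum_le_sum fun x _ => ?_
          nlinarith [sq_nonneg ((u x - a) + (u x₀ - a))]
      _ = 2 * ∑ x, (u x - a) ^ 2 + 2 * Fintype.card V * (u x₀ - a) ^ 2 := by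
          rw [Finset.sum_add_distrib, ← Finset.mul_sum, Finset.sum_const, Finset.card_univ,
            nsmul_eq_mul]
          ring
  have h2 : (u x₀ - a) ^ 2 ≤ ∑ x, (u x - a) ^ 2 :=
    Finset.single_le_sum (f := fun x => (u x - a) ^ 2) (fun x _ => sq_nonneg _) (Finset.mem_univ x₀)
  have h3 : ∑ x, (u x - u x₀) ^ 2 ≤ 2 * (1 + Fintype.card V) * ∑ x, (u x - a) ^ 2 := by
    nlinarith
  refine le_trans ?_ (hM u)
  rw [div_mul_eq_mul_div, div_le_iff₀ (by positivity)]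
  calc c * ∑ x, (u x - u x₀) ^ 2 ≤ c * (2 * (1 + Fintype.card V) * ∑ x, (u x - a) ^ 2) :=
        mul_le_mul_of_nonneg_left h3 hc
    _ = _ := by ring

end em

end

end Vale.Agent.P159.H963
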