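import Vale.Agent.P159.H197.Fi1

/-!
P159 (helper963), START of V, first part: the uses of `CRK`, `LKU` and of NORMAL. The numbers are
powers of `2`.
-/

set_option linter.unusedSectionVars false

namespace Vale.Agent.P159.H963.P1b

open Filter Topology
open Vale.Agent.P159.TM.Spec (V)
open Vale.Agent.P159.H864 (yt yt_nonneg)
open Vale.Agent.P159.H972 (Par lg Good YBn tn TT_base)
open Vale.Agent.P159.H37 (small_rpow lg_lo lg_hi)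
open Vale.Agent.P159.H43 (CHB)
open Vale.Agent.P159.H889 (Cx Cw SV TV VB lam nu Dc QP Mw hS CH2 VSs)
open Vale.Agent.P159.H316

noncomputable section

variable {P : Par} {b C1 c1 A1 κ e : ℝ} {N0 : ℕ}

/-- one use of `CRK` and one of `LKU` -/
theorem crk_lku (hC : CRK P b C1 c1 κ N0) (hL : LKU P b C1 c1 A1 κ N0) {n m s0 n2 s2 : ℕ}
    {y Y y2 Y2 Δ2 E2 : ℝ} {ζ2 : ℂ} (hn : N0 ≤ n) (hx : Cx P b C1 c1 n s0 e y)
    (hw : Cw P n m e e) (hG : Good P b m e) (h1 : m ≤ n + 10 * (n2 + P.kE e - n) + 9)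
    (h2 : n + 8 * (n2 + P.kE e - n) ≤ m) (h3 : n ≤ n2)
    (hY : ∀ r, P.TT n e r → yt (2 ^ r) b (4 * tn n) ≤ Y) (hx2 : Cx P b C1 c1 n2 s2 e y2)
    (hY2 : yt (2 ^ (n2 + P.kE e)) b (4 * tn n2) ≤ Y2) (hY2' : 4 * ((2 : ℝ) ^ P.kE e) ^ 2 * Y2 ≤ 1)
    (hV : V1 P b A1 n2 s2 e (n2 + P.kE e) ζ2 Δ2 E2) :
    y0 P b m e ≤ e ^ (-(κ * P.th)) * (e ^ (-(κ * P.th)) *
        (‖ζ2‖ + 4 ^ P.kE e * Δ2 + E2 + e ^ (10 * P.thp) * Y2)) +
      (2 : ℝ) ^ (-(((m : ℝ) - n) / 20)) * e ^ (-(κ * P.th)) * Y + e ^ (1 / 2 : ℝ) * y := by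
  have a1 := hC n m s0 (n2 + P.kE e) e e y Y hn hx hw hG h1 h2 (by omega) hY
  have a2 := hL n2 s2 (n2 + P.kE e) e y2 Y2 ζ2 Δ2 E2 (hn.trans h3) hx2 (TT_base P n2 e)
    (by omega) hY2 (by rwa [Nat.add_sub_cancel_left]) hV
  have e1 : (4 : ℝ) ^ (n2 + P.kE e) / 4 ^ n2 = 4 ^ P.kE e := by
    rw [pow_add]
    field_simp
  rw [e1] at a2
  have h0 : 0 ≤ e ^ (-(κ * P.th)) := Real.rpow_nonneg hx.e0.le _
  have a3 := mul_le_mul_of_nonneg_left a2 h0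
  unfold y0
  linarith

/-! ### the numbers -/

/-- powers of `2` -/
def T2 (x : ℝ) : ℝ := (2 : ℝ) ^ x

lemma T2_pos (x : ℝ) : 0 < T2 x := Real.rpow_pos_of_pos two_pos _
lemma T2_add (x y : ℝ) : T2 (x + y) = T2 x * T2 y := Real.rpow_add two_pos _ _
lemma T2_mono {x y : ℝ} (h : x ≤ y) : T2 x ≤ T2 y :=
  Real.rpow_le_rpow_of_exponent_le one_le_two h
lemma T2_zero : T2 0 = 1 := Real.rpow_zero _
lemma T2_one : T2 1 = 2 := Real.rpow_one _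
lemma T2_nat (n : ℕ) : T2 n = 2 ^ n := Real.rpow_natCast _ _

/-- the numbers of the first part at the size `e` -/
structure N1 (P : Par) (κ e : ℝ) : Prop where
  e0 : 0 < e
  e1 : e ≤ 1
  k0 : 0 ≤ κ
  kw : 10 ^ 5 * ((κ + 1) * (P.kE e + 1)) ≤ P.w e
  t1 : P.thp ≤ 1 / 100

namespace N1

lemma kw' (h : N1 P κ e) : 10 ^ 5 * (κ * P.kE e + κ + P.kE e + 1) ≤ P.w e := by
  have := h.kw
  nlinarith

lemma kk (h : N1 P κ e) : 0 ≤ κ * P.kE e := mul_nonneg h.k0 (Nat.cast_nonneg _)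

lemma wk (h : N1 P κ e) : 10 ^ 5 * (P.kE e + 1) ≤ P.w e := by
  have h1 := h.kw'
  have h2 := h.kk
  have h3 := h.k0
  have h4 : (10 : ℝ) ^ 5 * (P.kE e + 1) ≤ P.w e := by nlinarith
  exact_mod_cast h4

lemma th_le (h : N1 P κ e) : e ^ (-P.th) ≤ T2 (P.kE e) := by
  rw [T2_nat]
  exact lg_lo h.e0

lemma kth_le (h : N1 P κ e) : e ^ (-(κ * P.th)) ≤ T2 (κ * P.kE e) := by
  have h1 : e ^ (-(κ * P.th)) = (e ^ (-P.th)) ^ κ := by
    rw [← Real.rpow_mul h.e0.le]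
    congr 1
    ring
  rw [h1]
  calc (e ^ (-P.th)) ^ κ ≤ (T2 (P.kE e)) ^ κ :=
        Real.rpow_le_rpow (Real.rpow_nonneg h.e0.le _) h.th_le h.k0
    _ = T2 (κ * P.kE e) := by
        unfold T2
        rw [← Real.rpow_mul two_pos.le, mul_comm]

lemma thp_le (h : N1 P κ e) {c : ℝ} (hc : P.thp ≤ c) : e ^ c ≤ T2 (1 - P.w e) := by
  have h1 : (2 : ℝ) ^ P.w e ≤ 2 * e ^ (-P.thp) := lg_hi P.thp0.le h.e0 h.e1
  have h2 : e ^ c ≤ e ^ P.thp := Real.rpow_le_rpow_of_exponent_ge h.e0 h.e1 hc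
  refine h2.trans ?_
  have h3 : e ^ P.thp * e ^ (-P.thp) = 1 := by
    rw [← Real.rpow_add h.e0]
    simp
  have h4 : T2 (1 - P.w e) = 2 / 2 ^ P.w e := by
    unfold T2
    rw [Real.rpow_sub two_pos, Real.rpow_one, Real.rpow_natCast]
  rw [h4, le_div_iff₀ (by positivity)]
  have h5 : 0 < e ^ P.thp := Real.rpow_pos_of_pos h.e0 _
  nlinarith

lemma thp_ge (h : N1 P κ e) {c : ℝ} (hc : 0 ≤ c) : T2 (c * (P.w e - 1)) ≤ e ^ (-(c * P.thp)) := by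
  have h1 : (2 : ℝ) ^ P.w e ≤ 2 * e ^ (-P.thp) := lg_hi P.thp0.le h.e0 h.e1
  have h2 : T2 (P.w e - 1) ≤ e ^ (-P.thp) := by
    unfold T2
    rw [Real.rpow_sub two_pos, Real.rpow_one, Real.rpow_natCast]
    linarith
  have h3 : T2 (c * (P.w e - 1)) = (T2 (P.w e - 1)) ^ c := by
    unfold T2
    rw [← Real.rpow_mul two_pos.le, mul_comm]
  have h4 : e ^ (-(c * P.thp)) = (e ^ (-P.thp)) ^ c := by
    rw [← Real.rpow_mul h.e0.le]
    congr 1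
    ring
  rw [h3, h4]
  exact Real.rpow_le_rpow (T2_pos _).le h2 hc

end N1

/-- the errors of `crk_lku` relative to `q = y0 (n, e)` -/
lemma err_le (h : N1 P κ e) {q y Y Y2 Δ2 E2 z : ℝ} (hq : 0 ≤ q) (hz : 0 ≤ z)
    (hY : Y ≤ T2 (P.kE e) * q) (hy : y ≤ e ^ (-P.thp) * q) (hY0 : 0 ≤ Y)
    (hY2 : Y2 ≤ e ^ (-P.thp) * q) (hD0 : 0 ≤ Δ2) (hD : Δ2 ≤ T2 (-((P.w e : ℝ) / 42)) * q)
    (hE : E2 ≤ e ^ (1 / 3 : ℝ) * q) {m n : ℕ} (hm : n + P.w e ≤ m) {x : ℝ}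
    (hx : x ≤ e ^ (-(κ * P.th)) * (e ^ (-(κ * P.th)) *
        (z + 4 ^ P.kE e * Δ2 + E2 + e ^ (10 * P.thp) * Y2)) +
      (2 : ℝ) ^ (-(((m : ℝ) - n) / 20)) * e ^ (-(κ * P.th)) * Y + e ^ (1 / 2 : ℝ) * y) :
    x ≤ T2 (2 * (κ * P.kE e)) * z + 5 * (T2 (-((P.w e : ℝ) / 50)) * q) := by
  set k : ℝ := (P.kE e : ℝ) with hk
  set w : ℝ := (P.w e : ℝ) with hw
  have hk0 : 0 ≤ k := Nat.cast_nonneg _
  have kk := h.kk
  have kw := h.kw'
  rw [← hk] at kk kw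
  rw [← hw] at kw
  have kp := h.k0
  set A : ℝ := e ^ (-(κ * P.th)) with hA
  have hA0 : 0 ≤ A := Real.rpow_nonneg h.e0.le _
  have hA1 : A ≤ T2 (κ * k) := h.kth_le
  have hAA : A * A ≤ T2 (2 * (κ * k)) := by
    calc A * A ≤ T2 (κ * k) * T2 (κ * k) := mul_le_mul hA1 hA1 hA0 (T2_pos _).le
      _ = T2 (2 * (κ * k)) := by rw [← T2_add]; congr 1; ring
  have p4 : (4 : ℝ) ^ P.kE e = T2 (2 * k) := by
    rw [show (4 : ℝ) = 2 ^ 2 by norm_num, ← pow_mul, ← T2_nat]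
    congr 1
    push_cast
    rfl
  -- the five errors
  have e1 : A * (A * (4 ^ P.kE e * Δ2)) ≤ T2 (-(w / 50)) * q := by
    calc A * (A * (4 ^ P.kE e * Δ2)) = A * A * (4 ^ P.kE e * Δ2) := by ring
      _ ≤ T2 (2 * (κ * k)) * (T2 (2 * k) * (T2 (-(w / 42)) * q)) := by
          rw [p4]
          have h0 := (T2_pos (2 * k)).le
          exact mul_le_mul hAA (mul_le_mul_of_nonneg_left hD h0) (mul_nonneg h0 hD0)
            (T2_pos _).le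
      _ = T2 (2 * (κ * k) + 2 * k + -(w / 42)) * q := by rw [T2_add, T2_add]; ring
      _ ≤ T2 (-(w / 50)) * q := by
          refine mul_le_mul_of_nonneg_right (T2_mono ?_) hq
          linarith
  have hE' : E2 ≤ T2 (1 - w) * q :=
    hE.trans (mul_le_mul_of_nonneg_right (h.thp_le (by linarith [h.t1])) hq)
  have e2 : A * (A * E2) ≤ T2 (-(w / 50)) * q := by
    calc A * (A * E2) = A * A * E2 := by ring
      _ ≤ A * A * (T2 (1 - w) * q) := mul_le_mul_of_nonneg_left hE' (mul_nonneg hA0 hA0)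
      _ ≤ T2 (2 * (κ * k)) * (T2 (1 - w) * q) :=
          mul_le_mul_of_nonneg_right hAA (mul_nonneg (T2_pos _).le hq)
      _ = T2 (2 * (κ * k) + (1 - w)) * q := by rw [T2_add]; ring
      _ ≤ T2 (-(w / 50)) * q := by
          refine mul_le_mul_of_nonneg_right (T2_mono ?_) hq
          linarith
  have hY2' : e ^ (10 * P.thp) * Y2 ≤ T2 (1 - w) * q := by
    calc e ^ (10 * P.thp) * Y2 ≤ e ^ (10 * P.thp) * (e ^ (-P.thp) * q) :=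
          mul_le_mul_of_nonneg_left hY2 (Real.rpow_nonneg h.e0.le _)
      _ = e ^ (9 * P.thp) * q := by
          rw [← mul_assoc, ← Real.rpow_add h.e0]
          congr 2
          ring
      _ ≤ _ := mul_le_mul_of_nonneg_right (h.thp_le (by linarith [P.thp0])) hq
  have e3 : A * (A * (e ^ (10 * P.thp) * Y2)) ≤ T2 (-(w / 50)) * q := by
    calc A * (A * (e ^ (10 * P.thp) * Y2)) = A * A * (e ^ (10 * P.thp) * Y2) := by ring
      _ ≤ A * A * (T2 (1 - w) * q) := mul_le_mul_of_nonneg_left hY2' (mul_nonneg hA0 hA0)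
      _ ≤ T2 (2 * (κ * k)) * (T2 (1 - w) * q) :=
          mul_le_mul_of_nonneg_right hAA (mul_nonneg (T2_pos _).le hq)
      _ = T2 (2 * (κ * k) + (1 - w)) * q := by rw [T2_add]; ring
      _ ≤ T2 (-(w / 50)) * q := by
          refine mul_le_mul_of_nonneg_right (T2_mono ?_) hq
          linarith
  have hv' : (2 : ℝ) ^ (-(((m : ℝ) - n) / 20)) ≤ T2 (-(w / 20)) := by
    refine T2_mono ?_
    have : (n : ℝ) + w ≤ m := by rw [hw]; exact_mod_cast hm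
    linarith
  have e4 : (2 : ℝ) ^ (-(((m : ℝ) - n) / 20)) * A * Y ≤ T2 (-(w / 50)) * q := by
    calc (2 : ℝ) ^ (-(((m : ℝ) - n) / 20)) * A * Y
        ≤ T2 (-(w / 20)) * T2 (κ * k) * (T2 k * q) :=
          mul_le_mul (mul_le_mul hv' hA1 hA0 (T2_pos _).le) hY hY0
            (mul_nonneg (T2_pos _).le (T2_pos _).le)
      _ = T2 (-(w / 20) + κ * k + k) * q := by rw [T2_add, T2_add]; ring
      _ ≤ T2 (-(w / 50)) * q := by
          refine mul_le_mul_of_nonneg_right (T2_mono ?_) hq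
          linarith
  have e5 : e ^ (1 / 2 : ℝ) * y ≤ T2 (-(w / 50)) * q := by
    calc e ^ (1 / 2 : ℝ) * y ≤ e ^ (1 / 2 : ℝ) * (e ^ (-P.thp) * q) :=
          mul_le_mul_of_nonneg_left hy (Real.rpow_nonneg h.e0.le _)
      _ = e ^ (1 / 2 - P.thp) * q := by
          rw [← mul_assoc, ← Real.rpow_add h.e0]
          congr 2
      _ ≤ T2 (1 - w) * q := mul_le_mul_of_nonneg_right (h.thp_le (by linarith [h.t1])) hq
      _ ≤ T2 (-(w / 50)) * q := by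
          refine mul_le_mul_of_nonneg_right (T2_mono ?_) hq
          linarith
  have e6 : A * (A * z) ≤ T2 (2 * (κ * k)) * z := by
    calc A * (A * z) = A * A * z := by ring
      _ ≤ _ := mul_le_mul_of_nonneg_right hAA hz
  calc x ≤ A * (A * (z + 4 ^ P.kE e * Δ2 + E2 + e ^ (10 * P.thp) * Y2)) +
      (2 : ℝ) ^ (-(((m : ℝ) - n) / 20)) * A * Y + e ^ (1 / 2 : ℝ) * y := hx
    _ = A * (A * z) + A * (A * (4 ^ P.kE e * Δ2)) + A * (A * E2) +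
        A * (A * (e ^ (10 * P.thp) * Y2)) + (2 : ℝ) ^ (-(((m : ℝ) - n) / 20)) * A * Y +
        e ^ (1 / 2 : ℝ) * y := by ring
    _ ≤ _ := by linarith

/-- the number `Y2 = 4 ^ (2 L) e ^ (-th) v` -/
lemma Y2_le (h : N1 P κ e) {L : ℕ} (hL : 20 * L ≤ P.w e + 19) {v : ℝ} (hv : 0 ≤ v) :
    (4 : ℝ) ^ (2 * L) * (e ^ (-P.th) * v) ≤ e ^ (-P.thp) * v := by
  have hk0 : (0 : ℝ) ≤ P.kE e := Nat.cast_nonneg _
  have kk := h.kk
  have kw := h.kw'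
  have kp := h.k0
  have hL' : (20 : ℝ) * L ≤ P.w e + 19 := by exact_mod_cast hL
  have p4 : (4 : ℝ) ^ (2 * L) = T2 (4 * L) := by
    rw [show (4 : ℝ) = 2 ^ 2 by norm_num, ← pow_mul, ← T2_nat]
    congr 1
    push_cast
    ring
  have h1 := h.thp_ge (c := 1) zero_le_one
  rw [one_mul, one_mul] at h1
  calc (4 : ℝ) ^ (2 * L) * (e ^ (-P.th) * v) ≤ T2 (4 * L) * (T2 (P.kE e) * v) := by
        rw [p4]
        exact mul_le_mul_of_nonneg_left (mul_le_mul_of_nonneg_right h.th_le hv) (T2_pos _).le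
    _ = T2 (4 * L + P.kE e) * v := by rw [T2_add]; ring
    _ ≤ T2 (P.w e - 1) * v := mul_le_mul_of_nonneg_right (T2_mono (by linarith)) hv
    _ ≤ _ := mul_le_mul_of_nonneg_right h1 hv

/-- the condition of `LKU` -/
lemma Y2_one (h : N1 P κ e) {v Y2 : ℝ} (hv0 : 0 ≤ v) (hv : v ^ (47 / 25 : ℝ) ≤ e)
    (hY2 : Y2 ≤ e ^ (-P.thp) * v) : 4 * ((2 : ℝ) ^ P.kE e) ^ 2 * Y2 ≤ 1 := by
  have hk0 : (0 : ℝ) ≤ P.kE e := Nat.cast_nonneg _
  have kk := h.kk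
  have kw := h.kw'
  have kp := h.k0
  have h1 : v ≤ e ^ (25 / 47 : ℝ) := by
    calc v = (v ^ (47 / 25 : ℝ)) ^ (25 / 47 : ℝ) := by
          rw [← Real.rpow_mul hv0]
          norm_num
      _ ≤ _ := Real.rpow_le_rpow (Real.rpow_nonneg hv0 _) hv (by norm_num)
  have h2 : Y2 ≤ T2 (1 - P.w e) := by
    calc Y2 ≤ e ^ (-P.thp) * v := hY2
      _ ≤ e ^ (-P.thp) * e ^ (25 / 47 : ℝ) :=
        mul_le_mul_of_nonneg_left h1 (Real.rpow_nonneg h.e0.le _)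
      _ = e ^ (-P.thp + 25 / 47) := by rw [← Real.rpow_add h.e0]
      _ ≤ _ := h.thp_le (by linarith [h.t1])
  have p4 : 4 * ((2 : ℝ) ^ P.kE e) ^ 2 = T2 (2 + 2 * P.kE e) := by
    rw [T2_add, ← pow_mul, ← T2_nat]
    have : T2 2 = 4 := by
      unfold T2
      norm_num
    rw [this]
    congr 2
    push_cast
    ring
  calc 4 * ((2 : ℝ) ^ P.kE e) ^ 2 * Y2 ≤ T2 (2 + 2 * P.kE e) * T2 (1 - P.w e) := by
        rw [p4]
        exact mul_le_mul_of_nonneg_left h2 (T2_pos _).le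
    _ = T2 (2 + 2 * P.kE e + (1 - P.w e)) := by rw [← T2_add]
    _ ≤ T2 0 := T2_mono (by linarith)
    _ = 1 := T2_zero

/-- the crude mass change -/
lemma yt_shift (hb : 0 < b) {n m r : ℕ} (hnm : n ≤ m) :
    yt (2 ^ r) b (4 * tn m) ≤ 4 ^ (m - n) * yt (2 ^ r) b (4 * tn n) := by
  have h1 : 0 < tn m := by unfold tn; positivity
  have e1 : tn n = 4 ^ (m - n) * tn m := by
    obtain ⟨j, rfl⟩ := Nat.exists_eq_add_of_le hnm
    unfold tn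
    rw [Nat.add_sub_cancel_left, pow_add]
    field_simp
  have h2 : tn m ≤ tn n := by
    rw [e1]
    exact le_mul_of_one_le_left h1.le (one_le_pow₀ (by norm_num))
  have h3 := H972.yt_mass (N := 2 ^ r) hb (show 0 < 4 * tn m by positivity)
    (show 4 * tn m ≤ 4 * tn n by linarith)
  have e2 : 4 * tn n / (4 * tn m) = 4 ^ (m - n) := by
    rw [e1]
    field_simp
  rwa [e2] at h3

/-- **`CRK` and `LKU` together**, in the letters of the first part -/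
theorem ck (hN : N1 P κ e) (hb : 0 < b) (hC : CRK P b C1 c1 κ N0) (hL : LKU P b C1 c1 A1 κ N0)
    {n m s s2 L : ℕ} {y y2 Δ2 E2 : ℝ} {ζ2 : ℂ} (hn : N0 ≤ n) (hes : e ≤ P.es)
    (hL1 : P.w e ≤ 20 * L) (hL2 : 20 * L ≤ P.w e + 19) (hm1 : n + P.w e ≤ m)
    (hm2 : m ≤ n + 20 * L) (hG : Good P b m e) (hv : y0 P b n e ^ (47 / 25 : ℝ) ≤ e)
    (hY : ∀ r, n + P.kE e ≤ r → yt (2 ^ r) b (4 * tn n) ≤ e ^ (-P.th) * y0 P b n e)
    (hx : Cx P b C1 c1 n s e y) (hy : y ≤ e ^ (-P.thp) * y0 P b n e)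
    (hx2 : Cx P b C1 c1 (n + 2 * L) s2 e y2)
    (hV : V1 P b A1 (n + 2 * L) s2 e (n + 2 * L + P.kE e) ζ2 Δ2 E2) (hD0 : 0 ≤ Δ2)
    (hD : Δ2 ≤ (2 : ℝ) ^ (-((P.w e : ℝ) / 42)) * y0 P b n e)
    (hE : E2 ≤ e ^ (1 / 3 : ℝ) * y0 P b n e) :
    y0 P b m e ≤ T2 (2 * (κ * P.kE e)) * ‖ζ2‖ +
      5 * (T2 (-((P.w e : ℝ) / 50)) * y0 P b n e) := by
  have wk := hN.wk
  have hv0 : 0 ≤ y0 P b n e := y0_nonneg hb n e
  set q := y0 P b n e with hq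
  have hw : Cw P n m e e := by
    refine ⟨by linarith [hN.e0], ?_, hes, by omega, by omega⟩
    calc e = e ^ (1 : ℝ) := (Real.rpow_one e).symm
      _ ≤ e ^ (19 / 20 : ℝ) := Real.rpow_le_rpow_of_exponent_ge hN.e0 hN.e1 (by norm_num)
  have hY2 : yt (2 ^ (n + 2 * L + P.kE e)) b (4 * tn (n + 2 * L)) ≤
      4 ^ (2 * L) * (e ^ (-P.th) * q) := by
    have h1 := yt_shift (b := b) hb (n := n) (m := n + 2 * L) (r := n + 2 * L + P.kE e)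
      (Nat.le_add_right _ _)
    rw [Nat.add_sub_cancel_left] at h1
    exact h1.trans (mul_le_mul_of_nonneg_left (hY _ (by omega)) (by positivity))
  have hY2q := Y2_le hN hL2 hv0
  have h2 := crk_lku hC hL hn hx hw hG (by omega) (by omega) (Nat.le_add_right _ _)
    (fun r hr => hY r hr.1) hx2 hY2 (Y2_one hN hv0 hv hY2q) hV
  exact err_le hN hv0 (norm_nonneg _) (mul_le_mul_of_nonneg_right hN.th_le hv0) hy
    (mul_nonneg (Real.rpow_nonneg hN.e0.le _) hv0) hY2q hD0 hD hE hm1 h2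

/-- **TOP** -/
theorem top_of (hN : N1 P κ e) (hb : 0 < b) (hC : CRK P b C1 c1 κ N0)
    (hL : LKU P b C1 c1 A1 κ N0) {n s s2 L : ℕ} {y y2 Δ2 E2 z : ℝ} {ζ2 : ℂ} (hn : N0 ≤ n)
    (hes : e ≤ P.es) (hL1 : P.w e ≤ 20 * L) (hL2 : 20 * L ≤ P.w e + 19)
    (hG : Good P b (n + 20 * L) e) (hv : y0 P b n e ^ (47 / 25 : ℝ) ≤ e)
    (hY : ∀ r, n + P.kE e ≤ r → yt (2 ^ r) b (4 * tn n) ≤ e ^ (-P.th) * y0 P b n e)
    (hx : Cx P b C1 c1 n s e y) (hy : y ≤ e ^ (-P.thp) * y0 P b n e)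
    (hx2 : Cx P b C1 c1 (n + 2 * L) s2 e y2)
    (hV : V1 P b A1 (n + 2 * L) s2 e (n + 2 * L + P.kE e) ζ2 Δ2 E2) (hD0 : 0 ≤ Δ2)
    (hD : Δ2 ≤ (2 : ℝ) ^ (-((P.w e : ℝ) / 42)) * y0 P b n e)
    (hE : E2 ≤ e ^ (1 / 3 : ℝ) * y0 P b n e)
    (hlow : (2 : ℝ) ^ (-((P.w e : ℝ) / 130)) * y0 P b n e ≤ ‖ζ2‖)
    (hz : ‖ζ2‖ ≤ e ^ (-(P.thp / 1000)) * z) :
    y0 P b (n + 20 * L) e ≤ e ^ (-(P.thp / 200)) * z := by
  have hk0 : (0 : ℝ) ≤ P.kE e := Nat.cast_nonneg _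
  have kk := hN.kk
  have kw := hN.kw'
  have kp := hN.k0
  have hv0 : 0 ≤ y0 P b n e := y0_nonneg hb n e
  have h1 := ck hN hb hC hL hn hes hL1 hL2 (by omega) le_rfl hG hv hY hx hy hx2 hV hD0 hD hE
  have h2 : y0 P b n e ≤ T2 ((P.w e : ℝ) / 130) * ‖ζ2‖ := by
    have h3 := mul_le_mul_of_nonneg_left hlow (T2_pos ((P.w e : ℝ) / 130)).le
    have e1 : T2 ((P.w e : ℝ) / 130) * ((2 : ℝ) ^ (-((P.w e : ℝ) / 130)) * y0 P b n e) =
        y0 P b n e := by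
      have e2 : T2 ((P.w e : ℝ) / 130) * (2 : ℝ) ^ (-((P.w e : ℝ) / 130)) = 1 := by
        rw [← T2_zero]
        change T2 _ * T2 _ = _
        rw [← T2_add]
        congr 1
        ring
      rw [← mul_assoc, e2, one_mul]
    rwa [e1] at h3
  have h3 : 5 * (T2 (-((P.w e : ℝ) / 50)) * y0 P b n e) ≤ T2 (2 * (κ * P.kE e)) * ‖ζ2‖ := by
    calc 5 * (T2 (-((P.w e : ℝ) / 50)) * y0 P b n e)
        ≤ T2 3 * (T2 (-((P.w e : ℝ) / 50)) * (T2 ((P.w e : ℝ) / 130) * ‖ζ2‖)) := by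
          have h5 : (5 : ℝ) ≤ T2 3 := by
            unfold T2
            norm_num
          exact mul_le_mul h5 (mul_le_mul_of_nonneg_left h2 (T2_pos _).le)
            (mul_nonneg (T2_pos _).le hv0) (T2_pos _).le
      _ = T2 (3 + -((P.w e : ℝ) / 50) + (P.w e : ℝ) / 130) * ‖ζ2‖ := by
          rw [T2_add, T2_add]
          ring
      _ ≤ _ := mul_le_mul_of_nonneg_right (T2_mono (by linarith)) (norm_nonneg _)
  have h4 : y0 P b (n + 20 * L) e ≤ T2 (2 * (κ * P.kE e) + 1) * ‖ζ2‖ := by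
    rw [T2_add, T2_one]
    linarith
  have h5 : T2 (2 * (κ * P.kE e) + 1) ≤ e ^ (-(4 / 1000 * P.thp)) :=
    (T2_mono (by linarith)).trans (hN.thp_ge (c := 4 / 1000) (by norm_num))
  have he : 0 ≤ e ^ (-(4 / 1000 * P.thp)) := Real.rpow_nonneg hN.e0.le _
  calc y0 P b (n + 20 * L) e ≤ T2 (2 * (κ * P.kE e) + 1) * ‖ζ2‖ := h4
    _ ≤ e ^ (-(4 / 1000 * P.thp)) * ‖ζ2‖ := mul_le_mul_of_nonneg_right h5 (norm_nonneg _)
    _ ≤ e ^ (-(4 / 1000 * P.thp)) * (e ^ (-(P.thp / 1000)) * z) :=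
        mul_le_mul_of_nonneg_left hz he
    _ = e ^ (-(P.thp / 200)) * z := by
        rw [← mul_assoc, ← Real.rpow_add hN.e0]
        congr 2
        ring

/-- the numbers in the order of constants -/
theorem n1_ev (b1 b2 pf : ℝ) (Q : ℕ) {κ : ℝ} (hκ : 0 ≤ κ) :
    H801.Ev b1 b2 pf Q fun P _ => ∀ e, 0 < e → e ≤ P.es → N1 P κ e := by
  refine H801.Ev.of ⟨0, fun W _ => ⟨1, one_pos, fun ys _ _ => ⟨0, fun X0 _ => ⟨1, one_pos,
    fun x1 _ _ => ⟨1 / 100, by norm_num, fun thp hthp hthp1 =>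
    ⟨thp / (2 * 10 ^ 5 * (κ + 1)), by positivity, fun th _ hth => ⟨1, fun C0 hC0 =>
    ⟨1 / 4, by norm_num, fun c1 hc hc' =>
    ⟨(2 : ℝ) ^ (-(4 * 10 ^ 5 * (κ + 1) / thp)), by positivity, fun P hP e he hes => ?_⟩⟩⟩⟩⟩⟩⟩⟩⟩
  have e1 : P.th = th := hP.eth
  have e2 : P.thp = thp := hP.ethp
  have he1 : e ≤ 1 := (hes.trans P.es1).trans (by norm_num)
  have hE := hes.trans hP.ees
  set l := Real.logb 2 (1 / e) with hl
  have hl1 : 4 * 10 ^ 5 * (κ + 1) / thp ≤ l := by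
    have h1 := Real.logb_le_logb_of_le (b := 2) one_lt_two he hE
    rw [Real.logb_rpow two_pos (by norm_num)] at h1
    rw [hl, one_div, Real.logb_inv]
    linarith
  have hl2 : 4 * 10 ^ 5 * (κ + 1) ≤ thp * l := by
    rw [div_le_iff₀ hthp] at hl1
    linarith
  have hl0 : 0 ≤ l := le_trans (by positivity) hl1
  have h3 : (κ + 1) * (th * l) ≤ thp * l / (2 * 10 ^ 5) := by
    have h4 : th * (2 * 10 ^ 5 * (κ + 1)) ≤ thp := by
      rwa [le_div_iff₀ (by positivity)] at hth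
    have h5 := mul_le_mul_of_nonneg_right h4 hl0
    rw [le_div_iff₀ (by norm_num)]
    linarith
  refine ⟨he, he1, hκ, ?_, by rw [e2]; exact hthp1⟩
  have hk : (P.kE e : ℝ) ≤ th * l + 1 := by
    unfold Par.kE lg
    rw [e1]
    exact (Nat.ceil_lt_add_one (mul_nonneg (by rw [← e1]; exact P.th0.le) hl0)).le
  have hw : thp * l ≤ P.w e := by
    unfold Par.w lg
    rw [e2]
    exact Nat.le_ceil _
  have h6 : (κ + 1) * (P.kE e + 1) ≤ (κ + 1) * (th * l + 2) :=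
    mul_le_mul_of_nonneg_left (by linarith) (by linarith)
  rw [le_div_iff₀ (by norm_num)] at h3
  linarith

/-- **TOP** in the order of constants -/
theorem top_ev (b1 b2 pf : ℝ) (Q : ℕ) {κ : ℝ} (hκ : 0 ≤ κ) :
    H801.Ev b1 b2 pf Q fun P c1 => ∀ C1 : ℝ, 24 ≤ C1 → ∀ (b A1 : ℝ) (N0 : ℕ), 0 < b → 16 ≤ N0 →
      LKU P b C1 c1 A1 κ N0 → CRK P b C1 c1 κ N0 → COR P b c1 N0 → DX0 P b C1 N0 →
      ∀ (n s s2 L : ℕ) (e y y2 : ℝ) (ζ2 : ℂ) (Δ2 E2 : ℝ), P.w e ≤ 20 * L →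
        20 * L ≤ P.w e + 19 → N0 ≤ n → 0 < e → e ≤ P.es → Good P b (n + 20 * L) e →
        y0 P b n e ^ (47 / 25 : ℝ) ≤ e → Real.log (1 / y0 P b n e) ≤ e ^ (-(c1 / 2)) →
        (∀ r, n + P.kE e ≤ r → yt (2 ^ r) b (4 * tn n) ≤ e ^ (-P.th) * y0 P b n e) →
        Cx P b C1 c1 n s e y → y ≤ e ^ (-P.thp) * y0 P b n e →
        Cx P b C1 c1 (n + 2 * L) s2 e y2 →
        V1 P b A1 (n + 2 * L) s2 e (n + 2 * L + P.kE e) ζ2 Δ2 E2 → 0 ≤ Δ2 → 0 ≤ E2 →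
        Δ2 ≤ (2 : ℝ) ^ (-((P.w e : ℝ) / 42)) * y0 P b n e → E2 ≤ e ^ (1 / 3 : ℝ) * y0 P b n e →
        ‖ζ2‖ ≤ e ^ (-P.thp) * y0 P b n e →
        (2 : ℝ) ^ (-((P.w e : ℝ) / 130)) * y0 P b n e ≤ ‖ζ2‖ →
        ∀ z, ‖ζ2‖ ≤ e ^ (-(P.thp / 1000)) * z →
          y0 P b (n + 20 * L) e ≤ e ^ (-(P.thp / 200)) * z := by
  refine (n1_ev b1 b2 pf Q hκ).mono fun P c1 _ hN C1 _ b A1 N0 hb _ hL hC _ _ n s s2 L e y y2 ζ2
    Δ2 E2 hL1 hL2 hn he hes hG hv _ hY hx hy hx2 hV hD0 _ hD hE _ hlow z hz => ?_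
  exact top_of (hN e he hes) hb hC hL hn hes hL1 hL2 hG hv hY hx hy hx2 hV hD0 hD hE hlow hz

end

end Vale.Agent.P159.H963.P1b
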