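import Vale.Agent.P159.H817.St8

/-!
P159 / module STATG-IDEAL (helper963), part 0: ideal pairs (helper686's shifted windows, board 6357).

`IdG b0 m p q g` : adding `gr g` to the canonical field `bD p q` of a pair makes it equal to the
fixed near field `b0` (a function of the offset) on the box of radius `m` around `p`, and to `-b0`
on the box of radius `m` around `q`.
-/

set_option linter.unusedSectionVars false

namespace Vale.Agent.P159.H963.Sti

open Finset
open Vale.Agent.P159.TM.Spec (V)
open Vale.Agent.P159.H817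

noncomputable section

/-- `g` makes the pair `(p, q)` ideal on the boxes of radius `m` around its cores -/
def IdG {N : ℕ} [NeZero N] (b0 : ℤ → ℤ → Bool → ℝ) (m : ℕ) (p q : V N) (g : V N → ℝ) : Prop :=
  (∀ x b, sz (x - p) ≤ m →
    bD p q (x, b) + gr g (x, b) = b0 (x - p).1.valMinAbs (x - p).2.valMinAbs b) ∧
  (∀ x b, sz (x - q) ≤ m →
    bD p q (x, b) + gr g (x, b) = -b0 (x - q).1.valMinAbs (x - q).2.valMinAbs b)

/-- every pair of the level can be made ideal by a smooth field, with ONE symmetric near field -/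
structure Idl (N l r : ℕ) [NeZero N] (L : ℝ) (b0 : ℤ → ℤ → Bool → ℝ) : Prop where
  rfx : ∀ i j : ℤ, i.natAbs ≤ 21 * l → j.natAbs ≤ 21 * l → b0 i (1 - j) false = -b0 i j false
  rfy : ∀ i j : ℤ, i.natAbs ≤ 21 * l → j.natAbs ≤ 21 * l → b0 i (-j) true = b0 i j true
  ex : ∀ p q : V N, Far r p q → ∃ g : V N → ℝ, IdG b0 (20 * l) p q g ∧ GB (L / r) g ∧
    ∀ x, |g x| ≤ L

end

end Vale.Agent.P159.H963.Sti
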