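import Vale.Agent.P159.H363.Win

/-!
P159 / module VB6 (helper963): TRANSPORT of the charge-one densities under coarse graining of the
cells (item (C) of helper889's scheme), abstract form.

Fine field `F = m2 (C' a) + B g`, coarse field `f' = C' a` (`a`, `g` standard Gaussian vectors).
`ψ'_x = z mainf S x + D_x`, `ψ''_X (C' a) = ∑_x m2(x,X) P ψ'_x`. Then
`ψ''_X = z G mainf Sc X + z E_X + U_X`, `|E_X|₂ ≤ m (2π s1 d3 + e4)`,
`∑_X |U_X|₂² ≤ op² ∑_x |D_x|₂²`.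
-/

namespace Vale.Agent.P159.H963

open MeasureTheory ProbabilityTheory Finset Matrix
open Vale.Agent.P159.H37 (gau)
open Vale.Agent.P159.H363
open scoped Real

noncomputable section

variable {I J Λ Λ' : Type*} [Fintype I] [Fintype J] [Fintype Λ] [Fintype Λ']

/-- hypotheses of the transport -/
structure Tr [DecidableEq Λ'] (cl : Λ → Λ') (S : Matrix Λ Λ ℝ) (Sc : Matrix Λ' Λ' ℝ)
    (m2 r : Matrix Λ Λ' ℝ) (B : Matrix Λ I ℝ) (C' : Matrix Λ' J ℝ) (v : Λ → ℝ)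
    (G m d3 e4 s1 op : ℝ) : Prop where
  sy : ∀ x w, S x w = S w x
  scsy : ∀ X W, Sc X W = Sc W X
  /-- `S m2 = E Sc + r` -/
  dec : ∀ w X, (S * m2) w X = Sc (cl w) X + r w X
  /-- `(S B Bᵀ S)(w,w) = v w` -/
  var : ∀ w, ∑ i, ((S * B) w i) ^ 2 = v w
  fac : ∀ W, ∑ w with cl w = W, Real.exp (-(2 * π ^ 2 * v w)) = G
  card : ∀ W, ((univ.filter fun w => cl w = W).card : ℝ) = m
  rvar : ∀ W, ∑ w with cl w = W, ∑ j, ((r * C') w j) ^ 2 ≤ m * d3 ^ 2
  rsum : ∀ X, ∑ w, |r w X| ≤ m * e4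
  ssum : ∀ X, ∑ W, |Sc W X| ≤ s1
  opn : ∀ c : Λ → ℝ, ∑ X, (∑ x, m2 x X * c x) ^ 2 ≤ op ^ 2 * ∑ x, c x ^ 2
  d30 : 0 ≤ d3

lemma norm_ee_sub_one_le (t : ℝ) : ‖ee t - 1‖ ≤ 2 * π * |t| := by
  have h := Real.norm_exp_I_mul_ofReal_sub_one_le (x := 2 * π * t)
  have e : Complex.exp (Complex.I * ((2 * π * t : ℝ) : ℂ)) = ee t := by
    unfold ee
    rw [mul_comm]
  rw [e, Real.norm_eq_abs, abs_mul, abs_of_pos (by positivity : (0 : ℝ) < 2 * π)] at h
  exact h

/-- the Gaussian operator on the main function, variable factors -/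
lemma Pg_mainf' (F0 : Matrix Λ J ℝ) (A : Matrix Λ I ℝ) (S : Matrix Λ Λ ℝ) {v : Λ → ℝ}
    (hv : ∀ w, ∑ i, ((S * A) w i) ^ 2 = v w) (x : Λ) (a : J → ℝ) :
    Pg F0 A (mainf S x) a = ∑ w, (S x w : ℂ) * (((Real.exp (-(2 * π ^ 2 * v w)) : ℝ) : ℂ) *
      ee (((S * F0) *ᵥ a) w)) := by
  unfold Pg mainf
  rw [integral_finsetSum]
  · refine Finset.sum_congr rfl fun w _ => ?_
    rw [integral_const_mul]
    have e : ∀ g : I → ℝ, ee ((S *ᵥ (F0 *ᵥ a + A *ᵥ g)) w)
        = ee (((S * F0) *ᵥ a) w) * ee ((S * A) w ⬝ᵥ g) := by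
      intro g
      rw [← ee_add, mulVec_add, mulVec_mulVec, mulVec_mulVec, ← mulVec_dot]
      rfl
    simp only [e]
    rw [integral_const_mul, gau_ee, hv w]
    ring
  · intro w _
    refine Integrable.const_mul ?_ _
    refine Integrable.of_bound (C := 1) ?_ (Filter.Eventually.of_forall fun g => (norm_ee _).le)
    apply Measurable.aestronglyMeasurable
    refine measurable_ee.comp ((measurable_pi_apply w).comp ((measurable_mulVec S).comp ?_))
    exact measurable_const.add (measurable_mulVec A)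

variable [DecidableEq Λ'] {cl : Λ → Λ'} {S : Matrix Λ Λ ℝ} {Sc : Matrix Λ' Λ' ℝ}
  {m2 r : Matrix Λ Λ' ℝ} {B : Matrix Λ I ℝ} {C' : Matrix Λ' J ℝ} {v : Λ → ℝ}
  {G m d3 e4 s1 op : ℝ}

/-- the transported density -/
def psC (m2 : Matrix Λ Λ' ℝ) (B : Matrix Λ I ℝ) (C' : Matrix Λ' J ℝ) (phi : Λ → (Λ → ℝ) → ℂ)
    (X : Λ') (a : J → ℝ) : ℂ := ∑ x, (m2 x X : ℂ) * Pg (m2 * C') B (phi x) a

/-- the error of the main function -/
def errC (cl : Λ → Λ') (S : Matrix Λ Λ ℝ) (Sc : Matrix Λ' Λ' ℝ) (m2 r : Matrix Λ Λ' ℝ)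
    (C' : Matrix Λ' J ℝ) (v : Λ → ℝ) (X : Λ') (a : J → ℝ) : ℂ :=
  ∑ w, ((Sc (cl w) X : ℂ) * ((((Real.exp (-(2 * π ^ 2 * v w)) : ℝ) : ℂ) *
      ee ((Sc *ᵥ (C' *ᵥ a)) (cl w))) * (ee (((r * C') *ᵥ a) w) - 1)) +
    (r w X : ℂ) * (((Real.exp (-(2 * π ^ 2 * v w)) : ℝ) : ℂ) * ee (((S * (m2 * C')) *ᵥ a) w)))

lemma Tr.phase (h : Tr cl S Sc m2 r B C' v G m d3 e4 s1 op) (a : J → ℝ) (w : Λ) :
    ee (((S * (m2 * C')) *ᵥ a) w) =
      ee ((Sc *ᵥ (C' *ᵥ a)) (cl w)) * ee (((r * C') *ᵥ a) w) := by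
  rw [← ee_add]
  congr 1
  have e1 : (S * (m2 * C')) *ᵥ a = (S * m2) *ᵥ (C' *ᵥ a) := by
    rw [← Matrix.mul_assoc, mulVec_mulVec]
  have e2 : (r * C') *ᵥ a = r *ᵥ (C' *ᵥ a) := by rw [mulVec_mulVec]
  rw [e1, e2]
  set f := C' *ᵥ a
  have e3 : ((S * m2) *ᵥ f) w = ∑ X, (S * m2) w X * f X := rfl
  have e4 : (Sc *ᵥ f) (cl w) = ∑ X, Sc (cl w) X * f X := rfl
  have e5 : (r *ᵥ f) w = ∑ X, r w X * f X := rfl
  rw [e3, e4, e5, ← Finset.sum_add_distrib]
  refine Finset.sum_congr rfl fun X _ => ?_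
  rw [h.dec]
  ring

/-- **the transported main function** -/
theorem Tr.main_eq (h : Tr cl S Sc m2 r B C' v G m d3 e4 s1 op) (X : Λ') (a : J → ℝ) :
    psC m2 B C' (mainf S) X a =
      (G : ℂ) * mainf Sc X (C' *ᵥ a) + errC cl S Sc m2 r C' v X a := by
  unfold psC
  simp_rw [Pg_mainf' (m2 * C') B S h.var]
  set γ : Λ → ℂ := fun w => ((Real.exp (-(2 * π ^ 2 * v w)) : ℝ) : ℂ) with hγ
  set p : Λ → ℂ := fun w => ee (((S * (m2 * C')) *ᵥ a) w) with hp
  -- exchange the sums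
  have e1 : ∑ x, (m2 x X : ℂ) * ∑ w, (S x w : ℂ) * (γ w * p w) =
      ∑ w, (((S * m2) w X : ℝ) : ℂ) * (γ w * p w) := by
    simp_rw [Finset.mul_sum]
    rw [Finset.sum_comm]
    refine Finset.sum_congr rfl fun w _ => ?_
    rw [Matrix.mul_apply]
    push_cast
    rw [Finset.sum_mul]
    refine Finset.sum_congr rfl fun x _ => ?_
    rw [h.sy x w]
    ring
  have e2 : (G : ℂ) * mainf Sc X (C' *ᵥ a) =
      ∑ w, (Sc (cl w) X : ℂ) * (γ w * ee ((Sc *ᵥ (C' *ᵥ a)) (cl w))) := by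
    have e3 := Finset.sum_fiberwise (s := (univ : Finset Λ)) (g := cl)
      (f := fun w => (Sc (cl w) X : ℂ) * (γ w * ee ((Sc *ᵥ (C' *ᵥ a)) (cl w))))
    rw [← e3]
    unfold mainf
    rw [Finset.mul_sum]
    refine Finset.sum_congr rfl fun W _ => ?_
    have e4 : ∑ w with cl w = W, (Sc (cl w) X : ℂ) * (γ w * ee ((Sc *ᵥ (C' *ᵥ a)) (cl w))) =
        ∑ w with cl w = W, (Sc W X : ℂ) * (γ w * ee ((Sc *ᵥ (C' *ᵥ a)) W)) := by
      refine Finset.sum_congr rfl fun w hw => ?_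
      rw [(Finset.mem_filter.1 hw).2]
    rw [e4, ← Finset.mul_sum, ← Finset.sum_mul]
    have e5 : ∑ w with cl w = W, γ w = (G : ℂ) := by
      rw [← h.fac W]
      push_cast
      refine Finset.sum_congr rfl fun w _ => ?_
      rw [hγ]
      push_cast
      rfl
    rw [e5, h.scsy X W]
    ring
  have e6 : errC cl S Sc m2 r C' v X a = ∑ w, ((Sc (cl w) X : ℂ) * ((γ w *
      ee ((Sc *ᵥ (C' *ᵥ a)) (cl w))) * (ee (((r * C') *ᵥ a) w) - 1)) +
      (r w X : ℂ) * (γ w * p w)) := rfl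
  have e7 : ∀ w, p w = ee ((Sc *ᵥ (C' *ᵥ a)) (cl w)) * ee (((r * C') *ᵥ a) w) := h.phase a
  rw [e1, e2, e6, ← Finset.sum_add_distrib]
  refine Finset.sum_congr rfl fun w _ => ?_
  rw [h.dec, e7 w, Complex.ofReal_add]
  ring

lemma measurable_dotv (u : J → ℝ) : Measurable fun a : J → ℝ => u ⬝ᵥ a := by
  unfold dotProduct
  fun_prop

/-- a phase minus one in `L²` -/
lemma n2_phase_le (u : J → ℝ) :
    n2 (gau J) (fun a => ee (u ⬝ᵥ a) - 1) ≤ 2 * π * √(∑ j, u j ^ 2) := by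
  have hm : Measurable fun a : J → ℝ => ee (u ⬝ᵥ a) - 1 :=
    (measurable_ee.comp (measurable_dotv u)).sub_const 1
  have hb : ∀ a : J → ℝ, ‖ee (u ⬝ᵥ a) - 1‖ ≤ 2 := fun a => by
    refine (norm_sub_le _ _).trans ?_
    rw [norm_ee, norm_one]
    norm_num
  rw [n2_le (memLp_bdd hm.aestronglyMeasurable hb) (by positivity), mul_pow,
    Real.sq_sqrt (Finset.sum_nonneg fun _ _ => sq_nonneg _), ← integral_dot_sq u,
    ← integral_const_mul]
  refine integral_mono_of_nonneg (Filter.Eventually.of_forall fun a => by positivity)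
    ((integrable_dot_sq u).const_mul _) (Filter.Eventually.of_forall fun a => ?_)
  have h1 := norm_ee_sub_one_le (u ⬝ᵥ a)
  have h2 := pow_le_pow_left₀ (norm_nonneg _) h1 2
  simp only
  rw [mul_pow, sq_abs] at h2
  exact h2

/-- **the error of the main function** -/
theorem Tr.err_le (h : Tr cl S Sc m2 r B C' v G m d3 e4 s1 op) (X : Λ') :
    n2 (gau J) (errC cl S Sc m2 r C' v X) ≤ m * (2 * π * s1 * d3 + e4) := by
  have hv : ∀ w, 0 ≤ v w := fun w => by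
    rw [← h.var w]
    exact Finset.sum_nonneg fun _ _ => sq_nonneg _
  have hγ : ∀ w, ‖((Real.exp (-(2 * π ^ 2 * v w)) : ℝ) : ℂ)‖ ≤ 1 := fun w => by
    rw [Complex.norm_real, Real.norm_eq_abs, abs_of_pos (Real.exp_pos _), Real.exp_le_one_iff]
    have := hv w
    have : 0 ≤ 2 * π ^ 2 * v w := by positivity
    linarith
  have hm0 : 0 ≤ m := by
    rw [← h.card X]
    positivity
  -- the two pieces
  set T1 : Λ → (J → ℝ) → ℂ := fun w a => (Sc (cl w) X : ℂ) *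
    ((((Real.exp (-(2 * π ^ 2 * v w)) : ℝ) : ℂ) * ee ((Sc *ᵥ (C' *ᵥ a)) (cl w))) *
      (ee (((r * C') *ᵥ a) w) - 1)) with hT1
  set T2 : Λ → (J → ℝ) → ℂ := fun w a => (r w X : ℂ) *
    (((Real.exp (-(2 * π ^ 2 * v w)) : ℝ) : ℂ) * ee (((S * (m2 * C')) *ᵥ a) w)) with hT2
  have hmu : ∀ (M : Matrix Λ J ℝ) (w : Λ), Measurable fun a : J → ℝ => (M *ᵥ a) w := fun M w =>
    (measurable_pi_apply w).comp (measurable_mulVec M)
  have hmu' : ∀ (W : Λ'), Measurable fun a : J → ℝ => (Sc *ᵥ (C' *ᵥ a)) W := fun W => by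
    have e : (fun a : J → ℝ => (Sc *ᵥ (C' *ᵥ a)) W) = fun a => ((Sc * C') *ᵥ a) W := by
      funext a
      rw [mulVec_mulVec]
    rw [e]
    exact (measurable_pi_apply W).comp (measurable_mulVec _)
  have hm1 : ∀ w, Measurable (T1 w) := fun w =>
    (((measurable_ee.comp (hmu' (cl w))).const_mul _).mul
      ((measurable_ee.comp (hmu _ w)).sub_const 1)).const_mul _
  have hm2 : ∀ w, Measurable (T2 w) := fun w =>
    ((measurable_ee.comp (hmu _ w)).const_mul _).const_mul _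
  have hph : ∀ t : ℝ, ‖ee t - 1‖ ≤ 2 := fun t => by
    refine (norm_sub_le _ _).trans ?_
    rw [norm_ee, norm_one]
    norm_num
  have hn1 : ∀ w a, ‖T1 w a‖ ≤ |Sc (cl w) X| * ‖ee ((r * C') w ⬝ᵥ a) - 1‖ := by
    intro w a
    rw [hT1]
    simp only
    rw [norm_mul, norm_mul, norm_mul, norm_ee, mul_one, Complex.norm_real, Real.norm_eq_abs]
    refine mul_le_mul_of_nonneg_left ?_ (abs_nonneg _)
    have h1 : ((r * C') *ᵥ a) w = (r * C') w ⬝ᵥ a := rfl
    rw [h1]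
    calc _ ≤ 1 * ‖ee ((r * C') w ⬝ᵥ a) - 1‖ :=
          mul_le_mul_of_nonneg_right (hγ w) (norm_nonneg _)
      _ = _ := one_mul _
  have hn2 : ∀ w a, ‖T2 w a‖ ≤ |r w X| := by
    intro w a
    rw [hT2]
    simp only
    rw [norm_mul, norm_mul, norm_ee, mul_one, Complex.norm_real, Real.norm_eq_abs]
    calc _ ≤ |r w X| * 1 := mul_le_mul_of_nonneg_left (hγ w) (abs_nonneg _)
      _ = _ := mul_one _
  have hL1 : ∀ w, MemLp (T1 w) 2 (gau J) := fun w =>
    memLp_bdd (hm1 w).aestronglyMeasurable (C := |Sc (cl w) X| * 2) fun a =>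
      (hn1 w a).trans (mul_le_mul_of_nonneg_left (hph _) (abs_nonneg _))
  have hL2 : ∀ w, MemLp (T2 w) 2 (gau J) := fun w =>
    memLp_bdd (hm2 w).aestronglyMeasurable (hn2 w)
  have e0 : n2 (gau J) (errC cl S Sc m2 r C' v X) =
      n2 (gau J) (fun a => (∑ w, T1 w a) + ∑ w, T2 w a) := by
    refine n2_congr fun a => ?_
    unfold errC
    rw [Finset.sum_add_distrib]
  have b1 : ∀ w, n2 (gau J) (T1 w) ≤ |Sc (cl w) X| * (2 * π * √(∑ j, ((r * C') w j) ^ 2)) := by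
    intro w
    have hmb : Measurable fun a : J → ℝ => ee ((r * C') w ⬝ᵥ a) - 1 :=
      (measurable_ee.comp (measurable_dotv _)).sub_const 1
    have hLb : MemLp (fun a : J → ℝ => ee ((r * C') w ⬝ᵥ a) - 1) 2 (gau J) :=
      memLp_bdd hmb.aestronglyMeasurable fun a => hph _
    have h2 := n2_phase_le ((r * C') w)
    have h3 : n2 (gau J) (T1 w) ≤ |Sc (cl w) X| * n2 (gau J) (fun a => ee ((r * C') w ⬝ᵥ a) - 1) := by
      rw [n2_le (hL1 w) (mul_nonneg (abs_nonneg _) (n2_nonneg _)), mul_pow, n2_sq hLb,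
        ← integral_const_mul]
      refine integral_mono_of_nonneg (Filter.Eventually.of_forall fun a => by positivity)
        ((hLb.integrable_norm_pow (by norm_num)).const_mul _)
        (Filter.Eventually.of_forall fun a => ?_)
      have h4 := pow_le_pow_left₀ (norm_nonneg _) (hn1 w a) 2
      simp only
      rw [mul_pow] at h4
      exact h4
    exact h3.trans (mul_le_mul_of_nonneg_left h2 (abs_nonneg _))
  have b2 : ∀ w, n2 (gau J) (T2 w) ≤ |r w X| := fun w =>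
    n2_le_const (hm2 w).aestronglyMeasurable (abs_nonneg _) (hn2 w)
  -- the sum over a cell
  have b3 : ∀ W, ∑ w with cl w = W, √(∑ j, ((r * C') w j) ^ 2) ≤ m * d3 := by
    intro W
    have h5 := Finset.sum_mul_sq_le_sq_mul_sq (univ.filter fun w => cl w = W) (fun _ => (1 : ℝ))
      fun w => √(∑ j, ((r * C') w j) ^ 2)
    have h6 : ∀ w, (√(∑ j, ((r * C') w j) ^ 2)) ^ 2 = ∑ j, ((r * C') w j) ^ 2 := fun w =>
      Real.sq_sqrt (Finset.sum_nonneg fun _ _ => sq_nonneg _)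
    simp only [one_mul, one_pow, Finset.sum_const, nsmul_eq_mul, mul_one, h6] at h5
    rw [h.card W] at h5
    have h7 := h5.trans (mul_le_mul_of_nonneg_left (h.rvar W) hm0)
    have h8 : m * (m * d3 ^ 2) = (m * d3) ^ 2 := by ring
    rw [h8] at h7
    exact le_of_sq_le_sq h7 (mul_nonneg hm0 h.d30)
  have b4 : ∑ w, |Sc (cl w) X| * (2 * π * √(∑ j, ((r * C') w j) ^ 2)) ≤
      m * (2 * π * s1 * d3) := by
    rw [← Finset.sum_fiberwise (s := (univ : Finset Λ)) (g := cl)]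
    have h9 : ∀ W, ∑ w with cl w = W, |Sc (cl w) X| * (2 * π * √(∑ j, ((r * C') w j) ^ 2)) ≤
        |Sc W X| * (2 * π * (m * d3)) := by
      intro W
      have h10 : ∑ w with cl w = W, |Sc (cl w) X| * (2 * π * √(∑ j, ((r * C') w j) ^ 2)) =
          |Sc W X| * (2 * π * ∑ w with cl w = W, √(∑ j, ((r * C') w j) ^ 2)) := by
        rw [Finset.mul_sum, Finset.mul_sum]
        refine Finset.sum_congr rfl fun w hw => ?_
        rw [(Finset.mem_filter.1 hw).2]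
      rw [h10]
      exact mul_le_mul_of_nonneg_left (mul_le_mul_of_nonneg_left (b3 W) (by positivity))
        (abs_nonneg _)
    refine (Finset.sum_le_sum fun W _ => h9 W).trans ?_
    rw [← Finset.sum_mul]
    have h11 : 0 ≤ 2 * π * (m * d3) := mul_nonneg (by positivity) (mul_nonneg hm0 h.d30)
    refine (mul_le_mul_of_nonneg_right (h.ssum X) h11).trans (le_of_eq ?_)
    ring
  rw [e0]
  refine (n2_add_le (memLp_sum _ fun w _ => hL1 w) (memLp_sum _ fun w _ => hL2 w)).trans ?_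
  have c1 := (n2_sum_le univ fun w _ => hL1 w).trans ((Finset.sum_le_sum fun w _ => b1 w).trans b4)
  have c2 := (n2_sum_le univ fun w _ => hL2 w).trans
    ((Finset.sum_le_sum fun w _ => b2 w).trans (h.rsum X))
  linarith

/-- **transport of the deviations** -/
theorem Tr.dev_le (h : Tr cl S Sc m2 r B C' v G m d3 e4 s1 op) {D : Λ → (Λ → ℝ) → ℂ} {K : ℝ}
    (hDm : ∀ x, Measurable (D x)) (hDK : ∀ x F, ‖D x F‖ ≤ K) :
    ∑ X, n2 (gau J) (psC m2 B C' D X) ^ 2 ≤ op ^ 2 *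
      ∑ x, ∫ a, ∫ g, ‖D x ((m2 * C') *ᵥ a + B *ᵥ g)‖ ^ 2 ∂(gau I) ∂(gau J) := by
  have hPm : ∀ x, Measurable fun a => Pg (m2 * C') B (D x) a := fun x => measurable_Pg (hDm x)
  have hPL : ∀ x, MemLp (fun a => Pg (m2 * C') B (D x) a) 2 (gau J) := fun x =>
    memLp_bdd (hPm x).aestronglyMeasurable fun a => norm_Pg_le (hDK x) a
  have hL : ∀ X, MemLp (psC m2 B C' D X) 2 (gau J) := fun X =>
    memLp_sum _ fun x _ => (hPL x).const_mul _
  have hsq : ∀ z : ℂ, ‖z‖ ^ 2 = z.re ^ 2 + z.im ^ 2 := fun z => by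
    rw [Complex.sq_norm, Complex.normSq_apply]
    ring
  have hpt : ∀ a, ∑ X, ‖psC m2 B C' D X a‖ ^ 2 ≤ op ^ 2 * ∑ x, ‖Pg (m2 * C') B (D x) a‖ ^ 2 := by
    intro a
    have h1 := h.opn fun x => (Pg (m2 * C') B (D x) a).re
    have h2 := h.opn fun x => (Pg (m2 * C') B (D x) a).im
    have e1 : ∀ X, (psC m2 B C' D X a).re = ∑ x, m2 x X * (Pg (m2 * C') B (D x) a).re := by
      intro X
      unfold psC
      rw [Complex.re_sum]
      refine Finset.sum_congr rfl fun x _ => ?_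
      rw [Complex.re_ofReal_mul]
    have e2 : ∀ X, (psC m2 B C' D X a).im = ∑ x, m2 x X * (Pg (m2 * C') B (D x) a).im := by
      intro X
      unfold psC
      rw [Complex.im_sum]
      refine Finset.sum_congr rfl fun x _ => ?_
      rw [Complex.im_ofReal_mul]
    simp_rw [hsq, e1, e2]
    rw [Finset.sum_add_distrib, Finset.sum_add_distrib, mul_add]
    exact add_le_add h1 h2
  simp_rw [n2_sq (hL _)]
  rw [← integral_finsetSum _ fun X _ => (hL X).integrable_norm_pow (by norm_num)]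
  have h3 : ∫ a, ∑ X, ‖psC m2 B C' D X a‖ ^ 2 ∂(gau J) ≤
      ∫ a, op ^ 2 * ∑ x, ‖Pg (m2 * C') B (D x) a‖ ^ 2 ∂(gau J) := by
    refine integral_mono (integrable_finsetSum _ fun X _ =>
      (hL X).integrable_norm_pow (by norm_num)) ((integrable_finsetSum _ fun x _ =>
      (hPL x).integrable_norm_pow (by norm_num)).const_mul _) hpt
  refine h3.trans ?_
  rw [integral_const_mul, integral_finsetSum _ fun x _ =>
    (hPL x).integrable_norm_pow (by norm_num)]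
  refine mul_le_mul_of_nonneg_left ?_ (sq_nonneg _)
  exact Finset.sum_le_sum fun x _ => Pg_contr (hDm x) (hDK x)

omit [DecidableEq Λ'] in
lemma psC_smul_add (X : Λ') {phi D : Λ → (Λ → ℝ) → ℂ} (z : ℂ) {K : ℝ}
    (hphi : ∀ x F, phi x F = z * mainf S x F + D x F) (hDm : ∀ x, Measurable (D x))
    (hDK : ∀ x F, ‖D x F‖ ≤ K) (a : J → ℝ) :
    psC m2 B C' phi X a = z * psC m2 B C' (mainf S) X a + psC m2 B C' D X a := by
  unfold psC
  rw [Finset.mul_sum, ← Finset.sum_add_distrib]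
  refine Finset.sum_congr rfl fun x _ => ?_
  have e1 : Pg (m2 * C') B (phi x) a = z * Pg (m2 * C') B (mainf S x) a +
      Pg (m2 * C') B (D x) a := by
    unfold Pg
    simp only [hphi]
    rw [← integral_const_mul, integral_add]
    · exact (integrable_Pg (measurable_mainf S x) (norm_mainf_le S x) a).const_mul _
    · exact integrable_Pg (hDm x) (hDK x) a
  rw [e1]
  ring

/-- **the decomposition of the transported density** -/
theorem Tr.split (h : Tr cl S Sc m2 r B C' v G m d3 e4 s1 op) {phi D : Λ → (Λ → ℝ) → ℂ} (z : ℂ)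
    {K : ℝ} (hphi : ∀ x F, phi x F = z * mainf S x F + D x F) (hDm : ∀ x, Measurable (D x))
    (hDK : ∀ x F, ‖D x F‖ ≤ K) (X : Λ') (a : J → ℝ) :
    psC m2 B C' phi X a - z * (G : ℂ) * mainf Sc X (C' *ᵥ a) =
      z * errC cl S Sc m2 r C' v X a + psC m2 B C' D X a := by
  rw [psC_smul_add X z hphi hDm hDK, h.main_eq]
  ring

/-- **(C), one cell**, with the `L²` norm of the transported deviation -/
theorem Tr.cell_le (h : Tr cl S Sc m2 r B C' v G m d3 e4 s1 op) {phi D : Λ → (Λ → ℝ) → ℂ} (z : ℂ)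
    {K : ℝ} (hphi : ∀ x F, phi x F = z * mainf S x F + D x F) (hDm : ∀ x, Measurable (D x))
    (hDK : ∀ x F, ‖D x F‖ ≤ K) (X : Λ') :
    n2 (gau J) (fun a => psC m2 B C' phi X a - z * (G : ℂ) * mainf Sc X (C' *ᵥ a)) ≤
      ‖z‖ * (m * (2 * π * s1 * d3 + e4)) + n2 (gau J) (psC m2 B C' D X) := by
  have hPL : ∀ x, MemLp (fun a => Pg (m2 * C') B (D x) a) 2 (gau J) := fun x =>
    memLp_bdd (measurable_Pg (hDm x)).aestronglyMeasurable fun a => norm_Pg_le (hDK x) a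
  have hL : MemLp (psC m2 B C' D X) 2 (gau J) := memLp_sum _ fun x _ => (hPL x).const_mul _
  have hLm : MemLp (psC m2 B C' (mainf S) X) 2 (gau J) := memLp_sum _ fun x _ =>
    (memLp_bdd (measurable_Pg (measurable_mainf S x)).aestronglyMeasurable
      fun a => norm_Pg_le (norm_mainf_le S x) a).const_mul _
  have hLc : MemLp (fun a : J → ℝ => mainf Sc X (C' *ᵥ a)) 2 (gau J) :=
    memLp_bdd ((measurable_mainf Sc X).comp (measurable_mulVec C')).aestronglyMeasurable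
      fun a => norm_mainf_le Sc X _
  have hLe : MemLp (errC cl S Sc m2 r C' v X) 2 (gau J) := by
    have e : errC cl S Sc m2 r C' v X = fun a =>
        psC m2 B C' (mainf S) X a - (G : ℂ) * mainf Sc X (C' *ᵥ a) := by
      funext a
      rw [h.main_eq]
      ring
    rw [e]
    exact hLm.sub (hLc.const_mul _)
  rw [n2_congr (h.split z hphi hDm hDK X)]
  refine (n2_add_le (hLe.const_mul z) hL).trans ?_
  rw [n2_const_mul]
  have := mul_le_mul_of_nonneg_left (h.err_le X) (norm_nonneg z)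
  linarith

/-- **(C)**: all cells have the same deviation -/
theorem Tr.cell_le' [Nonempty Λ'] (h : Tr cl S Sc m2 r B C' v G m d3 e4 s1 op)
    {phi D : Λ → (Λ → ℝ) → ℂ} (z : ℂ)
    {K : ℝ} (hphi : ∀ x F, phi x F = z * mainf S x F + D x F) (hDm : ∀ x, Measurable (D x))
    (hDK : ∀ x F, ‖D x F‖ ≤ K)
    (hsame : ∀ X Y, n2 (gau J) (psC m2 B C' D X) = n2 (gau J) (psC m2 B C' D Y))
    {δ : ℝ} (hδ0 : 0 ≤ δ) (hop : 0 ≤ op)
    (hδ : ∀ x, ∫ a, ∫ g, ‖D x ((m2 * C') *ᵥ a + B *ᵥ g)‖ ^ 2 ∂(gau I) ∂(gau J) ≤ δ ^ 2) (X : Λ') :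
    n2 (gau J) (fun a => psC m2 B C' phi X a - z * (G : ℂ) * mainf Sc X (C' *ᵥ a)) ≤
      ‖z‖ * (m * (2 * π * s1 * d3 + e4)) + op * √m * δ := by
  refine (h.cell_le z hphi hDm hDK X).trans ?_
  have h1 := h.dev_le hDm hDK
  have hm0 : 0 ≤ m := by
    rw [← h.card X]
    positivity
  have hcard : (Fintype.card Λ : ℝ) = m * Fintype.card Λ' := by
    have e1 := Finset.sum_fiberwise (s := (univ : Finset Λ)) (g := cl) (f := fun _ => (1 : ℝ))
    simp only [Finset.sum_const, nsmul_eq_mul, mul_one, Finset.card_univ] at e1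
    rw [← e1, Finset.sum_congr rfl fun W _ => h.card W, Finset.sum_const, Finset.card_univ,
      nsmul_eq_mul, mul_comm]
  have hn : (0 : ℝ) < Fintype.card Λ' := Nat.cast_pos.2 Fintype.card_pos
  have h2 : (Fintype.card Λ' : ℝ) * n2 (gau J) (psC m2 B C' D X) ^ 2 ≤
      op ^ 2 * (m * Fintype.card Λ' * δ ^ 2) := by
    have e2 : ∑ Y, n2 (gau J) (psC m2 B C' D Y) ^ 2 =
        (Fintype.card Λ' : ℝ) * n2 (gau J) (psC m2 B C' D X) ^ 2 := by
      rw [Finset.sum_congr rfl fun Y _ => by rw [hsame Y X], Finset.sum_const, Finset.card_univ,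
        nsmul_eq_mul]
    rw [← e2]
    refine h1.trans (mul_le_mul_of_nonneg_left ?_ (sq_nonneg _))
    refine (Finset.sum_le_sum fun x _ => hδ x).trans (le_of_eq ?_)
    rw [Finset.sum_const, Finset.card_univ, nsmul_eq_mul, hcard]
  have h3 : n2 (gau J) (psC m2 B C' D X) ^ 2 ≤ (op * √m * δ) ^ 2 := by
    rw [mul_pow, mul_pow, Real.sq_sqrt hm0]
    have h4 : (Fintype.card Λ' : ℝ) * n2 (gau J) (psC m2 B C' D X) ^ 2 ≤
        (Fintype.card Λ' : ℝ) * (op ^ 2 * m * δ ^ 2) := by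
      refine h2.trans (le_of_eq ?_)
      ring
    exact le_of_mul_le_mul_left h4 hn
  have h5 := le_of_sq_le_sq h3 (by positivity)
  linarith

end

end Vale.Agent.P159.H963
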