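import Vale.Agent.P159.H764.ConvG

/-!
P159 / module VB1 (helper963), part a: covariance of a bounded complex observable with the linear
functionals of a Gaussian field under a bounded positive weight; Bessel inequality

  `Σ_i |Cov_W(X, z_i)|² ≤ λ E_W |X|²`   if   `Var_W <c, z> ≤ λ |c|²` for all `c`,

and the derivative of the weighted mean under the translations of the field.
-/

namespace Vale.Agent.P159.H963

open MeasureTheory ProbabilityTheory Finset
open Vale.Agent.P159.H37 (gau gau_shift gau_map_sub)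
open Vale.Agent.P159.H764 (mnW vrW lz BP integrable_abs_exp measurable_lz)

noncomputable section

variable {I : Type*} [Fintype I]

/-- translation of the standard Gaussian measure, vector valued -/
lemma gau_shiftE {E : Type*} [NormedAddCommGroup E] [NormedSpace ℝ E]
    (a : I → ℝ) (f : (I → ℝ) → E) :
    ∫ g, f (g + a) ∂(gau I)
      = ∫ g, Real.exp ((∑ i, a i * g i) - (∑ i, a i ^ 2) / 2) • f g ∂(gau I) := by
  have hemb : MeasurableEmbedding (fun J : I → ℝ => J - -a) :=
    (MeasurableEquiv.subRight (-a)).measurableEmbedding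
  have h0 : (fun g : I → ℝ => f (g + a)) = fun g => f (g - -a) := by
    funext g; rw [sub_neg_eq_add]
  rw [h0, ← hemb.integral_map (μ := gau I) f, gau_map_sub,
    integral_withDensity_eq_integral_toReal_smul (by fun_prop)
      (Filter.Eventually.of_forall fun x => ENNReal.ofReal_lt_top)]
  apply integral_congr_ae
  refine Filter.Eventually.of_forall fun J => ?_
  simp only
  rw [ENNReal.toReal_ofReal (Real.exp_pos _).le]
  congr 3 <;> simp [Finset.sum_neg_distrib]

/-- bounded measurable complex observable -/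
structure BX (X : (I → ℝ) → ℂ) : Prop where
  meas : AEStronglyMeasurable X (gau I)
  bdd : ∃ B : ℝ, ∀ z, ‖X z‖ ≤ B

/-- mean of `X` under the weight `W` -/
def mC (W : (I → ℝ) → ℝ) (X : (I → ℝ) → ℂ) : ℂ :=
  (∫ z, X z * (W z : ℂ) ∂(gau I)) / ((∫ z, W z ∂(gau I) : ℝ) : ℂ)

/-- covariance of `X` and `<c, z>` under the weight `W` -/
def cC (W : (I → ℝ) → ℝ) (X : (I → ℝ) → ℂ) (c : I → ℝ) : ℂ :=
  mC W (fun z => X z * (lz c z : ℂ)) - mC W X * (mnW (gau I) W (lz c) : ℂ)

variable {W : (I → ℝ) → ℝ} {X : (I → ℝ) → ℂ}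

lemma bp_int (hW : BP W) (g : I → ℝ) (n : ℕ) (θ : ℝ) :
    Integrable (fun z : I → ℝ => lz g z ^ n * Real.exp (θ * lz g z) * W z) (gau I) := by
  have h := hW.int 1 0 g n θ
  simpa using h

lemma bp_int0 (hW : BP W) : Integrable W (gau I) := by
  have h := hW.int0 1 0
  simpa using h

lemma bp_int1 (hW : BP W) (g : I → ℝ) : Integrable (fun z : I → ℝ => lz g z * W z) (gau I) := by
  have h := hW.int1 1 0 g
  simpa using h

lemma bp_int2 (hW : BP W) (g : I → ℝ) :
    Integrable (fun z : I → ℝ => lz g z ^ 2 * W z) (gau I) := by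
  have h := hW.int2 1 0 g
  simpa using h

lemma bp_pos (hW : BP W) : 0 < ∫ z, W z ∂(gau I) := by
  have h := hW.PA_pos 1 0
  unfold H764.PA at h
  simpa using h

lemma BX.int (hX : BX X) {f : (I → ℝ) → ℝ} (hf : Integrable f (gau I)) :
    Integrable (fun z => X z * (f z : ℂ)) (gau I) := by
  obtain ⟨B, hB⟩ := hX.bdd
  have h := hf.ofReal.bdd_mul (c := B) hX.meas (Filter.Eventually.of_forall hB)
  exact h

lemma mC_real (W Y : (I → ℝ) → ℝ) : mC W (fun z => (Y z : ℂ)) = (mnW (gau I) W Y : ℂ) := by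
  unfold mC mnW
  have : ∫ z, (Y z : ℂ) * (W z : ℂ) ∂(gau I) = ((∫ z, Y z * W z ∂(gau I) : ℝ) : ℂ) := by
    rw [← integral_complex_ofReal]
    refine integral_congr_ae (Filter.Eventually.of_forall fun z => ?_)
    simp only
    push_cast
    ring
  rw [this]
  push_cast
  ring

lemma norm_mC_le (hW : BP W) {f : (I → ℝ) → ℝ} (hf : Integrable (fun z => f z * W z) (gau I))
    (h : ∀ z, ‖X z‖ ≤ f z) : ‖mC W X‖ ≤ mnW (gau I) W f := by
  unfold mC mnW
  have hp := bp_pos hW
  rw [norm_div, Complex.norm_real, Real.norm_eq_abs, abs_of_pos hp]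
  refine div_le_div_of_nonneg_right ?_ hp.le
  refine norm_integral_le_of_norm_le hf (Filter.Eventually.of_forall fun z => ?_)
  rw [norm_mul, Complex.norm_real, Real.norm_eq_abs, abs_of_pos (hW.pos z)]
  exact mul_le_mul_of_nonneg_right (h z) (hW.pos z).le

/-- the covariance as the mean of `X` times the centred functional -/
lemma cC_eq (hW : BP W) (hX : BX X) (c : I → ℝ) :
    cC W X c = mC W (fun z => X z * ((lz c z - mnW (gau I) W (lz c) : ℝ) : ℂ)) := by
  unfold cC mC
  set m := mnW (gau I) W (lz c) with hm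
  have h1 : ∫ z, X z * ((lz c z - m : ℝ) : ℂ) * (W z : ℂ) ∂(gau I) =
      (∫ z, X z * (lz c z : ℂ) * (W z : ℂ) ∂(gau I)) - (m : ℂ) * ∫ z, X z * (W z : ℂ) ∂(gau I) := by
    rw [← integral_const_mul, ← integral_sub]
    · refine integral_congr_ae (Filter.Eventually.of_forall fun z => ?_)
      simp only
      push_cast
      ring
    · refine (hX.int (bp_int1 hW c)).congr (Filter.Eventually.of_forall fun z => ?_)
      simp only
      push_cast
      ring
    · exact (hX.int (bp_int0 hW)).const_mul _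
  rw [h1]
  ring

lemma lz_sum (a : I → ℝ) [DecidableEq I] (z : I → ℝ) :
    lz a z = ∑ i, a i * lz (Pi.single i (1 : ℝ)) z := by
  unfold lz
  refine Finset.sum_congr rfl fun i _ => ?_
  congr 1
  rw [Finset.sum_eq_single i]
  · simp
  · intro j _ hj
    simp [hj]
  · simp

lemma mnW_lz (hW : BP W) [DecidableEq I] (a : I → ℝ) :
    mnW (gau I) W (lz a) = ∑ i, a i * mnW (gau I) W (lz (Pi.single i (1 : ℝ))) := by
  unfold mnW
  have : ∫ z, lz a z * W z ∂(gau I) =
      ∑ i, a i * ∫ z, lz (Pi.single i (1 : ℝ)) z * W z ∂(gau I) := by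
    simp_rw [← integral_const_mul]
    rw [← integral_finsetSum]
    · refine integral_congr_ae (Filter.Eventually.of_forall fun z => ?_)
      simp only
      rw [lz_sum a z, Finset.sum_mul]
      refine Finset.sum_congr rfl fun i _ => ?_
      ring
    · intro i _
      exact (bp_int1 hW _).const_mul _
  rw [this, Finset.sum_div]
  refine Finset.sum_congr rfl fun i _ => ?_
  ring

/-- **Bessel**: the covariances with the coordinates of the field -/
theorem bessel [DecidableEq I] (hW : BP W) (hX : BX X) {lam : ℝ} (hl : 0 < lam)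
    (hv : ∀ c : I → ℝ, vrW (gau I) W (lz c) ≤ lam * ∑ i, c i ^ 2) :
    ∑ i, ‖cC W X (Pi.single i 1)‖ ^ 2 ≤ lam * mnW (gau I) W (fun z => ‖X z‖ ^ 2) := by
  set a : I → ℂ := fun i => (starRingEnd ℂ) (cC W X (Pi.single i 1)) with ha
  set ar : I → ℝ := fun i => (a i).re with har
  set ai : I → ℝ := fun i => (a i).im with hai
  set m : (I → ℝ) → ℝ := fun c => mnW (gau I) W (lz c) with hm
  set Y : (I → ℝ) → ℂ := fun z => ((lz ar z - m ar : ℝ) : ℂ) +
    ((lz ai z - m ai : ℝ) : ℂ) * Complex.I with hY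
  set S := ∑ i, ‖cC W X (Pi.single i 1)‖ ^ 2 with hS
  obtain ⟨B, hB⟩ := hX.bdd
  have hp := bp_pos hW
  have hYs : ∀ z, Y z = ∑ i, a i * ((lz (Pi.single i 1) z - m (Pi.single i 1) : ℝ) : ℂ) := by
    intro z
    rw [hY]
    simp only
    rw [lz_sum ar, lz_sum ai]
    have e1 : m ar = ∑ i, ar i * m (Pi.single i 1) := mnW_lz hW ar
    have e2 : m ai = ∑ i, ai i * m (Pi.single i 1) := mnW_lz hW ai
    rw [e1, e2, ← Finset.sum_sub_distrib, ← Finset.sum_sub_distrib]
    push_cast
    rw [Finset.sum_mul, ← Finset.sum_add_distrib]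
    refine Finset.sum_congr rfl fun i _ => ?_
    have h3 : a i = (ar i : ℂ) + (ai i : ℂ) * Complex.I := (Complex.re_add_im (a i)).symm
    rw [h3]
    ring
  have hcen : ∀ c : I → ℝ, Integrable (fun z => (lz c z - m c) * W z) (gau I) := by
    intro c
    refine ((bp_int1 hW c).sub ((bp_int0 hW).const_mul (m c))).congr
      (Filter.Eventually.of_forall fun z => ?_)
    simp only [Pi.sub_apply]
    ring
  have hcen2 : ∀ c : I → ℝ, Integrable (fun z => (lz c z - m c) ^ 2 * W z) (gau I) := by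
    intro c
    refine (((bp_int2 hW c).sub ((bp_int1 hW c).const_mul (2 * m c))).add
      ((bp_int0 hW).const_mul (m c ^ 2))).congr (Filter.Eventually.of_forall fun z => ?_)
    simp only [Pi.sub_apply, Pi.add_apply]
    ring
  -- the sum as a mean
  have h1 : (S : ℂ) = mC W (fun z => X z * Y z) := by
    have h2 : (S : ℂ) = ∑ i, a i * cC W X (Pi.single i 1) := by
      rw [hS]
      push_cast
      refine Finset.sum_congr rfl fun i _ => ?_
      rw [ha]
      simp only
      rw [← Complex.conj_mul']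
    rw [h2]
    have h3 : ∀ i, cC W X (Pi.single i 1) =
        mC W (fun z => X z * ((lz (Pi.single i 1) z - m (Pi.single i 1) : ℝ) : ℂ)) := fun i =>
      cC_eq hW hX _
    simp_rw [h3]
    unfold mC
    simp_rw [← mul_div_assoc, ← Finset.sum_div, ← integral_const_mul]
    rw [← integral_finsetSum]
    · congr 1
      refine integral_congr_ae (Filter.Eventually.of_forall fun z => ?_)
      simp only
      rw [hYs z, Finset.mul_sum, Finset.sum_mul]
      refine Finset.sum_congr rfl fun i _ => ?_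
      ring
    · intro i _
      refine ((hX.int (hcen (Pi.single i 1))).const_mul (a i)).congr
        (Filter.Eventually.of_forall fun z => ?_)
      simp only
      push_cast
      ring
  -- AM-GM
  have hX2 : Integrable (fun z => ‖X z‖ ^ 2 * W z) (gau I) := by
    refine (bp_int0 hW).bdd_mul (c := B ^ 2) (hX.meas.norm.pow 2)
      (Filter.Eventually.of_forall fun z => ?_)
    rw [Real.norm_eq_abs, abs_of_nonneg (by positivity)]
    exact pow_le_pow_left₀ (norm_nonneg _) (hB z) 2
  have hbound : ∀ z, ‖X z * Y z‖ ≤ (lam * ‖X z‖ ^ 2 +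
      ((lz ar z - m ar) ^ 2 + (lz ai z - m ai) ^ 2) / lam) / 2 := by
    intro z
    have h4 : ‖Y z‖ ^ 2 = (lz ar z - m ar) ^ 2 + (lz ai z - m ai) ^ 2 := by
      rw [hY]
      simp only
      rw [← Complex.normSq_eq_norm_sq, Complex.normSq_add_mul_I]
    rw [norm_mul, ← h4]
    have h5 : 0 ≤ (lam * ‖X z‖ - ‖Y z‖) ^ 2 / lam := by positivity
    have h6 : (lam * ‖X z‖ - ‖Y z‖) ^ 2 / lam =
        lam * ‖X z‖ ^ 2 - 2 * (‖X z‖ * ‖Y z‖) + ‖Y z‖ ^ 2 / lam := by
      field_simp
      ring
    rw [h6] at h5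
    linarith
  have hfi : Integrable (fun z => ((lam * ‖X z‖ ^ 2 +
      ((lz ar z - m ar) ^ 2 + (lz ai z - m ai) ^ 2) / lam) / 2) * W z) (gau I) := by
    refine (((hX2.const_mul lam).add (((hcen2 ar).add (hcen2 ai)).div_const lam)).div_const
      2).congr (Filter.Eventually.of_forall fun z => ?_)
    simp only [Pi.add_apply]
    ring
  have h7 := norm_mC_le hW hfi hbound
  rw [← h1, Complex.norm_real, Real.norm_eq_abs, abs_of_nonneg (by positivity)] at h7
  -- evaluate
  have h8 : mnW (gau I) W (fun z => (lam * ‖X z‖ ^ 2 +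
      ((lz ar z - m ar) ^ 2 + (lz ai z - m ai) ^ 2) / lam) / 2) =
      (lam * mnW (gau I) W (fun z => ‖X z‖ ^ 2) +
        (vrW (gau I) W (lz ar) + vrW (gau I) W (lz ai)) / lam) / 2 := by
    have h9 : ∀ c : I → ℝ, vrW (gau I) W (lz c) =
        (∫ z, (lz c z - m c) ^ 2 * W z ∂(gau I)) / ∫ z, W z ∂(gau I) := by
      intro c
      have h10 := H764.sq_about (bp_int0 hW) (bp_int1 hW c) (bp_int2 hW c) hp (m c)
      rw [h10, hm]
      ring
    rw [h9, h9]
    unfold mnW
    have h11 : ∫ z, (lam * ‖X z‖ ^ 2 + ((lz ar z - m ar) ^ 2 + (lz ai z - m ai) ^ 2) / lam) / 2 *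
        W z ∂(gau I) = (lam * (∫ z, ‖X z‖ ^ 2 * W z ∂(gau I)) +
          ((∫ z, (lz ar z - m ar) ^ 2 * W z ∂(gau I)) +
            (∫ z, (lz ai z - m ai) ^ 2 * W z ∂(gau I))) / lam) / 2 := by
      have e : ∀ z, (lam * ‖X z‖ ^ 2 + ((lz ar z - m ar) ^ 2 + (lz ai z - m ai) ^ 2) / lam) / 2 *
          W z = lam / 2 * (‖X z‖ ^ 2 * W z) + (1 / (2 * lam) * ((lz ar z - m ar) ^ 2 * W z) +
            1 / (2 * lam) * ((lz ai z - m ai) ^ 2 * W z)) := by
        intro z
        field_simp
      have i1 : Integrable (fun z => 1 / (2 * lam) * ((lz ar z - m ar) ^ 2 * W z) +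
          1 / (2 * lam) * ((lz ai z - m ai) ^ 2 * W z)) (gau I) :=
        ((hcen2 ar).const_mul _).add ((hcen2 ai).const_mul _)
      simp_rw [e]
      rw [integral_add (hX2.const_mul _) i1,
        integral_add ((hcen2 ar).const_mul _) ((hcen2 ai).const_mul _),
        integral_const_mul, integral_const_mul, integral_const_mul]
      field_simp
    rw [h11]
    field_simp
  rw [h8] at h7
  have h12 : vrW (gau I) W (lz ar) + vrW (gau I) W (lz ai) ≤ lam * S := by
    have h13 : S = (∑ i, ar i ^ 2) + ∑ i, ai i ^ 2 := by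
      rw [hS, ← Finset.sum_add_distrib]
      refine Finset.sum_congr rfl fun i _ => ?_
      rw [har, hai]
      simp only
      have h14 : ‖a i‖ = ‖cC W X (Pi.single i 1)‖ := by
        rw [ha]
        simp only
        exact RCLike.norm_conj _
      rw [← h14, ← Complex.normSq_eq_norm_sq, Complex.normSq_apply]
      ring
    rw [h13, mul_add]
    exact add_le_add (hv ar) (hv ai)
  have h15 : (vrW (gau I) W (lz ar) + vrW (gau I) W (lz ai)) / lam ≤ S := by
    rw [div_le_iff₀ hl]
    linarith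
  linarith

/-! ### derivative under translations -/

/-- tilted integral of `X W` -/
def tX (W : (I → ℝ) → ℝ) (X : (I → ℝ) → ℂ) (c : I → ℝ) (s : ℝ) : ℂ :=
  ∫ z, X z * ((Real.exp (s * lz c z) * W z : ℝ) : ℂ) ∂(gau I)

theorem hasDerivAt_tX (hW : BP W) (hX : BX X) (c : I → ℝ) :
    HasDerivAt (tX W X c) (∫ z, X z * ((lz c z * W z : ℝ) : ℂ) ∂(gau I)) 0 := by
  obtain ⟨B, hB⟩ := hX.bdd
  obtain ⟨BW, hBW⟩ := hW.bdd
  have hB0 : 0 ≤ B := (norm_nonneg _).trans (hB 0)
  have hWm : AEStronglyMeasurable W (gau I) := hW.meas.aestronglyMeasurable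
  have hbi : Integrable (fun z : I → ℝ => B * BW * (|lz c z| ^ 1 * Real.exp (1 * lz c z) +
      |lz c z| ^ 1 * Real.exp (-1 * lz c z))) (gau I) :=
    ((integrable_abs_exp c 1 1).add (integrable_abs_exp c 1 (-1))).const_mul _
  have h := hasDerivAt_integral_of_dominated_loc_of_deriv_le (μ := gau I)
    (F := fun (s : ℝ) (z : I → ℝ) => X z * ((Real.exp (s * lz c z) * W z : ℝ) : ℂ))
    (F' := fun (s : ℝ) (z : I → ℝ) => X z * ((Real.exp (s * lz c z) * lz c z * W z : ℝ) : ℂ))
    (x₀ := (0 : ℝ)) (s := Metric.ball 0 1)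
    (bound := fun z => B * BW * (|lz c z| ^ 1 * Real.exp (1 * lz c z) +
      |lz c z| ^ 1 * Real.exp (-1 * lz c z)))
    (Metric.ball_mem_nhds 0 one_pos) ?_ ?_ ?_ ?_ hbi ?_
  · have h1 := h.2
    refine h1.congr_deriv ?_
    refine integral_congr_ae (Filter.Eventually.of_forall fun z => ?_)
    simp
  · refine Filter.Eventually.of_forall fun s => ?_
    refine hX.meas.mul (Complex.continuous_ofReal.comp_aestronglyMeasurable ?_)
    exact (Measurable.aestronglyMeasurable (by fun_prop)).mul hWm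
  · have h1 := hX.int (bp_int0 hW)
    refine h1.congr (Filter.Eventually.of_forall fun z => ?_)
    simp
  · refine hX.meas.mul (Complex.continuous_ofReal.comp_aestronglyMeasurable ?_)
    exact (Measurable.aestronglyMeasurable (by fun_prop)).mul hWm
  · refine Filter.Eventually.of_forall fun z s hs => ?_
    rw [Metric.mem_ball, dist_zero_right, Real.norm_eq_abs, abs_lt] at hs
    rw [norm_mul, Complex.norm_real, Real.norm_eq_abs, abs_mul, abs_mul, abs_of_pos (hW.pos z),
      abs_of_pos (Real.exp_pos _), pow_one]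
    have h2 : Real.exp (s * lz c z) ≤ Real.exp (1 * lz c z) + Real.exp (-1 * lz c z) := by
      rcases le_total 0 (lz c z) with h3 | h3
      · have h4 : s * lz c z ≤ 1 * lz c z := mul_le_mul_of_nonneg_right hs.2.le h3
        have := Real.exp_le_exp.2 h4
        linarith [Real.exp_pos (-1 * lz c z)]
      · have h4 : s * lz c z ≤ -1 * lz c z := mul_le_mul_of_nonpos_right hs.1.le h3
        have := Real.exp_le_exp.2 h4
        linarith [Real.exp_pos (1 * lz c z)]
    have hBW0 : 0 ≤ BW := (hW.pos z).le.trans (hBW z)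
    calc ‖X z‖ * (Real.exp (s * lz c z) * |lz c z| * W z)
        ≤ B * ((Real.exp (1 * lz c z) + Real.exp (-1 * lz c z)) * |lz c z| * BW) := by
          refine mul_le_mul (hB z) ?_ ?_ hB0
          · exact mul_le_mul (mul_le_mul_of_nonneg_right h2 (abs_nonneg _)) (hBW z) (hW.pos z).le
              (by positivity)
          · have := (hW.pos z).le
            positivity
      _ = _ := by ring
  · refine Filter.Eventually.of_forall fun z s _ => ?_
    have h1 : HasDerivAt (fun s : ℝ => s * lz c z) (1 * lz c z) s := (hasDerivAt_id s).mul_const _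
    have h2 := ((h1.exp.mul_const (W z)).ofReal_comp).const_mul (X z)
    refine h2.congr_deriv ?_
    push_cast
    ring

lemma tX_zero (W : (I → ℝ) → ℝ) (X : (I → ℝ) → ℂ) (c : I → ℝ) :
    tX W X c 0 = ∫ z, X z * (W z : ℂ) ∂(gau I) := by
  unfold tX
  simp

lemma tX_one (W : (I → ℝ) → ℝ) (c : I → ℝ) (s : ℝ) :
    tX W (fun _ => 1) c s = ((∫ z, Real.exp (s * lz c z) * W z ∂(gau I) : ℝ) : ℂ) := by
  unfold tX
  rw [← integral_complex_ofReal]
  refine integral_congr_ae (Filter.Eventually.of_forall fun z => ?_)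
  simp

lemma bx_one : BX (fun _ : I → ℝ => (1 : ℂ)) :=
  ⟨aestronglyMeasurable_const, 1, fun _ => by simp⟩

/-- **derivative of the tilted mean = covariance** -/
theorem hasDerivAt_mean (hW : BP W) (hX : BX X) (c : I → ℝ) :
    HasDerivAt (fun s => tX W X c s / tX W (fun _ => 1) c s) (cC W X c) 0 := by
  have h1 := hasDerivAt_tX hW hX c
  have h2 := hasDerivAt_tX hW (bx_one (I := I)) c
  have hp := bp_pos hW
  have hne : tX W (fun _ => 1) c 0 ≠ 0 := by
    rw [tX_one]
    simp only [zero_mul, Real.exp_zero, one_mul]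
    exact_mod_cast hp.ne'
  refine (h1.div h2 hne).congr_deriv ?_
  unfold cC mC mnW
  rw [tX_zero, tX_zero]
  simp only [one_mul]
  have e1 : ∫ z, X z * ((lz c z * W z : ℝ) : ℂ) ∂(gau I) =
      ∫ z, X z * (lz c z : ℂ) * (W z : ℂ) ∂(gau I) := by
    refine integral_congr_ae (Filter.Eventually.of_forall fun z => ?_)
    simp only
    push_cast
    ring
  have e2 : ∫ z, ((lz c z * W z : ℝ) : ℂ) ∂(gau I) = ((∫ z, lz c z * W z ∂(gau I) : ℝ) : ℂ) :=
    integral_complex_ofReal
  have e3 : ∫ z, (W z : ℂ) ∂(gau I) = ((∫ z, W z ∂(gau I) : ℝ) : ℂ) := integral_complex_ofReal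
  rw [e1, e2, e3]
  have hq : ((∫ z, W z ∂(gau I) : ℝ) : ℂ) ≠ 0 := by exact_mod_cast hp.ne'
  push_cast
  field_simp

end

end Vale.Agent.P159.H963
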