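import Vale.Agent.P159.H963.Vb1a
import Vale.Agent.P159.H963.NeuD
import Vale.Agent.P159.H896.Chm
import Vale.Agent.P159.H552.In5a

/-!
P159 / module VB1 (helper963), part b: **gradient of the charge functionals after one Gaussian
step**. For a channel `Chn M M' B K` (noise `B g`):

* `dPh_eq_cC` : `D_{B c} Φ_q^{M'}(f) = Cov_f (Φ_q^M(f + B g), <c, g>)`, `Cov_f` under the weight
  `Z⁰_M(f + B g)`;
* `grad_le` : if the conditional variance of `<c, g>` is at most `λ |c|²` then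
  `Σ_i |D_{B e_i} Φ_q^{M'}(f)|² ≤ λ ω_q(M)²` for EVERY real `f`;
* `vN_le` : near-convexity: the conditional variance is at most `(1+ω)/(1-ω) |c|²` for every `f` if
  the masses are FKG, `M' B ≥ 0`, `B a = 1` for some positive `a`, `Bᵀ M' B = τ 1` and
  `|Z_M(F) - Z⁰_M(F)| ≤ ω Z⁰_M(F)` (general form of 764).
-/

namespace Vale.Agent.P159.H963

open MeasureTheory ProbabilityTheory Finset Matrix
open Vale.Agent.P159.TM.H104 (EM Cv li Ex)
open Vale.Agent.P159.T1.H897 (Hol)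
open Vale.Agent.P159.H37 (gau gau_shift qf bf ZM Zn Zq wM Cm)
open Vale.Agent.P159.H145 (LM L0 cs OscZ)
open Vale.Agent.P159.H896 (WM Chn cN Ph om)
open Vale.Agent.P159.H764 (mnW vrW lz BP PA dP)

noncomputable section

variable {V : Type} [Fintype V] {I : Type} [Fintype I]
variable {w : (V → ℤ) → ℝ} {M M' : Matrix V V ℝ} {B : Matrix V I ℝ} {K : Matrix I V ℝ}

/-- standing hypotheses with a bounded weight and a coercive mass form -/
structure WB (w : (V → ℤ) → ℝ) (M : Matrix V V ℝ) : Prop extends WM w M where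
  bdd : ∃ Wb : ℝ, ∀ h, w h ≤ Wb
  coer : ∃ m0 : ℝ, 0 < m0 ∧ ∀ u : V → ℝ, m0 * ∑ x, u x ^ 2 ≤ qf M u

lemma WB.chn (h : Chn M M' B K) (hw : WB w M') : WB w M where
  toWM := h.wm hw.toWM
  bdd := hw.bdd
  coer := by
    obtain ⟨m0, hm0, hc⟩ := hw.coer
    exact ⟨m0, hm0, fun u => (hc u).trans (h.qf_le u)⟩

lemma WB.nonneg (hw : WB w M) (h : V → ℤ) : 0 ≤ w h := H896.w_nonneg hw.em h

lemma WB.ZM_bdd (hw : WB w M) : ∃ K : ℝ, ∀ F : V → ℝ, ZM w M F ≤ K := by
  classical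
  obtain ⟨K, _, hK⟩ := H963.ZM_bdd hw.nonneg hw.bdd hw.coer
  exact ⟨K, fun F => (hK F).2⟩

lemma WB.Zn_bdd (hw : WB w M) : ∃ K : ℝ, ∀ F : V → ℝ, Zn w M F ≤ K := by
  classical
  obtain ⟨K, _, hK⟩ := H963.Zn_bdd hw.nonneg hw.bdd hw.coer
  exact ⟨K, hK⟩

lemma continuous_Zn (hw : WM w M) : Continuous (Zn w M) := by
  unfold Zn
  have h1 : Continuous (Function.uncurry fun (F : V → ℝ) (c : ℝ) => ZM w M fun x => F x + c) := by
    refine (H896.continuous_ZM hw).comp (continuous_pi fun x => ?_)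
    fun_prop
  exact intervalIntegral.continuous_parametric_intervalIntegral_of_continuous' h1 0 1

lemma continuous_Zq (hw : WM w M) (q : ℤ) : Continuous (Zq w M q) := by
  unfold Zq
  have h1 : Continuous (Function.uncurry fun (F : V → ℝ) (c : ℝ) =>
      (ZM w M (fun x => F x + c) : ℂ) * Complex.exp (-(2 * Real.pi * q * c) * Complex.I)) := by
    refine Continuous.mul ?_ (by fun_prop)
    refine Complex.continuous_ofReal.comp ((H896.continuous_ZM hw).comp (continuous_pi fun x => ?_))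
    fun_prop
  exact intervalIntegral.continuous_parametric_intervalIntegral_of_continuous' h1 0 1

lemma continuous_Ph (hw : WM w M) (q : ℤ) : Continuous (Ph w M q) := by
  unfold Ph
  refine (continuous_Zq hw q).div (Complex.continuous_ofReal.comp (continuous_Zn hw)) fun F => ?_
  exact_mod_cast (H896.Zn_pos hw F).ne'

/-- the neutral weight of the noise -/
def WZ (w : (V → ℤ) → ℝ) (M : Matrix V V ℝ) (B : Matrix V I ℝ) (f : V → ℝ) (g : I → ℝ) : ℝ :=
  Zn w M (f + B *ᵥ g)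

/-- the charge functional as a function of the noise -/
def XZ (w : (V → ℤ) → ℝ) (M : Matrix V V ℝ) (B : Matrix V I ℝ) (q : ℤ) (f : V → ℝ)
    (g : I → ℝ) : ℂ := Ph w M q (f + B *ᵥ g)

lemma bp_WZ (hw : WB w M) (f : V → ℝ) : BP (WZ w M B f) where
  meas := ((continuous_Zn hw.toWM).comp (H896.continuous_chn f)).measurable
  pos := fun _ => H896.Zn_pos hw.toWM _
  bdd := by
    obtain ⟨K, hK⟩ := hw.Zn_bdd
    exact ⟨K, fun F => hK _⟩

/-- the integer weight of the noise -/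
def WI (w : (V → ℤ) → ℝ) (M : Matrix V V ℝ) (B : Matrix V I ℝ) (f : V → ℝ) (g : I → ℝ) : ℝ :=
  ZM w M (f + B *ᵥ g)

lemma bp_WI (hw : WB w M) (f : V → ℝ) : BP (WI w M B f) where
  meas := ((H896.continuous_ZM hw.toWM).comp (H896.continuous_chn f)).measurable
  pos := fun _ => H37.ZM_pos hw.sym hw.em _
  bdd := by
    obtain ⟨K, hK⟩ := hw.ZM_bdd
    exact ⟨K, fun F => hK _⟩

lemma bx_XZ (hw : WM w M) (q : ℤ) (f : V → ℝ) : BX (XZ w M B q f) where
  meas := ((continuous_Ph hw q).comp (H896.continuous_chn f)).aestronglyMeasurable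
  bdd := ⟨om w M q, fun _ => H896.norm_Ph_le hw q _⟩

omit [Fintype V] in
lemma chn_line (f : V → ℝ) (s : ℝ) (c g : I → ℝ) :
    f + s • (B *ᵥ c) + B *ᵥ g = f + B *ᵥ (g + s • c) := by
  rw [mulVec_add, mulVec_smul]
  abel

lemma tilt_exp (s : ℝ) (c g : I → ℝ) :
    Real.exp ((∑ i, (s • c) i * g i) - (∑ i, (s • c) i ^ 2) / 2) =
      Real.exp (-(s ^ 2 * (∑ i, c i ^ 2) / 2)) * Real.exp (s * lz c g) := by
  rw [← Real.exp_add]
  congr 1
  have h1 : ∑ i, (s • c) i * g i = s * lz c g := by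
    unfold H764.lz
    rw [Finset.mul_sum]
    refine Finset.sum_congr rfl fun i _ => ?_
    simp only [Pi.smul_apply, smul_eq_mul]
    ring
  have h2 : ∑ i, (s • c) i ^ 2 = s ^ 2 * ∑ i, c i ^ 2 := by
    rw [Finset.mul_sum]
    refine Finset.sum_congr rfl fun i _ => ?_
    simp only [Pi.smul_apply, smul_eq_mul]
    ring
  rw [h1, h2]
  ring

/-- the charge functional below the channel as a tilted mean -/
theorem Ph_tilt (h : Chn M M' B K) (hw : WB w M') (q : ℤ) (f : V → ℝ) (c : I → ℝ) (s : ℝ) :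
    Ph w M' q (f + s • (B *ᵥ c)) =
      tX (WZ w M B f) (XZ w M B q f) c s / tX (WZ w M B f) (fun _ => 1) c s := by
  have hwM := WB.chn h hw
  set k : ℝ := Real.exp (-(s ^ 2 * (∑ i, c i ^ 2) / 2)) with hk
  have hk0 : k ≠ 0 := (Real.exp_pos _).ne'
  have h1 : (cN M B : ℂ) * Zq w M' q (f + s • (B *ᵥ c)) =
      (k : ℂ) * tX (WZ w M B f) (XZ w M B q f) c s := by
    rw [← H896.chn_Zq h hw.toWM]
    simp only [chn_line]
    rw [gau_shiftE (s • c) fun g => Zq w M q (f + B *ᵥ g)]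
    unfold tX
    rw [← integral_const_mul]
    refine integral_congr_ae (Filter.Eventually.of_forall fun g => ?_)
    simp only
    rw [tilt_exp, ← hk]
    have h2 : Zq w M q (f + B *ᵥ g) = XZ w M B q f g * (WZ w M B f g : ℂ) := by
      unfold XZ WZ Ph
      rw [div_mul_cancel₀]
      exact_mod_cast (H896.Zn_pos hwM.toWM _).ne'
    rw [h2, Complex.real_smul]
    push_cast
    ring
  have h3 : (cN M B : ℂ) * (Zn w M' (f + s • (B *ᵥ c)) : ℂ) =
      (k : ℂ) * tX (WZ w M B f) (fun _ => 1) c s := by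
    have h4 := H896.chn_Zn h hw.toWM (f + s • (B *ᵥ c))
    simp only [chn_line] at h4
    rw [gau_shift (s • c) fun g => Zn w M (f + B *ᵥ g)] at h4
    rw [tX_one]
    have h5 : ∫ g, Real.exp ((∑ i, (s • c) i * g i) - (∑ i, (s • c) i ^ 2) / 2) *
        Zn w M (f + B *ᵥ g) ∂(gau I) = k * ∫ z, Real.exp (s * lz c z) * WZ w M B f z ∂(gau I) := by
      rw [← integral_const_mul]
      refine integral_congr_ae (Filter.Eventually.of_forall fun g => ?_)
      simp only
      rw [tilt_exp, ← hk]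
      unfold WZ
      ring
    rw [h5] at h4
    have h6 : ((k * ∫ z, Real.exp (s * lz c z) * WZ w M B f z ∂(gau I) : ℝ) : ℂ) =
        ((cN M B * Zn w M' (f + s • (B *ᵥ c)) : ℝ) : ℂ) := by rw [h4]
    rw [Complex.ofReal_mul, Complex.ofReal_mul] at h6
    exact h6.symm
  have hc0 : ((cN M B : ℝ) : ℂ) ≠ 0 := by exact_mod_cast (H896.cN_pos (B := B) h.nn).ne'
  have hk1 : (k : ℂ) ≠ 0 := by exact_mod_cast hk0
  unfold Ph
  rw [← mul_div_mul_left _ _ hc0, h1, h3, mul_div_mul_left _ _ hk1]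

/-- **the derivative of the charge functional as a conditional covariance** -/
theorem dPh_eq_cC (h : Chn M M' B K) (hw : WB w M') (q : ℤ) (f : V → ℝ) (c : I → ℝ) :
    H43.dPh w M' q f (B *ᵥ c) = cC (WZ w M B f) (XZ w M B q f) c := by
  have hwM := WB.chn h hw
  have h1 := H43.hasDerivAt_Phq hw.sym hw.em q f (B *ᵥ c) 0
  rw [zero_smul, add_zero] at h1
  have h2 := hasDerivAt_mean (bp_WZ (B := B) hwM f) (bx_XZ (B := B) hwM.toWM q f) c
  have e : (fun r : ℝ => H43.Phq w M' q (f + r • (B *ᵥ c))) = fun s =>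
      tX (WZ w M B f) (XZ w M B q f) c s / tX (WZ w M B f) (fun _ => 1) c s := by
    funext s
    exact Ph_tilt h hw q f c s
  rw [e] at h1
  exact h1.unique h2

/-- conditional variance of `<c, g>` -/
def vN (w : (V → ℤ) → ℝ) (M : Matrix V V ℝ) (B : Matrix V I ℝ) (f : V → ℝ) (c : I → ℝ) : ℝ :=
  vrW (gau I) (WZ w M B f) (lz c)

/-- the same for the integer model -/
def vI (w : (V → ℤ) → ℝ) (M : Matrix V V ℝ) (B : Matrix V I ℝ) (f : V → ℝ) (c : I → ℝ) : ℝ :=
  vrW (gau I) (WI w M B f) (lz c)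

/-- **gradient bound for every background** -/
theorem grad_le [DecidableEq I] (h : Chn M M' B K) (hw : WB w M') (q : ℤ) (f : V → ℝ) {lam : ℝ}
    (hl : 0 < lam) (hv : ∀ c : I → ℝ, vN w M B f c ≤ lam * ∑ i, c i ^ 2) :
    ∑ i, ‖H43.dPh w M' q f (B *ᵥ (Pi.single i 1))‖ ^ 2 ≤ lam * om w M q ^ 2 := by
  have hwM := WB.chn h hw
  have h1 := bessel (bp_WZ (B := B) hwM f) (bx_XZ (B := B) hwM.toWM q f) hl hv
  simp_rw [dPh_eq_cC h hw]
  refine h1.trans (mul_le_mul_of_nonneg_left ?_ hl.le)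
  have hp := bp_pos (bp_WZ (B := B) hwM f)
  unfold mnW
  rw [div_le_iff₀ hp, ← integral_const_mul]
  refine integral_mono_of_nonneg (Filter.Eventually.of_forall fun z => ?_)
    ((bp_int0 (bp_WZ (B := B) hwM f)).const_mul _) (Filter.Eventually.of_forall fun z => ?_)
  · exact mul_nonneg (sq_nonneg _) ((bp_WZ (B := B) hwM f).pos z).le
  · refine mul_le_mul_of_nonneg_right ?_ ((bp_WZ (B := B) hwM f).pos z).le
    exact pow_le_pow_left₀ (norm_nonneg _) (H896.norm_Ph_le hwM.toWM q _) 2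

/-- the same with the conditional `L²` norm of the charge functional -/
theorem grad_le' [DecidableEq I] (h : Chn M M' B K) (hw : WB w M') (q : ℤ) (f : V → ℝ) {lam : ℝ}
    (hl : 0 < lam) (hv : ∀ c : I → ℝ, vN w M B f c ≤ lam * ∑ i, c i ^ 2) :
    ∑ i, ‖H43.dPh w M' q f (B *ᵥ (Pi.single i 1))‖ ^ 2 ≤
      lam * mnW (gau I) (WZ w M B f) (fun g => ‖Ph w M q (f + B *ᵥ g)‖ ^ 2) := by
  have hwM := WB.chn h hw
  have h1 := bessel (bp_WZ (B := B) hwM f) (bx_XZ (B := B) hwM.toWM q f) hl hv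
  simp_rw [dPh_eq_cC h hw]
  exact h1

end

end Vale.Agent.P159.H963
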