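import Vale.Agent.P159.H963.Vb1b

/-!
P159 / module VB1 (helper963), part c: near-convexity of the neutral free energy along the noise
directions of a channel, for general mass forms and EVERY real background (764 for cells):

`NX` : FKG at `M'`, `M' B ≥ 0`, `B a = 1` with `a > 0`, `Bᵀ M' B = τ 1`,
`|Z_M(F) - Z⁰_M(F)| ≤ ω Z⁰_M(F)`. Then `Var_f <c, g> ≤ (1+ω)/(1-ω) |c|²`.
-/

namespace Vale.Agent.P159.H963

open MeasureTheory ProbabilityTheory Finset Matrix
open Vale.Agent.P159.TM.H104 (EM Cv li Ex)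
open Vale.Agent.P159.T1.H897 (Hol)
open Vale.Agent.P159.H37 (gau gau_shift qf bf ZM Zn Zq wM Cm)
open Vale.Agent.P159.H145 (LM L0 cs OscZ)
open Vale.Agent.P159.H896 (WM Chn cN Ph om)
open Vale.Agent.P159.H764 (mnW vrW lz BP PA dP)
open Vale.Agent.P159.H43 (dL)

noncomputable section

variable {V : Type} [Fintype V] {I : Type} [Fintype I]
variable {w : (V → ℤ) → ℝ} {M M' : Matrix V V ℝ} {B : Matrix V I ℝ} {K : Matrix I V ℝ}

/-- the integer partition function below the channel -/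
lemma PA_WI (h : Chn M M' B K) (hw : WB w M') (f : V → ℝ) (s : ℝ) (c : I → ℝ) :
    PA 1 (WI w M B f) (0 + s • c) = cN M B * ZM w M' (f + s • (B *ᵥ c)) := by
  rw [← H896.chn_ZM h hw.em]
  unfold PA WI
  refine integral_congr_ae (Filter.Eventually.of_forall fun g => ?_)
  simp only
  rw [chn_line]
  congr 3
  funext i
  simp only [Pi.add_apply, Pi.smul_apply, smul_eq_mul, Pi.zero_apply]
  ring

/-- first derivative of the integer free energy along the noise -/
lemma dL_eq_dP (h : Chn M M' B K) (hw : WB w M') (f : V → ℝ) (c : I → ℝ) (s : ℝ) :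
    dL w M' (f + s • (B *ᵥ c)) (B *ᵥ c) = dP 1 (WI w M B f) (0 + s • c) c := by
  have hwM := WB.chn h hw
  have h1 := H43.hasDerivAt_LM hw.sym hw.em f (B *ᵥ c) s
  have h2 := H764.hasDerivAt_logPA (bp_WI (B := B) hwM f) one_ne_zero 0 c s
  have e : (fun τ : ℝ => Real.log (PA 1 (WI w M B f) (0 + τ • c))) =
      fun τ => Real.log (cN M B) + LM w M' (f + τ • (B *ᵥ c)) := by
    funext τ
    rw [PA_WI h hw, Real.log_mul (H896.cN_pos (B := B) h.nn).ne'
      (H37.ZM_pos hw.sym hw.em _).ne']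
    rfl
  rw [e] at h2
  exact (h1.const_add (Real.log (cN M B))).unique h2

/-- **the conditional variance of the integer model** -/
theorem vI_eq (h : Chn M M' B K) (hw : WB w M') (f : V → ℝ) (c : I → ℝ) :
    vI w M B f c = (∑ i, c i ^ 2) +
      (Cv (wM w M') (M' *ᵥ f) (li (M' *ᵥ (B *ᵥ c))) (li (M' *ᵥ (B *ᵥ c))) -
        qf M' (B *ᵥ c)) := by
  have hwM := WB.chn h hw
  have h1 := H552.hasDerivAt_dL hw.em f (B *ᵥ c) (B *ᵥ c) 0
  have h2 := H764.hasDerivAt_dP (bp_WI (B := B) hwM f) one_ne_zero 0 c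
  have e : (fun τ : ℝ => dP 1 (WI w M B f) (0 + τ • c) c) =
      fun r : ℝ => dL w M' (f + r • (B *ᵥ c)) (B *ᵥ c) := by
    funext τ
    rw [dL_eq_dP h hw]
  rw [e] at h2
  have h3 := h1.unique h2
  rw [zero_smul, add_zero] at h3
  have h4 : (fun z : I → ℝ => WI w M B f (0 + (1 : ℝ) • z)) = WI w M B f := by
    funext z
    rw [zero_add, one_smul]
  rw [h4, one_pow, div_one] at h3
  have h5 : bf M' (B *ᵥ c) (B *ᵥ c) = qf M' (B *ᵥ c) := rfl
  unfold vI
  rw [h5] at h3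
  linarith

/-- hypotheses of near-convexity along the noise directions -/
structure NX [DecidableEq I] (w : (V → ℤ) → ℝ) (M M' : Matrix V V ℝ) (B : Matrix V I ℝ)
    (a : I → ℝ) (τ ω : ℝ) : Prop where
  hol : Hol (wM w M') (wM w M')
  pos : ∀ i x, 0 ≤ (M' * B) x i
  apos : ∀ i, 0 < a i
  one : B *ᵥ a = 1
  orth : ∀ i j, (Bᵀ * M' * B) i j = if i = j then τ else 0
  ω0 : 0 ≤ ω
  ω1 : ω < 1
  osc : ∀ F : V → ℝ, |ZM w M F - Zn w M F| ≤ ω * Zn w M F

omit [Fintype V] in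
lemma cs_chn (f : V → ℝ) (r : ℝ) (g : I → ℝ) : cs f r + B *ᵥ g = cs (f + B *ᵥ g) r := by
  funext x
  simp only [cs, Pi.add_apply]
  ring

/-- the neutral conditional variance does not see constants -/
lemma vN_cs (hw : WM w M) (f : V → ℝ) (c : I → ℝ) (r : ℝ) :
    vN w M B (cs f r) c = vN w M B f c := by
  unfold vN
  congr 1
  funext g
  unfold WZ
  rw [cs_chn]
  exact H896.Zn_shift hw _ r

/-- the two variances are comparable -/
lemma vN_le_vI [DecidableEq I] (hw : WB w M) {a : I → ℝ} {τ ω : ℝ} (h : NX w M M' B a τ ω) (f : V → ℝ)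
    (c : I → ℝ) : vN w M B f c ≤ (1 + ω) / (1 - ω) * vI w M B f c := by
  have hZ := bp_WI (B := B) hw f
  have hN := bp_WZ (B := B) hw f
  have h1 : 0 < 1 - ω := by linarith [h.ω1]
  have h2 : 0 < 1 + ω := by linarith [h.ω0]
  have key := H764.vrW_comp (P := gau I) (a := (1 + ω)⁻¹) (b := (1 - ω)⁻¹) (inv_pos.2 h2)
    (bp_int0 hN) (bp_int1 hN c) (bp_int2 hN c) (bp_int0 hZ) (bp_int1 hZ c) (bp_int2 hZ c)
    (bp_pos hZ) (fun z => (hZ.pos _).le) (fun z => ?_) fun z => ?_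
  · have e : (1 - ω)⁻¹ / (1 + ω)⁻¹ = (1 + ω) / (1 - ω) := by
      field_simp
    rw [e] at key
    exact key
  · have := abs_le.1 (h.osc (f + B *ᵥ z))
    rw [inv_mul_le_iff₀ h2]
    unfold WI WZ
    linarith [this.2]
  · have := abs_le.1 (h.osc (f + B *ᵥ z))
    rw [le_inv_mul_iff₀ h1]
    unfold WI WZ
    linarith [this.1]

lemma vI_le_vN [DecidableEq I] (hw : WB w M) {a : I → ℝ} {τ ω : ℝ} (h : NX w M M' B a τ ω) (f : V → ℝ)
    (c : I → ℝ) : vI w M B f c ≤ (1 + ω) / (1 - ω) * vN w M B f c := by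
  have hZ := bp_WI (B := B) hw f
  have hN := bp_WZ (B := B) hw f
  refine H764.vrW_comp (P := gau I) (a := 1 - ω) (b := 1 + ω) (by linarith [h.ω1])
    (bp_int0 hZ) (bp_int1 hZ c) (bp_int2 hZ c) (bp_int0 hN) (bp_int1 hN c) (bp_int2 hN c)
    (bp_pos hN) (fun z => (hN.pos _).le) (fun z => ?_) fun z => ?_
  · have := abs_le.1 (h.osc (f + B *ᵥ z))
    unfold WI WZ
    linarith [this.1]
  · have := abs_le.1 (h.osc (f + B *ᵥ z))
    unfold WI WZ
    linarith [this.2]

lemma bf_sum_left {ι : Type*} (s : Finset ι) (A : Matrix V V ℝ) (u : ι → V → ℝ) (v : V → ℝ) :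
    bf A (∑ i ∈ s, u i) v = ∑ i ∈ s, bf A (u i) v := by
  simp only [H37.bf_eq, sum_dotProduct]

lemma bf_sum_right {ι : Type*} (s : Finset ι) (A : Matrix V V ℝ) (u : V → ℝ) (v : ι → V → ℝ) :
    bf A u (∑ i ∈ s, v i) = ∑ i ∈ s, bf A u (v i) := by
  simp only [H37.bf_eq, Matrix.mulVec_sum, dotProduct_sum]

/-- Schur bound for a nonnegative symmetric kernel and positive weights -/
lemma schur_le {C : I → I → ℝ} (hC : ∀ i j, 0 ≤ C i j) (hs : ∀ i j, C i j = C j i) {a : I → ℝ}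
    (ha : ∀ i, 0 < a i) (c : I → ℝ) :
    ∑ i, ∑ j, c i * c j * C i j ≤ ∑ i, c i ^ 2 / a i * ∑ j, a j * C i j := by
  have h1 : ∀ i j, c i * c j * C i j ≤ (c i ^ 2 / a i * (a j * C i j) +
      c j ^ 2 / a j * (a i * C j i)) / 2 := by
    intro i j
    have h2 : 0 ≤ (c i * a j - c j * a i) ^ 2 / (a i * a j) * C i j :=
      mul_nonneg (div_nonneg (sq_nonneg _) (mul_pos (ha i) (ha j)).le) (hC i j)
    have h3 : (c i * a j - c j * a i) ^ 2 / (a i * a j) * C i j =
        c i ^ 2 / a i * (a j * C i j) + c j ^ 2 / a j * (a i * C j i) -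
          2 * (c i * c j * C i j) := by
      rw [hs j i]
      have := (ha i).ne'
      have := (ha j).ne'
      field_simp
      ring
    rw [h3] at h2
    linarith
  have h4 : ∑ i, ∑ j, (c i ^ 2 / a i * (a j * C i j) + c j ^ 2 / a j * (a i * C j i)) / 2 =
      ∑ i, c i ^ 2 / a i * ∑ j, a j * C i j := by
    have h5 : ∑ i, ∑ j, c j ^ 2 / a j * (a i * C j i) = ∑ i, ∑ j, c i ^ 2 / a i * (a j * C i j) :=
      Finset.sum_comm
    have h6 : ∑ i, c i ^ 2 / a i * ∑ j, a j * C i j = ∑ i, ∑ j, c i ^ 2 / a i * (a j * C i j) :=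
      Finset.sum_congr rfl fun i _ => Finset.mul_sum _ _ _
    have h7 : ∑ i, ∑ j, (c i ^ 2 / a i * (a j * C i j) + c j ^ 2 / a j * (a i * C j i)) / 2 =
        ((∑ i, ∑ j, c i ^ 2 / a i * (a j * C i j)) +
          ∑ i, ∑ j, c j ^ 2 / a j * (a i * C j i)) / 2 := by
      rw [← Finset.sum_add_distrib, Finset.sum_div]
      refine Finset.sum_congr rfl fun i _ => ?_
      rw [← Finset.sum_add_distrib, Finset.sum_div]
    rw [h7, h5, h6]
    ring
  rw [← h4]
  exact Finset.sum_le_sum fun i _ => Finset.sum_le_sum fun j _ => h1 i j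

omit [Fintype V] in
lemma mulVec_eq_sum_single [DecidableEq I] (A : Matrix V I ℝ) (c : I → ℝ) :
    A *ᵥ c = ∑ i, c i • (A *ᵥ (Pi.single i (1 : ℝ))) := by
  conv_lhs => rw [show c = ∑ i, c i • (Pi.single i (1 : ℝ) : I → ℝ) from by
    funext j
    simp [Finset.sum_apply, Pi.single_apply]]
  rw [Matrix.mulVec_sum]
  refine Finset.sum_congr rfl fun i _ => ?_
  rw [mulVec_smul]

omit [Fintype V] in
lemma mulVec_single_one' [DecidableEq I] (A : Matrix V I ℝ) (i : I) (x : V) :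
    (A *ᵥ (Pi.single i (1 : ℝ))) x = A x i := by
  simp

/-- **the mean over the constants of the second derivative** -/
theorem int_Cv_le [DecidableEq I] (hw : WB w M') {a : I → ℝ} {τ ω : ℝ} (h : NX w M M' B a τ ω)
    (f : V → ℝ) (c : I → ℝ) :
    ∫ r in (0 : ℝ)..1, Cv (wM w M') (M' *ᵥ (cs f r)) (li (M' *ᵥ (B *ᵥ c)))
      (li (M' *ᵥ (B *ᵥ c))) ≤ τ * ∑ i, c i ^ 2 := by
  have hE := hw.em
  set p : I → V → ℝ := fun i => M' *ᵥ (B *ᵥ (Pi.single i (1 : ℝ))) with hp
  have hp0 : ∀ i x, 0 ≤ p i x := by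
    intro i x
    rw [hp]
    simp only
    rw [mulVec_mulVec, mulVec_single_one']
    exact h.pos i x
  have hMBc : ∀ c : I → ℝ, M' *ᵥ (B *ᵥ c) = ∑ i, c i • p i := by
    intro c
    rw [mulVec_eq_sum_single B c, Matrix.mulVec_sum]
    refine Finset.sum_congr rfl fun i _ => ?_
    rw [mulVec_smul]
  have hM1 : M' *ᵥ (1 : V → ℝ) = ∑ i, a i • p i := by rw [← h.one, hMBc]
  -- pointwise bound
  have h1 : ∀ r : ℝ, Cv (wM w M') (M' *ᵥ (cs f r)) (li (M' *ᵥ (B *ᵥ c))) (li (M' *ᵥ (B *ᵥ c))) ≤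
      ∑ i, c i ^ 2 / a i * Cv (wM w M') (M' *ᵥ (cs f r)) (li (p i)) (li (M' *ᵥ 1)) := by
    intro r
    set J := M' *ᵥ (cs f r) with hJ
    set C : I → I → ℝ := fun i j => bf (Cm (wM w M') J) (p i) (p j) with hC
    have hC0 : ∀ i j, 0 ≤ C i j := by
      intro i j
      rw [hC]
      simp only
      unfold bf
      refine Finset.sum_nonneg fun x _ => Finset.sum_nonneg fun y _ => ?_
      exact mul_nonneg (mul_nonneg (hp0 i x) (H159.Cm_nonneg hE h.hol _ x y)) (hp0 j y)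
    have hCs : ∀ i j, C i j = C j i := by
      intro i j
      rw [hC]
      simp only
      rw [← H159.Cv_li hE, ← H159.Cv_li hE, TM.H104.Cv_comm]
    have e1 : Cv (wM w M') J (li (M' *ᵥ (B *ᵥ c))) (li (M' *ᵥ (B *ᵥ c))) =
        ∑ i, ∑ j, c i * c j * C i j := by
      rw [H159.Cv_li hE, hMBc, bf_sum_left]
      refine Finset.sum_congr rfl fun i _ => ?_
      rw [bf_sum_right]
      refine Finset.sum_congr rfl fun j _ => ?_
      rw [H37.bf_smul_left, H37.bf_smul_right, hC]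
      ring
    have e2 : ∀ i, Cv (wM w M') J (li (p i)) (li (M' *ᵥ 1)) = ∑ j, a j * C i j := by
      intro i
      rw [H159.Cv_li hE, hM1, bf_sum_right]
      refine Finset.sum_congr rfl fun j _ => ?_
      rw [H37.bf_smul_right]
    rw [e1]
    simp_rw [e2]
    exact schur_le hC0 hCs h.apos c
  -- the mean of the right side
  have hcont : ∀ u v : V → ℝ, Continuous fun r : ℝ =>
      Cv (wM w M') (M' *ᵥ (cs f r)) (li u) (li v) := by
    intro u v
    have h2 := TM.H104.continuous_Cv hE (TM.H104.Gr.li u) (TM.H104.Gr.li v)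
    refine h2.comp ?_
    have h3 : Continuous (cs f) := H145.continuous_cs f
    fun_prop
  have h2 : ∀ i, ∫ r in (0 : ℝ)..1, Cv (wM w M') (M' *ᵥ (cs f r)) (li (p i)) (li (M' *ᵥ 1)) =
      τ * a i := by
    intro i
    have h3 : ∀ r : ℝ, HasDerivAt (fun r : ℝ => dL w M' (cs f r) (B *ᵥ (Pi.single i (1 : ℝ))))
        (Cv (wM w M') (M' *ᵥ (cs f r)) (li (p i)) (li (M' *ᵥ 1)) -
          bf M' 1 (B *ᵥ (Pi.single i (1 : ℝ)))) r := by
      intro r
      have h4 := H552.hasDerivAt_dL hE f (B *ᵥ (Pi.single i (1 : ℝ))) 1 r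
      have e : (fun r : ℝ => dL w M' (f + r • (1 : V → ℝ)) (B *ᵥ (Pi.single i (1 : ℝ)))) =
          fun r : ℝ => dL w M' (cs f r) (B *ᵥ (Pi.single i (1 : ℝ))) := by
        funext r
        rw [← H552.cs_eq]
      rw [e, ← H552.cs_eq] at h4
      exact h4
    have h5 := intervalIntegral.integral_eq_sub_of_hasDerivAt (a := (0 : ℝ)) (b := 1)
      (fun r _ => h3 r) (((hcont _ _).sub continuous_const).intervalIntegrable _ _)
    have h6 : dL w M' (cs f 1) (B *ᵥ (Pi.single i (1 : ℝ))) =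
        dL w M' (cs f 0) (B *ᵥ (Pi.single i (1 : ℝ))) := by
      rw [H552.dL_cs_one hw.per hw.sym hE, H145.cs_zero]
    rw [h6, sub_self, intervalIntegral.integral_sub ((hcont _ _).intervalIntegrable _ _)
      (continuous_const.intervalIntegrable _ _)] at h5
    simp only [intervalIntegral.integral_const, sub_zero, one_smul] at h5
    have h7 : bf M' 1 (B *ᵥ (Pi.single i (1 : ℝ))) = τ * a i := by
      rw [← h.one, H37.bf_eq, dotProduct_comm]
      have e3 : (M' *ᵥ (B *ᵥ (Pi.single i (1 : ℝ)))) ⬝ᵥ (B *ᵥ a) =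
          ((Bᵀ * M' * B) *ᵥ (Pi.single i (1 : ℝ))) ⬝ᵥ a := by
        rw [← mulVec_mulVec, ← mulVec_mulVec, dotProduct_mulVec, ← mulVec_transpose]
      rw [e3, dotProduct]
      have e4 : ∀ j, ((Bᵀ * M' * B) *ᵥ (Pi.single i (1 : ℝ))) j = if j = i then τ else 0 := by
        intro j
        rw [← h.orth j i]
        simp
      simp_rw [e4]
      simp
    linarith
  have h8 : ∫ r in (0 : ℝ)..1, ∑ i, c i ^ 2 / a i *
      Cv (wM w M') (M' *ᵥ (cs f r)) (li (p i)) (li (M' *ᵥ 1)) = τ * ∑ i, c i ^ 2 := by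
    have hc9 : ∀ i, Continuous fun r : ℝ => c i ^ 2 / a i *
        Cv (wM w M') (M' *ᵥ (cs f r)) (li (p i)) (li (M' *ᵥ 1)) := fun i =>
      continuous_const.mul (hcont _ _)
    rw [intervalIntegral.integral_finsetSum fun i _ => (hc9 i).intervalIntegrable _ _,
      Finset.mul_sum]
    refine Finset.sum_congr rfl fun i _ => ?_
    rw [intervalIntegral.integral_const_mul, h2]
    have := (h.apos i).ne'
    field_simp
  rw [← h8]
  refine intervalIntegral.integral_mono_on zero_le_one ((hcont _ _).intervalIntegrable _ _) ?_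
    fun r _ => h1 r
  exact (continuous_finsetSum _ fun i _ => continuous_const.mul (hcont _ _)).intervalIntegrable _ _

/-- **near-convexity of the neutral free energy, general mass forms, every background** -/
theorem vN_le [DecidableEq I] (hch : Chn M M' B K) (hw : WB w M') {a : I → ℝ} {τ ω : ℝ}
    (h : NX w M M' B a τ ω) (f : V → ℝ) (c : I → ℝ) :
    vN w M B f c ≤ (1 + ω) / (1 - ω) * ∑ i, c i ^ 2 := by
  have hE := hw.em
  have hwM := WB.chn hch hw
  have hr : 0 ≤ (1 + ω) / (1 - ω) := div_nonneg (by linarith [h.ω0]) (by linarith [h.ω1])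
  have h1 := int_Cv_le hw h f c
  have hq : qf M' (B *ᵥ c) = τ * ∑ i, c i ^ 2 := by
    rw [H37.qf_eq]
    have e3 : (B *ᵥ c) ⬝ᵥ M' *ᵥ (B *ᵥ c) = c ⬝ᵥ ((Bᵀ * M' * B) *ᵥ c) := by
      rw [← mulVec_mulVec, ← mulVec_mulVec, dotProduct_mulVec c, vecMul_transpose]
    rw [e3, dotProduct, Finset.mul_sum]
    refine Finset.sum_congr rfl fun i _ => ?_
    simp only [mulVec, dotProduct, h.orth]
    simp only [ite_mul, zero_mul, Finset.sum_ite_eq, Finset.mem_univ, if_true]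
    ring
  have hcont : Continuous fun r : ℝ =>
      Cv (wM w M') (M' *ᵥ (cs f r)) (li (M' *ᵥ (B *ᵥ c))) (li (M' *ᵥ (B *ᵥ c))) := by
    have h2 := TM.H104.continuous_Cv hE (TM.H104.Gr.li (M' *ᵥ (B *ᵥ c)))
      (TM.H104.Gr.li (M' *ᵥ (B *ᵥ c)))
    refine h2.comp ?_
    have h3 : Continuous (cs f) := H145.continuous_cs f
    fun_prop
  have h2 : ∀ r ∈ Set.Icc (0 : ℝ) 1, vN w M B f c ≤ (1 + ω) / (1 - ω) * ((∑ i, c i ^ 2) +
      (Cv (wM w M') (M' *ᵥ (cs f r)) (li (M' *ᵥ (B *ᵥ c))) (li (M' *ᵥ (B *ᵥ c))) -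
        τ * ∑ i, c i ^ 2)) := by
    intro r _
    have h3 := vN_le_vI hwM h (cs f r) c
    rw [vN_cs hwM.toWM, vI_eq hch hw, hq] at h3
    exact h3
  have h4 : ∫ _r in (0 : ℝ)..1, vN w M B f c ≤ ∫ r in (0 : ℝ)..1,
      (1 + ω) / (1 - ω) * ((∑ i, c i ^ 2) +
        (Cv (wM w M') (M' *ᵥ (cs f r)) (li (M' *ᵥ (B *ᵥ c))) (li (M' *ᵥ (B *ᵥ c))) -
          τ * ∑ i, c i ^ 2)) :=
    intervalIntegral.integral_mono_on zero_le_one (by simp)
      ((continuous_const.mul (continuous_const.add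
        (hcont.sub continuous_const))).intervalIntegrable _ _) h2
  have hcs : Continuous fun r : ℝ => Cv (wM w M') (M' *ᵥ (cs f r)) (li (M' *ᵥ (B *ᵥ c)))
      (li (M' *ᵥ (B *ᵥ c))) - τ * ∑ i, c i ^ 2 := hcont.sub continuous_const
  rw [intervalIntegral.integral_const_mul, intervalIntegral.integral_add
    (by simp) (hcs.intervalIntegrable _ _),
    intervalIntegral.integral_sub (hcont.intervalIntegrable _ _) (by simp)] at h4
  simp only [intervalIntegral.integral_const, sub_zero, one_smul] at h4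
  refine h4.trans (mul_le_mul_of_nonneg_left ?_ hr)
  linarith

/-- **VB1: gradient of the charge functional, every background** -/
theorem grad_om_le [DecidableEq I] (hch : Chn M M' B K) (hw : WB w M') {a : I → ℝ} {τ ω : ℝ}
    (h : NX w M M' B a τ ω) (q : ℤ) (f : V → ℝ) :
    ∑ i, ‖H43.dPh w M' q f (B *ᵥ (Pi.single i 1))‖ ^ 2 ≤
      (1 + ω) / (1 - ω) * om w M q ^ 2 :=
  grad_le hch hw q f (div_pos (by linarith [h.ω0]) (by linarith [h.ω1])) fun c => vN_le hch hw h f c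

end

end Vale.Agent.P159.H963
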