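import Vale.Agent.P159.H963.Vb1c
import Vale.Agent.P159.H159.Cell
import Vale.Agent.P159.H896.Four
import Vale.Agent.P159.H552.In5b

/-!
P159 / module VB1 (helper963), part d: the torus. Mass forms `MC N l t τ = t (1 - P) + τ P`, cells of
side `l`, one Gaussian step from the cell mass `τ` to the cell mass `τ' < τ`:

* `var_torus` : conditional variance `≤ (1+ω)/(1-ω) |c|²`, every background, `τ' ≤ t`;
* `vb1_torus` : `Σ_x |D_{1_x} Φ_q^{τ'}(f)|² ≤ l² ττ'/(τ-τ') (1+ω)/(1-ω) ω_q(τ)²`, every `f`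
  (`1_x` indicator of the cell `x`); `τ = 2τ'`: the prefactor is `2 τ' l²`;
* `vb1_law` : the `L²` bound of one cell in every cell-translation invariant law of the background.
-/

namespace Vale.Agent.P159.H963

open MeasureTheory ProbabilityTheory Finset Matrix
open Vale.Agent.P159.TM.H104 (EM Cv li Ex)
open Vale.Agent.P159.T1.H897 (Hol)
open Vale.Agent.P159.H37
open Vale.Agent.P159.H896 (WM Chn cN Ph om Om WP)
open Vale.Agent.P159.H764 (mnW vrW lz BP PA dP)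
open Vale.Agent.P159.H864
open Vale.Agent.P159.TM.Spec (V)
open Vale.Agent.P159.TM.SpecC (wT)
open Vale.Agent.P159.H552 (idc)

noncomputable section

variable {N l : ℕ} [NeZero N] [NeZero (N / l)] {b t τ τ' : ℝ}

/-- the noise between the cell masses `τ` and `τ'` -/
def sg (τ τ' : ℝ) : ℝ := 1 / τ' - 1 / τ

lemma sg_pos (h1 : 0 < τ') (h2 : τ' < τ) : 0 < sg τ τ' := by
  unfold sg
  rw [sub_pos]
  exact one_div_lt_one_div_of_lt h1 h2

lemma sg_inv (h1 : 0 < τ') (h2 : τ' < τ) : (sg τ τ')⁻¹ = τ * τ' / (τ - τ') := by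
  unfold sg
  have h3 : τ ≠ 0 := (h1.trans h2).ne'
  have h4 : τ' ≠ 0 := h1.ne'
  have h5 : τ - τ' ≠ 0 := (sub_pos.2 h2).ne'
  have h6 : 1 / τ' - 1 / τ = (τ - τ') / (τ * τ') := by field_simp
  rw [h6, inv_div]

/-- the noise matrix of the cell step -/
def Bc (N l : ℕ) [NeZero N] [NeZero (N / l)] (τ τ' : ℝ) : Matrix (V N) (V (N / l)) ℝ :=
  √(sg τ τ') • (cobV N l)ᵀ

/-- the regression matrix of the cell step -/
def Kc (N l : ℕ) [NeZero N] [NeZero (N / l)] (τ τ' : ℝ) : Matrix (V (N / l)) (V N) ℝ :=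
  (√(sg τ τ') * τ / (1 + sg τ τ' * τ)) • cobV N l

theorem chn_MC (hl : l ∣ N) (h1 : 0 < τ') (h2 : τ' < τ) (h3 : τ ≤ t) :
    Chn (MC N l t τ) (MC N l t τ') (Bc N l τ τ') (Kc N l τ τ') := by
  have hτ : 0 < τ := h1.trans h2
  have hs := sg_pos h1 h2
  have h := H896.chn_row (M := MC N l t τ) (R := cobV N l) (τ := τ) (σ := sg τ τ')
    (MC_tr N l t τ) (fun u => le_trans (mul_nonneg hτ.le (Finset.sum_nonneg fun _ _ => sq_nonneg _))
      (qf_MC_ge hl h3 u)) (cobV_mul_tr hl) (MC_mul_tr hl t τ) hτ.le hs.le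
  have e : MC N l t τ - (sg τ τ' * τ ^ 2 / (1 + sg τ τ' * τ)) • ((cobV N l)ᵀ * cobV N l) =
      MC N l t τ' := by
    have h4 : τ' ≠ 0 := h1.ne'
    have h5 : τ ≠ 0 := hτ.ne'
    have h6 : sg τ τ' = (τ - τ') / (τ * τ') := by unfold sg; field_simp
    have h7 : 1 + sg τ τ' * τ = τ / τ' := by rw [h6]; field_simp; ring
    have h8 : sg τ τ' * τ ^ 2 / (1 + sg τ τ' * τ) = τ - τ' := by
      rw [h7, h6]; field_simp
    rw [← cellP_eq hl, h8, MC_eq, MC_eq, sub_sub, ← add_smul]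
    congr 2
    ring
  rw [e] at h
  exact h

theorem wb_wT (hb : 0 ≤ b) {M : Matrix (V N) (V N) ℝ} {m0 : ℝ} (hm0 : 0 < m0) (hS : Mᵀ = M)
    (hM : ∀ u : V N → ℝ, m0 * ∑ x, u x ^ 2 ≤ qf M u) : WB (wT b N) M where
  toWM := H896.wm_wT hb hm0 hS hM
  bdd := ⟨_, fun h => H789.wT_le hb h⟩
  coer := ⟨m0, hm0, hM⟩

theorem wb_MC (hb : 0 ≤ b) (hl : l ∣ N) (h1 : 0 < τ) (h3 : τ ≤ t) : WB (wT b N) (MC N l t τ) :=
  wb_wT hb h1 (MC_tr N l t τ) (qf_MC_ge hl h3)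

theorem wp_MC (hb : 0 ≤ b) (hl : l ∣ N) (h1 : 0 < τ) (h3 : τ ≤ t) : WP (wT b N) (MC N l t τ) :=
  H896.wp_wT hb h1 (MC_tr N l t τ) (qf_MC_ge hl h3)

theorem nx_MC (hb : 0 ≤ b) (hl : l ∣ N) (h1 : 0 < τ') (h2 : τ' < τ) (h3 : τ' ≤ t) {ω : ℝ}
    (hω0 : 0 ≤ ω) (hω1 : ω < 1)
    (hosc : ∀ F : V N → ℝ, |ZM (wT b N) (MC N l t τ) F - Zn (wT b N) (MC N l t τ) F| ≤
      ω * Zn (wT b N) (MC N l t τ) F) :
    NX (wT b N) (MC N l t τ) (MC N l t τ') (Bc N l τ τ') (fun _ => (l : ℝ) / √(sg τ τ'))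
      (sg τ τ' * τ') ω := by
  have hs := sg_pos h1 h2
  have hsq : 0 < √(sg τ τ') := Real.sqrt_pos.2 hs
  have hlp : (0 : ℝ) < l := by exact_mod_cast l_pos hl
  refine ⟨H159.hol_MC hb hl h3, fun i x => ?_, fun _ => by positivity, ?_, fun i j => ?_, hω0, hω1,
    hosc⟩
  · unfold Bc
    rw [Matrix.mul_smul, MC_mul_tr hl, Matrix.smul_apply, Matrix.smul_apply, transpose_apply,
      cobV_apply, smul_eq_mul, smul_eq_mul]
    refine mul_nonneg hsq.le (mul_nonneg h1.le ?_)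
    split_ifs <;> positivity
  · unfold Bc
    funext x
    rw [smul_mulVec, Pi.smul_apply, cobV_tr_mulVec, smul_eq_mul, Pi.one_apply]
    field_simp
  · unfold Bc
    rw [transpose_smul, transpose_transpose, Matrix.smul_mul, cobV_mul_MC hl, smul_smul,
      Matrix.smul_mul, Matrix.mul_smul, cobV_mul_tr hl, smul_smul, Matrix.smul_apply,
      Matrix.one_apply, smul_eq_mul]
    have e : √(sg τ τ') * τ' * √(sg τ τ') = sg τ τ' * τ' := by
      have := Real.mul_self_sqrt hs.le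
      linear_combination τ' * this
    rw [e]
    split_ifs <;> simp

/-- **near-convexity on the cells, every background** -/
theorem var_torus (hb : 0 ≤ b) (hl : l ∣ N) (h1 : 0 < τ') (h2 : τ' < τ) (h3 : τ ≤ t) {ω : ℝ}
    (hω0 : 0 ≤ ω) (hω1 : ω < 1)
    (hosc : ∀ F : V N → ℝ, |ZM (wT b N) (MC N l t τ) F - Zn (wT b N) (MC N l t τ) F| ≤
      ω * Zn (wT b N) (MC N l t τ) F) (f : V N → ℝ) (c : V (N / l) → ℝ) :
    vN (wT b N) (MC N l t τ) (Bc N l τ τ') f c ≤ (1 + ω) / (1 - ω) * ∑ i, c i ^ 2 :=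
  vN_le (chn_MC hl h1 h2 h3) (wb_MC hb hl h1 (h2.le.trans h3))
    (nx_MC hb hl h1 h2 (h2.le.trans h3) hω0 hω1 hosc) f c

lemma idc_eq (hl : l ∣ N) (x : V (N / l)) :
    (idc (cl : V N → V (N / l)) x) = (l : ℝ) • ((cobV N l)ᵀ *ᵥ (Pi.single x (1 : ℝ))) := by
  have hlp : (0 : ℝ) < l := by exact_mod_cast l_pos hl
  funext v
  rw [Pi.smul_apply, cobV_tr_mulVec, smul_eq_mul]
  unfold idc
  by_cases h : cl v = x
  · rw [if_pos h, h, Pi.single_eq_same]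
    field_simp
  · rw [if_neg h, Pi.single_eq_of_ne h]
    ring

lemma dPh_smul {V : Type*} [Fintype V] {w : (V → ℤ) → ℝ} {M : Matrix V V ℝ} (hM : Mᵀ = M)
    (hE : EM (wM w M)) (q : ℤ) (F g : V → ℝ) (r : ℝ) :
    H43.dPh w M q F (r • g) = r * H43.dPh w M q F g := by
  have h1 := H43.hasDerivAt_Phq hM hE q F (r • g) 0
  have h2 := H43.hasDerivAt_Phq hM hE q F g (0 * r)
  have h3 : HasDerivAt (fun s : ℝ => s * r) (1 * r) 0 := (hasDerivAt_id (0 : ℝ)).mul_const r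
  have h4 := h2.scomp (0 : ℝ) h3
  have e : (H43.Phq w M q ∘ fun s : ℝ => F + s • g) ∘ (fun s : ℝ => s * r) =
      fun s : ℝ => H43.Phq w M q (F + s • (r • g)) := by
    funext s
    simp only [Function.comp_apply, smul_smul]
  have h5 : HasDerivAt (fun s : ℝ => H43.Phq w M q (F + s • (r • g)))
      ((1 * r) • H43.dPh w M q (F + (0 * r) • g) g) 0 := by
    rw [← e]
    exact h4
  have h6 := h1.unique h5
  rw [zero_smul, add_zero, zero_mul, zero_smul, add_zero, one_mul] at h6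
  rw [h6, Complex.real_smul]

/-- **VB1 on the torus, one Gaussian step between cell masses, every background** -/
theorem vb1_torus (hb : 0 ≤ b) (hl : l ∣ N) (h1 : 0 < τ') (h2 : τ' < τ) (h3 : τ ≤ t) {ω : ℝ}
    (hω0 : 0 ≤ ω) (hω1 : ω < 1)
    (hosc : ∀ F : V N → ℝ, |ZM (wT b N) (MC N l t τ) F - Zn (wT b N) (MC N l t τ) F| ≤
      ω * Zn (wT b N) (MC N l t τ) F) (q : ℤ) (f : V N → ℝ) :
    ∑ x : V (N / l), ‖H43.dPh (wT b N) (MC N l t τ') q f (idc cl x)‖ ^ 2 ≤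
      (l : ℝ) ^ 2 * (τ * τ' / (τ - τ')) * ((1 + ω) / (1 - ω)) *
        om (wT b N) (MC N l t τ) q ^ 2 := by
  have hW := wb_MC (b := b) hb hl h1 (h2.le.trans h3)
  have h := grad_om_le (chn_MC hl h1 h2 h3) hW (nx_MC hb hl h1 h2 (h2.le.trans h3) hω0 hω1 hosc) q f
  have hs := sg_pos h1 h2
  have e1 : ∀ x : V (N / l), ‖H43.dPh (wT b N) (MC N l t τ') q f (idc cl x)‖ ^ 2 =
      ((l : ℝ) ^ 2 * (sg τ τ')⁻¹) *
        ‖H43.dPh (wT b N) (MC N l t τ') q f (Bc N l τ τ' *ᵥ (Pi.single x 1))‖ ^ 2 := by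
    intro x
    rw [idc_eq hl, dPh_smul hW.sym hW.em]
    unfold Bc
    rw [smul_mulVec, dPh_smul hW.sym hW.em, norm_mul, norm_mul, Complex.norm_real,
      Complex.norm_real, mul_pow, mul_pow, Real.norm_eq_abs, Real.norm_eq_abs, sq_abs, sq_abs,
      Real.sq_sqrt hs.le]
    field_simp
  simp_rw [e1]
  rw [← Finset.mul_sum, sg_inv h1 h2]
  rw [sg_inv h1 h2] at e1
  have h4 : 0 ≤ (l : ℝ) ^ 2 * (τ * τ' / (τ - τ')) := by
    have : 0 < τ - τ' := sub_pos.2 h2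
    have : 0 < τ := h1.trans h2
    positivity
  calc (l : ℝ) ^ 2 * (τ * τ' / (τ - τ')) *
        ∑ x : V (N / l), ‖H43.dPh (wT b N) (MC N l t τ') q f (Bc N l τ τ' *ᵥ (Pi.single x 1))‖ ^ 2
      ≤ (l : ℝ) ^ 2 * (τ * τ' / (τ - τ')) * ((1 + ω) / (1 - ω) *
        om (wT b N) (MC N l t τ) q ^ 2) := mul_le_mul_of_nonneg_left h h4
    _ = _ := by ring

/-- the step from `2 τ` to `τ`, total activity as oscillation -/
theorem vb1_half (hb : 0 ≤ b) (hl : l ∣ N) (h1 : 0 < τ) (h3 : 2 * τ ≤ t)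
    (hO : Om (wT b N) (MC N l t (2 * τ)) ≤ 1 / 2) (q : ℤ) (f : V N → ℝ) :
    ∑ x : V (N / l), ‖H43.dPh (wT b N) (MC N l t τ) q f (idc cl x)‖ ^ 2 ≤
      6 * (τ * (l : ℝ) ^ 2) * om (wT b N) (MC N l t (2 * τ)) q ^ 2 := by
  have hP := wp_MC (b := b) hb hl (by linarith : 0 < 2 * τ) h3
  have h0 := H896.Om_nonneg hP
  have h := vb1_torus hb hl h1 (by linarith : τ < 2 * τ) h3 h0 (by linarith)
    (fun F => by simpa using H896.abs_ZM_sub_le hP F 0) q f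
  refine h.trans (mul_le_mul_of_nonneg_right ?_ (sq_nonneg _))
  have e : 2 * τ * τ / (2 * τ - τ) = 2 * τ := by
    have : 2 * τ - τ = τ := by ring
    rw [this]
    field_simp
  rw [e]
  have h5 : (1 + Om (wT b N) (MC N l t (2 * τ))) / (1 - Om (wT b N) (MC N l t (2 * τ))) ≤ 3 := by
    rw [div_le_iff₀ (by linarith)]
    linarith
  have h6 : 0 ≤ (l : ℝ) ^ 2 * (2 * τ) := by positivity
  calc (l : ℝ) ^ 2 * (2 * τ) * ((1 + Om (wT b N) (MC N l t (2 * τ))) /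
        (1 - Om (wT b N) (MC N l t (2 * τ)))) ≤ (l : ℝ) ^ 2 * (2 * τ) * 3 :=
        mul_le_mul_of_nonneg_left h5 h6
    _ = _ := by ring

end

end Vale.Agent.P159.H963
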